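import Crest.Agent.R298.CLAux

/-! Row 298: the substitution lemma of the model, by closures and leftmost normalization. -/

set_option autoImplicit false

namespace Crest.Agent.R298
open Crest.LogicCS.PTS Crest.LogicCS.PTS.Term Clo

universe u
variable {S : Type u} {P : Spec S} {U : Univ P} {s0 : S}

namespace Sem
variable (Z : Sem U s0)

/-- The closure statement at height `n` for the closure `c`. -/
def CLS (n : ℕ) (c : Clo S) : Prop :=
  ∀ {Γ0 : Ctx S} {σ : ℕ → Term S} {ρ : ℕ → Z.D.V} {E F : Term S} {st : List (Clo S)}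
    {args : List (Term S × Z.D.V)}, Good U Γ0 → SubTy P U.Θ σ Γ0 → Z.InvD (tau Γ0 σ) ρ →
    CT U s0 Γ0 σ c E → ST U s0 Γ0 σ E st F → Path U s0 (nf (sub σ F)) (args.map Prod.fst) →
    Z.Adm (nf (sub σ F)) args →
    (Nd U s0 (nf (sub σ E)) ∨ (st = [] ∧ args = []) ∨ CNeu c) →
    W n (apps (unf c) (st.map unf)) →
    Z.val (nf (apps (unf c) (st.map unf))) σ (tau Γ0 σ) ρ args
      = Z.cval σ (tau Γ0 σ) ρ c (Z.svals σ (tau Γ0 σ) ρ st ++ args)

variable (hD : ∀ t, InD P s0 t → App U t) (hc : ¬ Config P s0)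

theorem nargs_stack {n : ℕ} (ih : ∀ c, Z.CLS n c) {Γ0 : Ctx S} {σ : ℕ → Term S}
    {ρ : ℕ → Z.D.V} (hΓ : Good U Γ0) (hσ : SubTy P U.Θ σ Γ0) (hρ : Z.InvD (tau Γ0 σ) ρ)
    {E F : Term S} {st : List (Clo S)} {args : List (Term S × Z.D.V)}
    (h : ST U s0 Γ0 σ E st F) (hp : Path U s0 (nf (sub σ F)) (args.map Prod.fst))
    (hN : Nd U s0 (nf (sub σ E))) (hW : ∀ c ∈ st, W n (unf c)) :
    nargs Z.N (nf (sub σ E))
        (((st.map unf).map nf).map
          (fun m => (nf (sub σ m), Z.D.lam (Z.val m σ (tau Γ0 σ) ρ))) ++ args)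
      = nargs Z.N (nf (sub σ E)) (Z.svals σ (tau Γ0 σ) ρ st ++ args) := by
  induction h with
  | nil h => rfl
  | @cons E A B F s c l h1 h2 h3 h4 h5 h6 ih' =>
    obtain ⟨e1, e2, e3⟩ := st_shape hσ h1 h2 h5
    have hpath := Z.st_path (ρ := ρ) hσ (ST.cons h1 h2 h3 h4 h5 h6) hp
    rw [e1] at hN hpath
    have hNd := hN.pi hpath
    have ew : nf (sub σ (nf (unf c))) = nf (sub σ (unf c)) := nf_sub_nf σ (hΓ.wn h5)
    rw [e1]
    simp only [List.map_cons, List.cons_append, svals_cons, nargs_pi_cons, ew]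
    rw [e2] at hNd ⊢
    rw [ih' hp hNd.2 (fun c hc => hW c (List.mem_cons_of_mem _ hc))]
    congr 2
    refine Z.N_lam_congr (fun t ht hpt => ?_)
    exact ih c (st := []) hΓ hσ hρ h3 (ST.nil (beq_refl _)) hpt (Z.adm_of_smL ht) (Or.inl hNd.1)
      (hW c List.mem_cons_self)

theorem cls_base {n : ℕ} (ih : ∀ c, Z.CLS n c) (i : ℕ) : Z.CLS (n + 1) (.base i) := by
  intro Γ0 σ ρ E F st args hΓ hσ hρ hct hst hp _ _ hW
  have hE : tau Γ0 σ i = nf (sub σ E) := by
    cases hct with
    | base h => exact (nf_congr (beq_sub σ h)).symm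
  rw [unf_base] at hW ⊢
  rw [nf_apps_var hW.wn, val_apps, cval_base]
  rcases hρ i with hd | ⟨hN, _⟩
  · rw [Z.val_dummy (Neu.var i) hd, Z.val_dummy (Neu.var i) hd]
  · have hWs : ∀ c ∈ st, W n (unf c) := fun c hc =>
      W.apps_inv (Stuck.var i) hW _ (List.mem_map_of_mem hc)
    rw [hE] at hN
    have key := Z.nargs_stack ih hΓ hσ hρ hst hp hN hWs
    rw [val_var, val_var, hE]
    refine trunc_congr ?_ (fun _ => by rw [key])
    have := congrArg (List.map Prod.fst) key
    simpa only [map_fst_nargs] using this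

include hD hc in
theorem cls_var {n : ℕ} {Γ : Ctx S} {γ : ℕ → Clo S} (y : ℕ) (ih : Z.CLS n (γ y)) :
    Z.CLS n (.mk Γ (var y) γ) := by
  intro Γ0 σ ρ E F st args hΓ hσ hρ hct hst hp hadm _ hW
  cases hct with
  | @mk _ _ Et _ _ h1 h2 h3 h4 h5 h6 h7 =>
    have hEy : BetaEq (sub (fun y => unf (γ y)) (Γ y)) E :=
      beq_trans (beq_sub _ h3.gen_var) (beq_symm h4)
    have hst' := hst.conv hEy
    have hτ : tau Γ (csub σ γ) y = nf (sub σ (sub (fun y => unf (γ y)) (Γ y))) := by
      simp only [tau]; rw [sub_csub]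
    have hpath := Z.st_path (ρ := ρ) hσ hst' hp
    have hadm' := Z.st_adm hD hc hσ hρ hst' hadm
    have h6y := h6 y
    have h7y := h7 y
    rw [hτ] at h7y
    change Z.val (nf (apps (unf (γ y)) (st.map unf))) σ (tau Γ0 σ) ρ args = _
    change W n (apps (unf (γ y)) (st.map unf)) at hW
    rw [cval_mk, val_var, hτ, trunc_pos _ hpath]
    simp only [cenv, hτ]
    generalize γ y = c at h6y h7y ih hW ⊢
    generalize sub (fun y => unf (γ y)) (Γ y) = T at h6y h7y hst' hpath hadm' ⊢
    cases c with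
    | base i =>
      rw [ih hΓ hσ hρ h6y hst' hp hadm (Or.inr (Or.inr trivial)) hW, cval_base, val_var]
      have hE : tau Γ0 σ i = nf (sub σ T) := by
        cases h6y with
        | base h => exact (nf_congr (beq_sub σ h)).symm
      rw [hE, trunc_pos _ hpath]
      rfl
    | mk Γ1 t1 γ1 =>
      have hN : Nd U s0 (nf (sub σ T)) := h7y.resolve_left (fun h => h)
      rw [ih hΓ hσ hρ h6y hst' hp hadm (Or.inl hN) hW]
      symm
      refine Z.eval_N_lam (Z.resp_cval hσ h6y (fun h => h)) hpath ?_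
      rcases hN with he | ho
      · exact Or.inr (Or.inr (Z.smL_nargs_of_even he hpath hadm'))
      · exact Or.inr (Or.inl (Z.ss_cval hD hc hσ hρ h6y (fun h => h) ho))

theorem cls_sort {n : ℕ} {Γ : Ctx S} {γ : ℕ → Clo S} (s : S) :
    Z.CLS n (.mk Γ (sort s) γ) := by
  intro Γ0 σ ρ E F st args hΓ hσ hρ hct hst hp _ _ hW
  cases hct with
  | @mk _ _ Et _ _ h1 h2 h3 h4 h5 h6 h7 =>
    obtain ⟨s', _, hs'⟩ := h3.gen_sort
    have hE : nf (sub σ E) = sort s' := by
      rw [nf_congr (beq_sub σ (beq_trans h4 (beq_sub _ (beq_symm hs'))))]; simp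
    have hpath := Z.st_path (ρ := ρ) hσ hst hp
    rw [hE, path_sort_iff] at hpath
    have hst0 : st = [] := by
      cases st with
      | nil => rfl
      | cons c l => simp at hpath
    subst hst0
    simp only [unf_mk, sub_sort, List.map_nil, apps_nil, nf_sort, cval_mk, val_sort]

theorem cls_app {n : ℕ} {Γ : Ctx S} {γ : ℕ → Clo S} {m a : Term S}
    (ih : Z.CLS n (.mk Γ m γ)) : Z.CLS n (.mk Γ (app m a) γ) := by
  intro Γ0 σ ρ E F st args hΓ hσ hρ hct hst hp hadm _ hW
  cases hct with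
  | @mk _ _ Et _ _ h1 h2 h3 h4 h5 h6 h7 =>
    obtain ⟨hs, hm, ha⟩ := normal_app_iff.1 h2
    obtain ⟨A, B, tm, ta, hB⟩ := h3.gen_app
    have hneu : Neu m := tm.neu_of_stuck (beq_refl _) hs
    obtain ⟨s, hs⟩ := tm.correct_pi h1.1
    have c1 : CT U s0 Γ0 σ (.mk Γ m γ) (sub (fun y => unf (γ y)) (pi A B)) :=
      .mk h1 hm tm (beq_refl _) h5 h6 h7
    have c2 : CT U s0 Γ0 σ (.mk Γ a γ) (sub (fun y => unf (γ y)) A) :=
      .mk h1 ha ta (beq_refl _) h5 h6 h7
    have st' : ST U s0 Γ0 σ (sub (fun y => unf (γ y)) (pi A B)) (.mk Γ a γ :: st) F := by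
      refine .cons (beq_refl _) (hs.sub_sort h5) c2 (fun h => h) (ta.sub h5) (hst.conv ?_)
      rw [unf_mk, ← sub_inst']
      exact beq_trans (beq_sub _ hB) (beq_symm h4)
    have := ih hΓ hσ hρ c1 st' hp hadm (Or.inr (Or.inr hneu)) hW
    rw [cval_mk, val_app]
    rw [cval_mk, svals_cons, unf_mk, unf_mk, sub_csub] at this
    exact this

theorem cls_lam {n : ℕ} (ih : ∀ c, Z.CLS n c) {Γ : Ctx S} {γ : ℕ → Clo S} {A b : Term S} :
    Z.CLS (n + 1) (.mk Γ (lam A b) γ) := by
  intro Γ0 σ ρ E F st args hΓ hσ hρ hct hst hp hadm hpos hW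
  cases hct with
  | @mk _ _ Et _ _ h1 h2 h3 h4 h5 h6 h7 =>
    have hU := good_univ U
    obtain ⟨hAn, hbn⟩ := normal_lam_iff.1 h2
    obtain ⟨B, s, tb, tpi, hB⟩ := h3.gen_lam
    obtain ⟨s₁, s₂, _, tA, tB⟩ := tpi.gen_pi_sort
    have hEpi : BetaEq E (sub (fun y => unf (γ y)) (pi A B)) :=
      beq_trans h4 (beq_sub _ (beq_symm hB))
    have hσγ : SubTy P U.Θ (csub σ γ) Γ := h5.comp hσ
    obtain ⟨e1, e2⟩ := hU.nf_sub_pi hσγ tpi
    have hE : nf (sub σ E) = pi (nf (sub (csub σ γ) A)) (nf (sub (up (csub σ γ)) B)) := by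
      rw [nf_congr (beq_sub σ hEpi), sub_csub, e1]
    have hpath := Z.st_path (ρ := ρ) hσ hst hp
    have hN : Nd U s0 (nf (sub σ E)) := by
      rcases hpos with h | ⟨rfl, rfl⟩ | h
      · exact h
      · rw [hE] at hpath
        obtain ⟨t, ht, _⟩ := path_nil_iff.1 hpath
        cases ht
      · cases h
    have tAγ : Ty P Γ0 (sub (fun y => unf (γ y)) A) (sort s₁) := tA.sub_sort h5
    rw [hE] at hN hpath
    cases hst with
    | nil hEF =>
      have hF : nf (sub σ F) = pi (nf (sub (csub σ γ) A)) (nf (sub (up (csub σ γ)) B)) := by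
        rw [← hE]; exact (nf_congr (beq_sub σ hEF)).symm
      rw [hF] at hp hadm
      cases args with
      | nil => obtain ⟨t, ht, _⟩ := path_nil_iff.1 hp; cases ht
      | cons p args =>
        simp only [List.map_cons] at hp
        have hNd := hN.pi hp
        obtain ⟨ta, hp'⟩ := path_pi_cons_iff.1 hp
        obtain ⟨hsm, hadm'⟩ := (Z.adm_pi_cons _ _ _ _).1 hadm
        rw [e2] at hp' hadm' hNd
        have ta' : Ty P U.Θ p.1 (sub σ (sub (fun y => unf (γ y)) A)) := by
          rw [sub_csub]; exact (hU.ty_nf_iff (tA.sub_sort hσγ)).1 ta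
        have hct' := ct_under (a := p.1) h1 tA hbn tb h5 h6 h7
        have eτ : tau (ext Γ0 (sub (fun y => unf (γ y)) A)) (scons p.1 σ)
            = scons (nf (sub (csub σ γ) A)) (tau Γ0 σ) := by rw [tau_ext, sub_csub]
        have eB : sub (scons p.1 σ) (sub (up (fun y => unf (γ y))) B)
            = sub (scons p.1 (csub σ γ)) B := by rw [sub_scons_up]; rfl
        simp only [unf_mk, sub_lam, List.map_nil, apps_nil] at hW ⊢
        have hWb := (W.lam_inv hW).2
        have := ih _ (ρ := scons (Z.N (nf (sub (csub σ γ) A)) p.2) ρ) (st := []) (args := args)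
          (hΓ.ext tAγ) (hσ.cons ta') (by rw [eτ]; exact Z.invD_scons hρ hNd.1 hsm) hct'
          (ST.nil (beq_refl _)) (by rw [eB]; exact hp') (by rw [eB]; exact hadm')
          (Or.inl (by rw [eB]; exact hNd.2)) (by simpa only [unf_mk, unf_upc, List.map_nil, apps_nil] using hWb)
        simp only [unf_mk, unf_upc, List.map_nil, apps_nil, svals_nil, List.nil_append] at this
        rw [eτ, cval_mk, cenv_upc, csub_upc, tau_ext] at this
        rw [nf_lam hW.wn, val_lam_cons, nf_sub_nf σ (hΓ.wn tAγ), sub_csub, this, cval_mk,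
          svals_nil, List.nil_append, val_lam_cons]
    | @cons _ A1 B1 _ s' c l g1 g2 g3 g4 g5 g6 =>
      obtain ⟨eA, eB⟩ := beq_pi_inj (beq_trans (beq_symm g1) hEpi)
      have tc : Ty P Γ0 (unf c) (sub (fun y => unf (γ y)) A) := g5.conv tAγ eA
      simp only [svals_cons, List.cons_append, List.map_cons] at hpath
      have hNd := hN.pi hpath
      rw [e2] at hNd
      have hwn : WN (sub σ (unf c)) := U.wn (g5.sub hσ)
      have hbq : ∀ i, BetaEq (scons (nf (sub σ (unf c))) (csub σ γ) i)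
          (scons (sub σ (unf c)) (csub σ γ) i) := by
        intro i
        cases i with
        | zero => exact nf_beq hwn
        | succ i => exact beq_refl _
      have eT : BetaEq (inst (unf c) B1) (sub (scons (unf c) (fun y => unf (γ y))) B) := by
        rw [← inst_sub_up]; exact beq_inst (beq_refl _) eB
      have hct' : CT U s0 Γ0 σ (.mk (ext Γ A) b (scons c γ)) (inst (unf c) B1) := by
        refine .mk (h1.ext tA) hbn tb ?_ ?_ ?_ ?_
        · rw [unf_scons]; exact eT
        · rw [unf_scons]; exact h5.cons tc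
        · intro y
          rw [unf_scons]
          cases y with
          | zero => simpa using g3.conv (beq_symm eA)
          | succ y => simpa using h6 y
        · intro y
          rw [csub_scons, tau_ext]
          cases y with
          | zero => exact Or.inr hNd.1
          | succ y => exact h7 y
      have hwh : Wh (apps (unf (.mk Γ (lam A b) γ)) ((c :: l).map unf))
          (apps (unf (.mk (ext Γ A) b (scons c γ))) (l.map unf)) := by
        simp only [unf_mk, sub_lam, List.map_cons, apps_cons, unf_scons]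
        rw [← inst_sub_up]
        exact (Wh.beta _ _ _).apps _
      have hN' : Nd U s0 (nf (sub σ (inst (unf c) B1))) := by
        rw [nf_congr (beq_sub σ eT), sub_sub_scons]
        rw [nf_congr (beq_sub_right hbq B)] at hNd
        exact hNd.2
      have := ih _ hΓ hσ hρ hct' g6 hp hadm (Or.inl hN') (hW.wh_inv hwh)
      rw [nf_congr (beq_of_beta hwh.toBeta), this, cval_mk, cval_mk, svals_cons,
        List.cons_append, val_lam_cons, csub_scons, tau_ext, Z.cenv_scons_mk Γ A γ g4,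
        Z.val_beq b hbq]

include hD hc in
theorem cls_pi {n : ℕ} (ih : ∀ c, Z.CLS n c) {Γ : Ctx S} {γ : ℕ → Clo S} {A B : Term S} :
    Z.CLS (n + 1) (.mk Γ (pi A B) γ) := by
  intro Γ0 σ ρ E F st args hΓ hσ hρ hct hst hp _ _ hW
  cases hct with
  | @mk _ _ Et _ _ h1 h2 h3 h4 h5 h6 h7 =>
    have hU := good_univ U
    obtain ⟨hAn, hBn⟩ := normal_pi_iff.1 h2
    obtain ⟨s₁, s₂, s₃, hr, tA, tB, hs⟩ := h3.gen_pi
    have hE : nf (sub σ E) = sort s₃ := by
      rw [nf_congr (beq_sub σ (beq_trans h4 (beq_sub _ (beq_symm hs))))]; simp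
    have hpath := Z.st_path (ρ := ρ) hσ hst hp
    rw [hE, path_sort_iff] at hpath
    obtain ⟨hnil, h₃⟩ := hpath
    have hst0 : st = [] := by
      cases st with
      | nil => rfl
      | cons c l => simp at hnil
    subst hst0
    have hσγ : SubTy P U.Θ (csub σ γ) Γ := h5.comp hσ
    have tAγ : Ty P Γ0 (sub (fun y => unf (γ y)) A) (sort s₁) := tA.sub_sort h5
    have tBγ : Ty P (ext Γ0 (sub (fun y => unf (γ y)) A)) (sub (up (fun y => unf (γ y))) B)
        (sort s₂) := tB.sub_sort (h5.up A)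
    have hΓ' := hΓ.ext tAγ
    obtain ⟨l₁, l₂⟩ := h₃.inL.rule hr
    simp only [unf_mk, sub_pi, List.map_nil, apps_nil] at hW ⊢
    obtain ⟨hWA, hWB⟩ := W.pi_inv hW
    have eA : nf (sub σ (nf (sub (fun y => unf (γ y)) A))) = nf (sub (csub σ γ) A) := by
      rw [nf_sub_nf σ (hΓ.wn tAγ), sub_csub]
    have redA : Z.red (nf (sub (fun y => unf (γ y)) A)) σ (tau Γ0 σ) ρ
        = Z.red A (csub σ γ) (tau Γ (csub σ γ)) (Z.cenv σ (tau Γ0 σ) ρ Γ γ) := by
      rcases l₁.cases with c₁ | d₁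
      · have c1 : CT U s0 Γ0 σ (.mk Γ A γ) (sort s₁) := .mk h1 hAn tA (beq_refl _) h5 h6 h7
        have := ih _ (st := []) (args := []) hΓ hσ hρ c1 (ST.nil (beq_refl _))
          (by simpa using Path.nil c₁) (Z.adm_nil _) (Or.inr (Or.inl ⟨rfl, rfl⟩)) hWA
        simp only [unf_mk, List.map_nil, apps_nil, svals_nil, List.nil_append] at this
        rw [red, red, eA, this, cval_mk]
      · rw [Z.red_of_inD hD hΓ hσ (nf_normal' _) (hΓ.ty_nf tAγ) d₁,
          Z.red_of_inD hD h1 hσγ hAn tA d₁, eA]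
    have redB : ∀ a, Ty P U.Θ a (nf (sub (csub σ γ) A)) → ∀ w,
        Z.red (nf (sub (up (fun y => unf (γ y))) B)) (scons a σ)
          (scons (nf (sub (csub σ γ) A)) (tau Γ0 σ)) (scons (Z.N (nf (sub (csub σ γ) A)) w) ρ)
        = Z.red B (scons a (csub σ γ)) (scons (nf (sub (csub σ γ) A)) (tau Γ (csub σ γ)))
          (scons (Z.N (nf (sub (csub σ γ) A)) w) (Z.cenv σ (tau Γ0 σ) ρ Γ γ)) := by
      intro a ta w
      have ta0 : Ty P U.Θ a (sub (csub σ γ) A) := (hU.ty_nf_iff (tA.sub_sort hσγ)).1 ta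
      have ta' : Ty P U.Θ a (sub σ (sub (fun y => unf (γ y)) A)) := by
        rw [sub_csub]; exact ta0
      have eτ : tau (ext Γ0 (sub (fun y => unf (γ y)) A)) (scons a σ)
          = scons (nf (sub (csub σ γ) A)) (tau Γ0 σ) := by rw [tau_ext, sub_csub]
      have eB : nf (sub (scons a σ) (nf (sub (up (fun y => unf (γ y))) B)))
          = nf (sub (scons a (csub σ γ)) B) := by
        rw [nf_sub_nf _ (hΓ'.wn tBγ), sub_scons_up]; rfl
      rcases l₂.cases with c₂ | d₂
      · have hI : InI P s0 s₁ := ⟨s₂, s₃, hr, c₂, h₃⟩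
        have he : ParT U s0 false (nf (sub (csub σ γ) A)) :=
          ⟨s₁, hI.par, hU.ty_nf (tA.sub_sort hσγ)⟩
        have hct' := ct_under (a := a) h1 tA hBn tB h5 h6 h7
        have := ih _ (ρ := scons (Z.N (nf (sub (csub σ γ) A)) w) ρ) (st := []) (args := [])
          hΓ' (hσ.cons ta')
          (by
            rw [eτ]
            exact Z.invD_scons hρ (Or.inl he)
              (fun ho => Z.N_sm_of_ac (ac_of_both hc (nf_normal' _) he ho) w))
          hct' (ST.nil (beq_refl _)) (by simpa using Path.nil c₂) (Z.adm_nil _)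
          (Or.inr (Or.inl ⟨rfl, rfl⟩)) (by simpa only [unf_mk, unf_upc, List.map_nil, apps_nil] using hWB)
        simp only [unf_mk, unf_upc, List.map_nil, apps_nil, svals_nil, List.nil_append] at this
        rw [eτ, cval_mk, cenv_upc, csub_upc, tau_ext] at this
        rw [red, red, eB, this]
      · rw [← eτ, Z.red_of_inD hD hΓ' (hσ.cons ta') (nf_normal' _) (hΓ'.ty_nf tBγ) d₂,
          ← tau_ext, Z.red_of_inD hD (h1.ext tA) (hσγ.cons ta0) hBn tB d₂, eB]
    have ePi : nf (sub σ (pi (nf (sub (fun y => unf (γ y)) A))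
        (nf (sub (up (fun y => unf (γ y))) B)))) = nf (sub (csub σ γ) (pi A B)) := by
      rw [← nf_pi hW.wn, nf_sub_nf σ hW.wn, ← sub_csub]; rfl
    rw [nf_pi hW.wn, cval_mk, val_pi, val_pi, ePi, eA, redA]
    ext f
    simp only [Set.mem_ofPred_eq]
    refine and_congr_right (fun _ => forall₂_congr (fun a ha => forall_congr' (fun w => ?_)))
    rw [redB a ((isCand_fixc _ _).sub ha).1 w]

include hD hc in
theorem cls_all (n : ℕ) : ∀ c, Z.CLS n c := by
  induction n with
  | zero =>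
    intro c Γ0 σ ρ E F st args _ _ _ _ _ _ _ _ hW
    exact (not_W_zero _ hW).elim
  | succ n ih =>
    intro c
    induction c with
    | base i => exact Z.cls_base ih i
    | mk Γ t γ ihc =>
      induction t with
      | var y => exact Z.cls_var hD hc y (ihc y)
      | sort s => exact Z.cls_sort s
      | app m a ihm _ => exact Z.cls_app ihm
      | lam A b _ _ => exact Z.cls_lam ih
      | pi A B _ _ => exact Z.cls_pi hD hc ih

/-- The substitution lemma. -/
theorem val_subst (hD : ∀ t, InD P s0 t → App U t) (hc : ¬ Config P s0) {Γ : Ctx S}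
    {σ : ℕ → Term S} {ρ : ℕ → Z.D.V} {A B N : Term S} {s₁ s₂ : S} (hΓ : Good U Γ)
    (hσ : SubTy P U.Θ σ Γ) (hρ : Z.InvD (tau Γ σ) ρ) (hA : Ty P Γ A (sort s₁))
    (hB : Ty P (ext Γ A) B (sort s₂)) (hBn : Normal B) (h₂ : InC P s0 s₂)
    (he : ParT U s0 false (nf (sub σ A))) (hN : Ty P Γ N A) :
    Z.val (nf (inst N B)) σ (tau Γ σ) ρ []
      = Z.val B (scons (sub σ N) σ) (scons (nf (sub σ A)) (tau Γ σ))
          (scons (Z.N (nf (sub σ A)) (Z.D.lam (Z.val (nf N) σ (tau Γ σ) ρ))) ρ) [] := by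
  have hN' : Ty P Γ (nf N) A := hΓ.ty_nf hN
  have ebase : (fun y => unf (Clo.base y : Clo S)) = var := rfl
  have cb : ∀ y, CT U s0 Γ σ (.base y) (Γ y) := fun y => .base (beq_refl _)
  have c1 : CT U s0 Γ σ (.mk Γ (nf N) .base) A := by
    refine .mk hΓ (nf_normal' _) hN' ?_ ?_ ?_ (fun y => Or.inl trivial)
    · rw [ebase, sub_id]; exact beq_refl _
    · rw [ebase]; exact subTy_id
    · intro y; rw [ebase, sub_id]; exact cb y
  have eu : (fun y => unf (scons (Clo.mk Γ (nf N) .base) Clo.base y)) = scons (nf N) var := by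
    rw [unf_scons, unf_mk, ebase, sub_id]
  have c2 : CT U s0 Γ σ (.mk (ext Γ A) B (scons (.mk Γ (nf N) .base) .base)) (sort s₂) := by
    refine .mk (hΓ.ext hA) hBn hB (beq_refl _) ?_ ?_ ?_
    · rw [eu]; exact subTy_id.cons (by rw [sub_id]; exact hN')
    · intro y
      rw [eu]
      cases y with
      | zero => simpa using c1
      | succ y => simpa using cb y
    · intro y
      rw [csub_scons, tau_ext]
      cases y with
      | zero => exact Or.inr (Or.inl he)
      | succ y => exact Or.inl trivial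
  have hty : Ty P Γ (inst (nf N) B) (sort s₂) := hB.inst hN'
  obtain ⟨n, hn⟩ := exists_W_of_wn (hΓ.wn hty)
  have := Z.cls_all hD hc n _ (st := []) (args := []) hΓ hσ hρ c2 (ST.nil (beq_refl _))
    (by simpa using Path.nil h₂) (Z.adm_nil _) (Or.inr (Or.inl ⟨rfl, rfl⟩))
    (by rw [unf_mk, eu]; exact hn)
  rw [unf_mk, eu, cval_mk, csub_scons, tau_ext,
    Z.cenv_scons_mk Γ A _ (c := .mk Γ (nf N) .base) (fun h => h), cval_mk,
    csub_base, cenv_base, unf_mk, ebase, sub_id] at this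
  have hb : BetaEq (nf N) N := nf_beq (hΓ.wn hN)
  have hbq : ∀ i, BetaEq (scons (sub σ (nf N)) σ i) (scons (sub σ N) σ i) := by
    intro i
    cases i with
    | zero => exact beq_sub σ hb
    | succ i => exact beq_refl _
  rw [← Z.val_beq B hbq, ← nf_congr (beq_inst hb (beq_refl B))]
  exact this

end Sem

end Crest.Agent.R298
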