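import Crest.Agent.R298.Nf

/-! Row 298: standardization. `W n M`: the leftmost normalization of `M` terminates, with a
derivation of height at most `n`. -/

set_option autoImplicit false

namespace Crest.Agent.R298
open Crest.LogicCS.PTS Crest.LogicCS.PTS.Term

universe u
variable {S : Type u}

/-- Leftmost normalization with a height bound. -/
inductive W : ℕ → Term S → Prop
  | var (n i : ℕ) : W (n + 1) (var i)
  | sort (n : ℕ) (s : S) : W (n + 1) (sort s)
  | lam {n : ℕ} {A b : Term S} : W n A → W n b → W (n + 1) (lam A b)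
  | pi {n : ℕ} {A B : Term S} : W n A → W n B → W (n + 1) (pi A B)
  | app {n : ℕ} {M N : Term S} : Stuck M → W n M → W n N → W (n + 1) (app M N)
  | wh {n : ℕ} {M M' : Term S} : Wh M M' → W n M' → W (n + 1) M

/-- `M` needs at least as much leftmost height as `N`. -/
def Ge (M N : Term S) : Prop := ∀ n, W n M → W n N
/-- `M` needs strictly more leftmost height than `N`. -/
def Gt (M N : Term S) : Prop := ∀ n, W (n + 1) M → W n N

theorem not_W_zero (M : Term S) : ¬ W 0 M := fun h => by cases h

theorem W.succ {n : ℕ} {M : Term S} (h : W n M) : W (n + 1) M := by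
  induction h with
  | var n i => exact W.var _ _
  | sort n s => exact W.sort _ _
  | lam _ _ ihA ihb => exact W.lam ihA ihb
  | pi _ _ ihA ihb => exact W.pi ihA ihb
  | app hs _ _ ihM ihN => exact W.app hs ihM ihN
  | wh hw _ ih => exact W.wh hw ih

theorem W.mono {n m : ℕ} {M : Term S} (h : W n M) (hnm : n ≤ m) : W m M := by
  induction hnm with
  | refl => exact h
  | step _ ih => exact ih.succ

theorem W.wn {n : ℕ} {M : Term S} (h : W n M) : WN M := by
  induction h with
  | var n i => exact wn_of_normal (normal_var i)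
  | sort n s => exact wn_of_normal (normal_sort s)
  | lam _ _ ihA ihb => exact wn_lam_iff.2 ⟨ihA, ihb⟩
  | pi _ _ ihA ihb => exact wn_pi_iff.2 ⟨ihA, ihb⟩
  | app hs _ _ ihM ihN => exact (wn_app_stuck_iff hs).2 ⟨ihM, ihN⟩
  | wh hw _ ih => exact wn_of_beq (beq_symm (beq_of_beta hw.toBeta)) ih

theorem W.wh_inv_aux {n : ℕ} {M M' : Term S} (h : W (n + 1) M) (hw : Wh M M') : W n M' := by
  cases h with
  | var n i => exact absurd hw (Stuck.var i).not_wh
  | sort n s => exact absurd hw (Stuck.sort s).not_wh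
  | lam _ _ => cases hw
  | pi _ _ => exact absurd hw (Stuck.pi _ _).not_wh
  | app hs _ _ => exact absurd hw (Stuck.app _ hs).not_wh
  | wh hw' h' => exact (hw'.det hw) ▸ h'

/-- Many weak head steps. -/
abbrev WhS (M N : Term S) : Prop := Relation.ReflTransGen Wh M N

theorem WhS.appL {M M' : Term S} (N : Term S) (h : WhS M M') :
    WhS (Term.app M N) (Term.app M' N) := by
  induction h with
  | refl => exact Relation.ReflTransGen.refl
  | tail _ hw ih => exact ih.tail (Wh.app N hw)

theorem WhS.ren {M M' : Term S} (ξ : ℕ → ℕ) (h : WhS M M') : WhS (ren ξ M) (ren ξ M') := by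
  induction h with
  | refl => exact Relation.ReflTransGen.refl
  | tail _ hw ih => exact ih.tail (hw.ren ξ)

theorem WhS.sub {M M' : Term S} (σ : ℕ → Term S) (h : WhS M M') :
    WhS (sub σ M) (sub σ M') := by
  induction h with
  | refl => exact Relation.ReflTransGen.refl
  | tail _ hw ih => exact ih.tail (hw.sub σ)

/-- Standard reduction: weak head steps, then standard reductions of the components. -/
inductive StdR : Term S → Term S → Prop
  | var {M : Term S} {i : ℕ} : WhS M (var i) → StdR M (var i)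
  | sort {M : Term S} {s : S} : WhS M (sort s) → StdR M (sort s)
  | app {M A' B' A B : Term S} :
      WhS M (app A' B') → StdR A' A → StdR B' B → StdR M (app A B)
  | lam {M A' B' A B : Term S} :
      WhS M (lam A' B') → StdR A' A → StdR B' B → StdR M (lam A B)
  | pi {M A' B' A B : Term S} :
      WhS M (pi A' B') → StdR A' A → StdR B' B → StdR M (pi A B)

theorem StdR.refl (M : Term S) : StdR M M := by
  induction M with
  | var i => exact StdR.var Relation.ReflTransGen.refl
  | sort s => exact StdR.sort Relation.ReflTransGen.refl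
  | app M N ihM ihN => exact StdR.app Relation.ReflTransGen.refl ihM ihN
  | lam A M ihA ihM => exact StdR.lam Relation.ReflTransGen.refl ihA ihM
  | pi A M ihA ihM => exact StdR.pi Relation.ReflTransGen.refl ihA ihM

theorem StdR.prefix {M M' N : Term S} (hw : WhS M M') (h : StdR M' N) : StdR M N := by
  cases h with
  | var h => exact StdR.var (hw.trans h)
  | sort h => exact StdR.sort (hw.trans h)
  | app h hA hB => exact StdR.app (hw.trans h) hA hB
  | lam h hA hB => exact StdR.lam (hw.trans h) hA hB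
  | pi h hA hB => exact StdR.pi (hw.trans h) hA hB

theorem StdR.ren {M N : Term S} (h : StdR M N) (ξ : ℕ → ℕ) : StdR (ren ξ M) (ren ξ N) := by
  induction h generalizing ξ with
  | var h => exact StdR.var (WhS.ren ξ h)
  | sort h => exact StdR.sort (WhS.ren ξ h)
  | app h _ _ ihA ihB => exact StdR.app (WhS.ren ξ h) (ihA ξ) (ihB ξ)
  | lam h _ _ ihA ihB => exact StdR.lam (WhS.ren ξ h) (ihA ξ) (ihB (upr ξ))
  | pi h _ _ ihA ihB => exact StdR.pi (WhS.ren ξ h) (ihA ξ) (ihB (upr ξ))

theorem stdR_up {σ τ : ℕ → Term S} (h : ∀ i, StdR (σ i) (τ i)) (i : ℕ) :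
    StdR (up σ i) (up τ i) := by
  cases i with
  | zero => exact StdR.refl _
  | succ i => exact (h i).ren Nat.succ

theorem StdR.sub {M N : Term S} (h : StdR M N) {σ τ : ℕ → Term S}
    (hσ : ∀ i, StdR (σ i) (τ i)) : StdR (sub σ M) (sub τ N) := by
  induction h generalizing σ τ with
  | @var M i h => exact StdR.prefix (WhS.sub σ h) (hσ i)
  | sort h => exact StdR.sort (WhS.sub σ h)
  | app h _ _ ihA ihB => exact StdR.app (WhS.sub σ h) (ihA hσ) (ihB hσ)
  | lam h _ _ ihA ihB => exact StdR.lam (WhS.sub σ h) (ihA hσ) (ihB (stdR_up hσ))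
  | pi h _ _ ihA ihB => exact StdR.pi (WhS.sub σ h) (ihA hσ) (ihB (stdR_up hσ))

theorem StdR.inst {M N A B : Term S} (h : StdR M N) (h' : StdR A B) :
    StdR (inst A M) (inst B N) := by
  refine h.sub fun i => ?_
  cases i with
  | zero => exact h'
  | succ i => exact StdR.refl _

theorem StdR.beta {M N N' : Term S} (h : StdR M N) (hb : Beta N N') : StdR M N' := by
  induction h generalizing N' with
  | var h => cases hb
  | sort h => cases hb
  | app h hA hB ihA ihB =>
    cases hb with
    | redex A₀ b _ =>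
      rw [subst_eq_inst]
      cases hA with
      | lam h' hA' hb' =>
        exact StdR.prefix ((h.trans (WhS.appL _ h')).tail (Wh.beta _ _ _)) (hb'.inst hB)
    | appL _ hb => exact StdR.app h (ihA hb) hB
    | appR _ hb => exact StdR.app h hA (ihB hb)
  | lam h hA hB ihA ihB =>
    cases hb with
    | lamA _ hb => exact StdR.lam h (ihA hb) hB
    | lamM _ hb => exact StdR.lam h hA (ihB hb)
  | pi h hA hB ihA ihB =>
    cases hb with
    | piA _ hb => exact StdR.pi h (ihA hb) hB
    | piB _ hb => exact StdR.pi h hA (ihB hb)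

theorem stdR_of_star {M N : Term S} (h : Star M N) : StdR M N := by
  induction h with
  | refl => exact StdR.refl _
  | tail _ hb ih => exact ih.beta hb

theorem StdR.stuck {M N : Term S} (h : StdR M N) (hs : Stuck N) :
    ∃ M', WhS M M' ∧ Stuck M' := by
  induction h with
  | var h => exact ⟨_, h, Stuck.var _⟩
  | sort h => exact ⟨_, h, Stuck.sort _⟩
  | app h _ _ ihA _ =>
    cases hs with
    | app _ hs =>
      obtain ⟨A'', hw, hs'⟩ := ihA hs
      exact ⟨_, h.trans (WhS.appL _ hw), Stuck.app _ hs'⟩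
  | lam h _ _ _ _ => cases hs
  | pi h _ _ _ _ => exact ⟨_, h, Stuck.pi _ _⟩

theorem exists_W_of_whS {M M' : Term S} (hw : WhS M M') (h : ∃ n, W n M') : ∃ n, W n M := by
  induction hw using Relation.ReflTransGen.head_induction_on with
  | refl => exact h
  | head hw _ ih =>
    obtain ⟨n, hn⟩ := ih
    exact ⟨n + 1, W.wh hw hn⟩

theorem W.whS {n : ℕ} {M M' : Term S} (h : W n M) (hw : WhS M M') : W n M' := by
  induction hw with
  | refl => exact h
  | tail _ hw ih => exact ih.succ.wh_inv_aux hw

theorem StdR.exists_W {M N : Term S} (h : StdR M N) (hN : Normal N) : ∃ n, W n M := by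
  induction h with
  | var h => exact exists_W_of_whS h ⟨1, W.var 0 _⟩
  | sort h => exact exists_W_of_whS h ⟨1, W.sort 0 _⟩
  | app h hA _ ihA ihB =>
    obtain ⟨hs, hA', hB'⟩ := normal_app_iff.1 hN
    obtain ⟨a, ha⟩ := ihA hA'
    obtain ⟨b, hb⟩ := ihB hB'
    obtain ⟨A'', hw, hs'⟩ := hA.stuck hs
    refine exists_W_of_whS (h.trans (WhS.appL _ hw)) ⟨max a b + 1, W.app hs' ?_ ?_⟩
    · exact (ha.whS hw).mono (le_max_left _ _)
    · exact hb.mono (le_max_right _ _)
  | lam h _ _ ihA ihB =>
    obtain ⟨hA', hB'⟩ := normal_lam_iff.1 hN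
    obtain ⟨a, ha⟩ := ihA hA'
    obtain ⟨b, hb⟩ := ihB hB'
    exact exists_W_of_whS h
      ⟨max a b + 1, W.lam (ha.mono (le_max_left _ _)) (hb.mono (le_max_right _ _))⟩
  | pi h _ _ ihA ihB =>
    obtain ⟨hA', hB'⟩ := normal_pi_iff.1 hN
    obtain ⟨a, ha⟩ := ihA hA'
    obtain ⟨b, hb⟩ := ihB hB'
    exact exists_W_of_whS h
      ⟨max a b + 1, W.pi (ha.mono (le_max_left _ _)) (hb.mono (le_max_right _ _))⟩

/-- Standardization. -/
theorem exists_W_of_wn {M : Term S} (h : WN M) : ∃ n, W n M := by
  obtain ⟨N, hMN, hN⟩ := h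
  exact (stdR_of_star hMN).exists_W hN

theorem W.wh_inv {n : ℕ} {M M' : Term S} (h : W (n + 1) M) (hw : Wh M M') : W n M' :=
  h.wh_inv_aux hw

theorem W.lam_inv {n : ℕ} {A b : Term S} (h : W (n + 1) (Term.lam A b)) : W n A ∧ W n b := by
  cases h with
  | lam hA hb => exact ⟨hA, hb⟩
  | wh hw _ => cases hw

theorem W.pi_inv {n : ℕ} {A b : Term S} (h : W (n + 1) (Term.pi A b)) : W n A ∧ W n b := by
  cases h with
  | pi hA hb => exact ⟨hA, hb⟩
  | wh hw _ => cases hw

theorem W.app_inv {n : ℕ} {M N : Term S} (hs : Stuck M) (h : W (n + 1) (Term.app M N)) :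
    W n M ∧ W n N := by
  cases h with
  | app _ hM hN => exact ⟨hM, hN⟩
  | wh hw _ => exact absurd hw (Stuck.app _ hs).not_wh

theorem W.apps_inv {n : ℕ} {M : Term S} {l : List (Term S)} (hs : Stuck M)
    (h : W (n + 1) (apps M l)) : ∀ N ∈ l, W n N := by
  induction l using List.reverseRecOn with
  | nil => intro N hN; cases hN
  | append_singleton l a ih =>
    rw [apps_concat] at h
    obtain ⟨h1, h2⟩ := h.app_inv (hs.apps l)
    intro N hN
    rcases List.mem_append.1 hN with hN | hN
    · exact ih h1.succ N hN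
    · rw [List.mem_singleton.1 hN]; exact h2

theorem W.of_ren {n : ℕ} {ξ : ℕ → ℕ} {M : Term S} (h : W n (ren ξ M)) : W n M := by
  induction n generalizing ξ M with
  | zero => exact absurd h (not_W_zero _)
  | succ n ih =>
    rcases stuck_or_lam_or_wh M with hs | ⟨A, b, rfl⟩ | ⟨M', hw⟩
    · cases hs with
      | var i => exact W.var _ _
      | sort s => exact W.sort _ _
      | pi A B =>
        obtain ⟨h1, h2⟩ := W.pi_inv (A := ren ξ A) (b := ren (upr ξ) B) h
        exact W.pi (ih h1) (ih h2)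
      | @app M N hs =>
        obtain ⟨h1, h2⟩ := W.app_inv (M := ren ξ M) (N := ren ξ N) (hs.ren ξ) h
        exact W.app hs (ih h1) (ih h2)
    · obtain ⟨h1, h2⟩ := W.lam_inv (A := ren ξ A) (b := ren (upr ξ) b) h
      exact W.lam (ih h1) (ih h2)
    · exact W.wh hw (ih (h.wh_inv (hw.ren ξ)))

theorem Ge.refl (M : Term S) : Ge M M := fun _ h => h
theorem Ge.trans {M N Q : Term S} (h : Ge M N) (h' : Ge N Q) : Ge M Q :=
  fun n hn => h' n (h n hn)
theorem Gt.ge {M N : Term S} (h : Gt M N) : Ge M N := fun n hn => h n hn.succ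
theorem Gt.trans_ge {M N Q : Term S} (h : Gt M N) (h' : Ge N Q) : Gt M Q :=
  fun n hn => h' n (h n hn)
theorem Ge.trans_gt {M N Q : Term S} (h : Ge M N) (h' : Gt N Q) : Gt M Q :=
  fun n hn => h' n (h _ hn)
theorem gt_of_wh {M M' : Term S} (h : Wh M M') : Gt M M' := fun _ hn => hn.wh_inv h
theorem ge_lam_wk (A M : Term S) : Ge (lam A (wk M)) M :=
  fun _ hn => W.of_ren (ξ := Nat.succ) hn.succ.lam_inv.2
theorem ge_app_var (i : ℕ) (M : Term S) : Ge (app (var i) M) M :=
  fun _ hn => (hn.succ.app_inv (Stuck.var i)).2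

/-- No infinite descent from a weakly normalizing term. -/
theorem no_descent {St : Term S → Prop} (hstep : ∀ M, St M → ∃ M', St M' ∧ Gt M M')
    {M : Term S} (hM : St M) : ¬ WN M := by
  intro hw
  obtain ⟨n, hn⟩ := exists_W_of_wn hw
  clear hw
  induction n generalizing M with
  | zero => exact not_W_zero _ hn
  | succ n ih =>
    obtain ⟨M', hM', hgt⟩ := hstep M hM
    exact ih hM' (hgt n hn)

end Crest.Agent.R298
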