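import Crest.Agent.R298.SS
import Crest.Agent.R298.Std

/-! Row 298: closures, their unfolding, typing and semantic values. -/

set_option autoImplicit false

namespace Crest.Agent.R298
open Crest.LogicCS.PTS Crest.LogicCS.PTS.Term

universe u
variable {S : Type u} {P : Spec S} {U : Univ P} {s0 : S}

/-- Closures over an ambient context: an ambient variable, or a term with its context and an
environment of closures. -/
inductive Clo (S : Type u) : Type u
  | base (i : ℕ) : Clo S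
  | mk (Γ : Ctx S) (t : Term S) (γ : ℕ → Clo S) : Clo S

namespace Clo

/-- The term denoted by a closure. -/
def unf : Clo S → Term S
  | base i => var i
  | mk _ t γ => sub (fun y => unf (γ y)) t

/-- Weakening of the ambient context. -/
def lift : Clo S → Clo S
  | base i => base (i + 1)
  | mk Γ t γ => mk Γ t (fun y => lift (γ y))

/-- Ambient variables. -/
def IsBase : Clo S → Prop
  | base _ => True
  | mk _ _ _ => False

/-- Neutral subjects. -/
def CNeu : Clo S → Prop
  | base _ => True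
  | mk _ t _ => Neu t

theorem unf_anchor : type_of% @unf.eq_def := @unf.eq_def
theorem lift_anchor : type_of% @lift.eq_def := @lift.eq_def

@[simp] theorem unf_base (i : ℕ) : unf (base i : Clo S) = var i := rfl
@[simp] theorem unf_mk (Γ : Ctx S) (t : Term S) (γ : ℕ → Clo S) :
    unf (mk Γ t γ) = sub (fun y => unf (γ y)) t := rfl
@[simp] theorem lift_base (i : ℕ) : lift (base i : Clo S) = base (i + 1) := rfl
@[simp] theorem lift_mk (Γ : Ctx S) (t : Term S) (γ : ℕ → Clo S) :
    lift (mk Γ t γ) = mk Γ t (fun y => lift (γ y)) := rfl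

theorem unf_lift (c : Clo S) : unf (lift c) = wk (unf c) := by
  induction c with
  | base i => rfl
  | mk Γ t γ ih =>
    simp only [lift_mk, unf_mk, wk_sub]
    congr 1; funext y; exact ih y

theorem isBase_lift (c : Clo S) : IsBase (lift c) ↔ IsBase c := by
  cases c <;> simp [IsBase]

/-- The environment under a binder. -/
def upc (γ : ℕ → Clo S) : ℕ → Clo S := scons (base 0) (fun y => lift (γ y))

theorem unf_upc (γ : ℕ → Clo S) : (fun y => unf (upc γ y)) = up (fun y => unf (γ y)) := by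
  funext y
  cases y with
  | zero => rfl
  | succ y => simp [upc, unf_lift]

theorem unf_scons (c : Clo S) (γ : ℕ → Clo S) :
    (fun y => unf (scons c γ y)) = scons (unf c) (fun y => unf (γ y)) := by
  funext y; cases y <;> rfl

end Clo

open Clo

/-- The composite substitution of a closure environment. -/
def csub (σ : ℕ → Term S) (γ : ℕ → Clo S) : ℕ → Term S := fun y => sub σ (unf (γ y))

theorem sub_csub (σ : ℕ → Term S) (γ : ℕ → Clo S) (t : Term S) :
    sub σ (sub (fun y => unf (γ y)) t) = sub (csub σ γ) t := by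
  rw [sub_sub]; rfl

theorem csub_scons (σ : ℕ → Term S) (c : Clo S) (γ : ℕ → Clo S) :
    csub σ (scons c γ) = scons (sub σ (unf c)) (csub σ γ) := by
  funext y; cases y <;> rfl

theorem csub_lift (a : Term S) (σ : ℕ → Term S) (γ : ℕ → Clo S) :
    csub (scons a σ) (fun y => lift (γ y)) = csub σ γ := by
  funext y; simp [csub, unf_lift]

theorem csub_upc (a : Term S) (σ : ℕ → Term S) (γ : ℕ → Clo S) :
    csub (scons a σ) (upc γ) = scons a (csub σ γ) := by
  rw [upc, csub_scons, csub_lift]; rfl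

theorem csub_base (σ : ℕ → Term S) : csub σ base = σ := rfl

/-- Typing of closures. -/
inductive CT (U : Univ P) (s0 : S) (Γ0 : Ctx S) (σ : ℕ → Term S) : Clo S → Term S → Prop
  | base {i : ℕ} {E : Term S} : BetaEq E (Γ0 i) → CT U s0 Γ0 σ (.base i) E
  | mk {Γ : Ctx S} {t Et E : Term S} {γ : ℕ → Clo S} : Good U Γ → Normal t → Ty P Γ t Et →
      BetaEq E (sub (fun y => unf (γ y)) Et) → SubTy P Γ0 (fun y => unf (γ y)) Γ →
      (∀ y, CT U s0 Γ0 σ (γ y) (sub (fun y => unf (γ y)) (Γ y))) →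
      (∀ y, IsBase (γ y) ∨ Nd U s0 (tau Γ (csub σ γ) y)) →
      CT U s0 Γ0 σ (.mk Γ t γ) E

/-- Typing of stacks of closures. -/
inductive ST (U : Univ P) (s0 : S) (Γ0 : Ctx S) (σ : ℕ → Term S) :
    Term S → List (Clo S) → Term S → Prop
  | nil {E F : Term S} : BetaEq E F → ST U s0 Γ0 σ E [] F
  | cons {E A B F : Term S} {s : S} {c : Clo S} {l : List (Clo S)} : BetaEq E (pi A B) →
      Ty P Γ0 (pi A B) (sort s) → CT U s0 Γ0 σ c A → ¬ IsBase c → Ty P Γ0 (unf c) A →
      ST U s0 Γ0 σ (inst (unf c) B) l F → ST U s0 Γ0 σ E (c :: l) F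

variable {Γ0 : Ctx S} {σ : ℕ → Term S}

theorem CT.conv {c : Clo S} {E E' : Term S} (h : CT U s0 Γ0 σ c E) (e : BetaEq E' E) :
    CT U s0 Γ0 σ c E' := by
  cases h with
  | base h => exact .base (beq_trans e h)
  | mk h1 h2 h3 h4 h5 h6 h7 => exact .mk h1 h2 h3 (beq_trans e h4) h5 h6 h7

theorem ST.conv {l : List (Clo S)} {E E' F : Term S} (h : ST U s0 Γ0 σ E l F)
    (e : BetaEq E' E) : ST U s0 Γ0 σ E' l F := by
  cases h with
  | nil h => exact .nil (beq_trans e h)
  | cons h1 h2 h3 h4 h5 h6 => exact .cons (beq_trans e h1) h2 h3 h4 h5 h6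

theorem CT.lift {c : Clo S} {E : Term S} (h : CT U s0 Γ0 σ c E) (A a : Term S) :
    CT U s0 (ext Γ0 A) (scons a σ) (lift c) (wk E) := by
  induction h with
  | base h => exact .base (beq_wk h)
  | @mk Γ t Et E γ h1 h2 h3 h4 h5 _ h7 ih =>
    have e : (fun y => unf (Clo.lift (γ y))) = wkS (fun y => unf (γ y)) := by
      funext y; simp [unf_lift]
    refine .mk h1 h2 h3 ?_ ?_ ?_ ?_
    · rw [e, ← wk_sub]; exact beq_wk h4
    · rw [e]; exact h5.wkS A
    · intro y; rw [e, ← wk_sub]; exact ih y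
    · intro y; rw [isBase_lift, csub_lift]; exact h7 y

namespace Sem
variable (Z : Sem U s0)

/-- The value stored for a variable bound to a closure. -/
noncomputable def ent (ρ : ℕ → Z.D.V) (c : Clo S) (A : Term S)
    (φ : List (Term S × Z.D.V) → Set (Term S)) : Z.D.V :=
  match c with
  | .base i => ρ i
  | .mk _ _ _ => Z.N A (Z.D.lam φ)

/-- The value of a closure. -/
noncomputable def cval (σ τ : ℕ → Term S) (ρ : ℕ → Z.D.V) :
    Clo S → List (Term S × Z.D.V) → Set (Term S)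
  | .base i => Z.val (var i) σ τ ρ
  | .mk Γ t γ => Z.val t (csub σ γ) (tau Γ (csub σ γ))
      (fun y => Z.ent ρ (γ y) (tau Γ (csub σ γ) y) (cval σ τ ρ (γ y)))

theorem cval_anchor : type_of% @cval.eq_def := @cval.eq_def

/-- The semantic environment of a closure. -/
noncomputable def cenv (σ τ : ℕ → Term S) (ρ : ℕ → Z.D.V) (Γ : Ctx S) (γ : ℕ → Clo S) :
    ℕ → Z.D.V :=
  fun y => Z.ent ρ (γ y) (tau Γ (csub σ γ) y) (Z.cval σ τ ρ (γ y))

/-- The semantic stack. -/
noncomputable def svals (σ τ : ℕ → Term S) (ρ : ℕ → Z.D.V) (l : List (Clo S)) :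
    List (Term S × Z.D.V) :=
  l.map (fun c => (nf (sub σ (unf c)), Z.D.lam (Z.cval σ τ ρ c)))

variable {τ : ℕ → Term S} {ρ : ℕ → Z.D.V}

theorem cval_base (i : ℕ) : Z.cval σ τ ρ (.base i) = Z.val (var i) σ τ ρ := rfl
theorem cval_mk (Γ : Ctx S) (t : Term S) (γ : ℕ → Clo S) :
    Z.cval σ τ ρ (.mk Γ t γ) = Z.val t (csub σ γ) (tau Γ (csub σ γ)) (Z.cenv σ τ ρ Γ γ) := rfl

@[simp] theorem svals_nil : Z.svals σ τ ρ [] = [] := rfl
@[simp] theorem svals_cons (c : Clo S) (l : List (Clo S)) :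
    Z.svals σ τ ρ (c :: l)
      = (nf (sub σ (unf c)), Z.D.lam (Z.cval σ τ ρ c)) :: Z.svals σ τ ρ l := rfl

theorem cval_lift (c : Clo S) (a A : Term S) (w : Z.D.V) :
    Z.cval (scons a σ) (scons A τ) (scons w ρ) (lift c) = Z.cval σ τ ρ c := by
  induction c with
  | base i => exact Z.val_wk (var i) a A w σ τ ρ
  | mk Γ t γ ih =>
    rw [lift_mk, cval_mk, cval_mk, csub_lift]
    congr 1
    funext y
    simp only [cenv, csub_lift, ih y]
    cases γ y <;> rfl

theorem cenv_scons_mk (Γ : Ctx S) (A : Term S) (γ : ℕ → Clo S) {c : Clo S} (hc : ¬ IsBase c) :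
    Z.cenv σ τ ρ (ext Γ A) (scons c γ)
      = scons (Z.N (nf (sub (csub σ γ) A)) (Z.D.lam (Z.cval σ τ ρ c))) (Z.cenv σ τ ρ Γ γ) := by
  funext y
  simp only [cenv, csub_scons, tau_ext]
  cases y with
  | zero =>
    cases c with
    | base i => exact (hc trivial).elim
    | mk _ _ _ => rfl
  | succ y => rfl

theorem cenv_upc (Γ : Ctx S) (A : Term S) (γ : ℕ → Clo S) (a A0 : Term S) (w : Z.D.V) :
    Z.cenv (scons a σ) (scons A0 τ) (scons w ρ) (ext Γ A) (upc γ)
      = scons w (Z.cenv σ τ ρ Γ γ) := by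
  funext y
  cases y with
  | zero => rfl
  | succ y =>
    rw [scons_succ]
    simp only [cenv, csub_upc, tau_ext]
    simp only [upc, scons_succ, cval_lift]
    cases γ y <;> rfl

theorem cenv_base (Γ : Ctx S) : Z.cenv σ τ ρ Γ .base = ρ := rfl

theorem val_apps (m : Term S) (l : List (Term S)) (args : List (Term S × Z.D.V)) :
    Z.val (apps m l) σ τ ρ args
      = Z.val m σ τ ρ
          (l.map (fun n => (nf (sub σ n), Z.D.lam (Z.val n σ τ ρ))) ++ args) := by
  induction l generalizing m with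
  | nil => rfl
  | cons n l ih => rw [apps_cons, ih, val_app]; rfl

theorem invD_scons {A : Term S} {w : Z.D.V} (h : Z.InvD τ ρ) (hN : Nd U s0 A)
    (hw : ParT U s0 true A → Z.D.Sm w) : Z.InvD (scons A τ) (scons w ρ) := by
  intro x
  cases x with
  | zero => exact Or.inr ⟨hN, hw⟩
  | succ x => exact h x

section typed
variable (hD : ∀ t, InD P s0 t → App U t) (hc : ¬ Config P s0) (hσ : SubTy P U.Θ σ Γ0)
  (hρ : Z.InvD (tau Γ0 σ) ρ)
include hD hc hσ hρ

theorem inv_cenv {c : Clo S} {E : Term S} (h : CT U s0 Γ0 σ c E) :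
    ∀ Γ t γ, c = .mk Γ t γ →
      Z.InvD (tau Γ (csub σ γ)) (Z.cenv σ (tau Γ0 σ) ρ Γ γ) := by
  induction h with
  | base h => intro Γ t γ e; cases e
  | @mk Γ t Et E γ h1 h2 h3 h4 h5 h6 h7 ih =>
    intro Γ' t' γ' e
    cases e
    intro y
    have h6y := h6 y
    have h7y := h7 y
    have ihy := ih y
    simp only [cenv]
    generalize γ y = c at h6y h7y ihy
    cases h6y with
    | @base i _ hb =>
      have e : tau Γ (csub σ γ) y = tau Γ0 σ i := by
        simp only [tau]; rw [← sub_csub]; exact nf_congr (beq_sub σ hb)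
      rw [e]; exact hρ i
    | @mk Γ1 t1 Et1 _ γ1 g1 g2 g3 g4 g5 g6 g7 =>
      have e : tau Γ (csub σ γ) y = nf (sub (csub σ γ1) Et1) := by
        simp only [tau]; rw [← sub_csub, ← sub_csub]; exact nf_congr (beq_sub σ g4)
      refine Or.inr ⟨h7y.resolve_left (fun h => h), fun ho => ?_⟩
      change Z.D.Sm (Z.N _ (Z.D.lam (Z.cval σ (tau Γ0 σ) ρ (.mk Γ1 t1 γ1))))
      rw [e] at ho ⊢
      exact Z.N_lam_sm (Z.ss_val hD hc g1 (g5.comp hσ) g2 g3 ho (ihy _ _ _ rfl))

theorem ss_cval {c : Clo S} {E : Term S} (h : CT U s0 Γ0 σ c E) (hb : ¬ IsBase c)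
    (ho : ParT U s0 true (nf (sub σ E))) :
    Z.D.SS (trunc U s0 (nf (sub σ E)) (Z.cval σ (tau Γ0 σ) ρ c)) := by
  have hi := Z.inv_cenv hD hc hσ hρ h
  cases h with
  | base h => exact (hb trivial).elim
  | @mk Γ t Et E γ g1 g2 g3 g4 g5 g6 g7 =>
    have e : nf (sub σ E) = nf (sub (csub σ γ) Et) := by
      rw [← sub_csub]; exact nf_congr (beq_sub σ g4)
    rw [e] at ho ⊢
    exact Z.ss_val hD hc g1 (g5.comp hσ) g2 g3 ho (hi _ _ _ rfl)

omit hD hc hρ in
theorem resp_cval {c : Clo S} {E : Term S} (h : CT U s0 Γ0 σ c E) (hb : ¬ IsBase c) :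
    Z.Resp (nf (sub σ E)) (Z.cval σ (tau Γ0 σ) ρ c) := by
  cases h with
  | base h => exact (hb trivial).elim
  | @mk Γ t Et E γ g1 g2 g3 g4 g5 g6 g7 =>
    have e : nf (sub σ E) = nf (sub (csub σ γ) Et) := by
      rw [← sub_csub]; exact nf_congr (beq_sub σ g4)
    rw [e]
    exact Z.val_resp g1 (g5.comp hσ) g3

omit hD hc hρ in
/-- Shape of the instantiated type at a stack entry. -/
theorem st_shape {E A B u : Term S} {s : S} (h1 : BetaEq E (pi A B))
    (h2 : Ty P Γ0 (pi A B) (sort s)) (hu : Ty P Γ0 u A) :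
    nf (sub σ E) = pi (nf (sub σ A)) (nf (sub (up σ) B)) ∧
      nf (inst (nf (sub σ u)) (nf (sub (up σ) B))) = nf (sub σ (inst u B)) ∧
      Ty P U.Θ (nf (sub σ u)) (nf (sub σ A)) := by
  have hU := good_univ U
  refine ⟨?_, nf_sub_app hσ h2 hu (beq_refl _), hU.ty_nf_type (hU.ty_nf (hu.sub hσ))⟩
  rw [nf_congr (beq_sub σ h1)]
  exact (hU.nf_sub_pi hσ h2).1

omit hD hc hρ in
theorem st_path {E F : Term S} {l : List (Clo S)} (h : ST U s0 Γ0 σ E l F)
    {args : List (Term S × Z.D.V)} (hp : Path U s0 (nf (sub σ F)) (args.map Prod.fst)) :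
    Path U s0 (nf (sub σ E)) ((Z.svals σ (tau Γ0 σ) ρ l ++ args).map Prod.fst) := by
  induction h with
  | nil h => rw [nf_congr (beq_sub σ h)]; exact hp
  | cons h1 h2 h3 h4 h5 _ ih =>
    obtain ⟨e1, e2, e3⟩ := st_shape hσ h1 h2 h5
    rw [e1]
    refine Path.cons e3 ?_
    rw [e2]
    exact ih hp

theorem st_adm {E F : Term S} {l : List (Clo S)} (h : ST U s0 Γ0 σ E l F)
    {args : List (Term S × Z.D.V)} (hp : Z.Adm (nf (sub σ F)) args) :
    Z.Adm (nf (sub σ E)) (Z.svals σ (tau Γ0 σ) ρ l ++ args) := by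
  induction h with
  | nil h => rw [nf_congr (beq_sub σ h)]; exact hp
  | cons h1 h2 h3 h4 h5 _ ih =>
    obtain ⟨e1, e2, _⟩ := st_shape hσ h1 h2 h5
    rw [e1, svals_cons, List.cons_append, adm_pi_cons]
    refine ⟨fun ho => Z.N_lam_sm (Z.ss_cval hD hc hσ hρ h3 h4 ho), ?_⟩
    rw [e2]
    exact ih hp

end typed

end Sem

/-- The closure obtained by going under a binder. -/
theorem ct_under {Γ : Ctx S} {γ : ℕ → Clo S} {A b B a : Term S} {s : S} (hΓ : Good U Γ)
    (hA : Ty P Γ A (sort s)) (hb : Normal b) (hty : Ty P (ext Γ A) b B)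
    (h5 : SubTy P Γ0 (fun y => unf (γ y)) Γ)
    (h6 : ∀ y, CT U s0 Γ0 σ (γ y) (sub (fun y => unf (γ y)) (Γ y)))
    (h7 : ∀ y, IsBase (γ y) ∨ Nd U s0 (tau Γ (csub σ γ) y)) :
    CT U s0 (ext Γ0 (sub (fun y => unf (γ y)) A)) (scons a σ) (.mk (ext Γ A) b (upc γ))
      (sub (up (fun y => unf (γ y))) B) := by
  refine .mk (hΓ.ext hA) hb hty ?_ ?_ ?_ ?_
  · rw [unf_upc]; exact beq_refl _
  · rw [unf_upc]; exact h5.up A
  · intro y
    rw [unf_upc]
    cases y with
    | zero => exact .base (by simp [beq_refl])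
    | succ y =>
      have := (h6 y).lift (sub (fun y => unf (γ y)) A) a
      simpa [upc] using this
  · intro y
    rw [csub_upc, tau_ext]
    cases y with
    | zero => exact Or.inl trivial
    | succ y =>
      have := h7 y
      simpa [upc, isBase_lift] using this

end Crest.Agent.R298
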