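import Crest.Agent.R298.DenTy

/-! Row 298: soundness of the proof checker. -/

set_option autoImplicit false

namespace Crest.Agent.R298
open Crest.LogicCS.PTS Crest.LogicCS.PTS.Term Src

universe u
variable {S : Type u} {P : Spec S} {U : Univ P} {s0 : S} {L : Logic U s0}

namespace Kinds
variable (K : Kinds L)

/-- A sequent is realised by a natural family of typed proof terms. -/
def Sound (I : Itp S) (Γs : List (Option Tp)) (Δs : List Ex) (φ : Ex) : Prop :=
  ∃ M : (ℕ → Term S) → Term S → (ℕ → Term S) → (ℕ → Term S) → Term S,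
    (∀ σ θ κ ρ η, sub σ (M θ κ ρ η) = M (fun i => sub σ (θ i)) (sub σ κ)
      (fun i => sub σ (ρ i)) (fun i => sub σ (η i))) ∧
    (∀ Γ θ κ ρ η, K.TyEnv Γ θ κ ρ Γs →
      (∀ j A, Δs[j]? = some A → Ty P Γ (η j) (L.nn θ (K.den I A θ κ ρ))) →
      Ty P Γ (M θ κ ρ η) (L.nn θ (K.den I φ θ κ ρ))) ∧
    (∀ κ ρ η (H : Term S → Term S → Prop),
      (∀ j A, Δs[j]? = some A → H (η j) (K.den I A var κ ρ)) →
      L.Prf H (K.den I φ var κ ρ) (M var κ ρ η))

section rules
variable {I : Itp S} {sg : Sig} {Γs : List (Option Tp)} {Δs : List Ex}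

theorem check_inst_wkS (a : Term S) (θ : ℕ → Term S) :
    (fun i => sub (scons a var) (wkS θ i)) = θ := by
  funext i; simp

theorem check_inst_up (a : Term S) (θ : ℕ → Term S) :
    (fun i => sub (scons a var) (up θ i)) = scons a θ := by
  funext i
  cases i with
  | zero => rfl
  | succ i => simp

theorem con_cases (q : Qt) : q.con = .qe ∨ q.con = .qo := by
  cases q
  · exact Or.inr rfl
  · exact Or.inl rfl
  · exact Or.inr rfl
  · exact Or.inl rfl

theorem ty_isProp (hT : K.ITy I sg) {Γ : Ctx S} {θ : ℕ → Term S} {κ : Term S} {ρ : ℕ → Term S}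
    (h : K.TyEnv Γ θ κ ρ Γs) {e : Ex} (he : isProp sg Γs e = true) :
    Ty P Γ (K.den I e θ κ ρ) (sort L.c) :=
  K.ty_den hT e h (of_decide_eq_true he)

theorem sound_hyp {j : ℕ} {φ : Ex} (h : Δs[j]? = some φ) : K.Sound I Γs Δs φ :=
  ⟨fun _ _ _ η => η j, fun _ _ _ _ _ => rfl, fun _ _ _ _ _ _ hη => hη j φ h,
    fun _ _ _ _ hη => Logic.Prf.hyp (hη j φ h)⟩

theorem sound_impI (hI : INat I) (hT : K.ITy I sg) {A B : Ex} (hA : isProp sg Γs A = true)
    (hB : isProp sg Γs B = true) (h : K.Sound I Γs (A :: Δs) B) :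
    K.Sound I Γs Δs (.imp A B) := by
  obtain ⟨M, hn, ht, hp⟩ := h
  refine ⟨fun θ κ ρ η => L.lamP θ .imp (L.nn θ (K.den I A θ κ ρ)) (wk (K.den I B θ κ ρ))
    (M (wkS θ) (wk κ) (wkS ρ) (up η)), ?_, ?_, ?_⟩
  · intro σ θ κ ρ η
    rw [L.sub_lamP, L.sub_nn, sub_up_wk, K.sub_den hI, K.sub_den hI, hn, sub_up_wkS, sub_up_wkS,
      sub_up_wk, up_up]
  · intro Γ θ κ ρ η hE hη
    refine L.ty_lamP hE.1 (by rw [L.s₁_imp]; exact L.ty_nn hE.1 (K.ty_isProp hT hE hA))
      ((K.ty_isProp hT hE hB).wk_sort _) ?_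
    rw [K.wk_den hI]
    refine ht _ _ _ _ _ (hE.wk K _) fun j C hj => ?_
    rw [← K.wk_den hI, ← L.wk_nn]
    cases j with
    | zero =>
      obtain rfl : A = C := Option.some.inj hj
      exact Ty.var 0
    | succ j => exact (hη j C hj).wk _
  · intro κ ρ η H hη
    refine Logic.Prf.impI fun a => ?_
    rw [inst, hn, check_inst_wkS, check_inst_wkS, check_inst_up, sub_scons_wk, sub_id]
    refine hp _ _ _ _ fun j C hj => ?_
    cases j with
    | zero =>
      obtain rfl : A = C := Option.some.inj hj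
      exact Or.inr ⟨rfl, rfl⟩
    | succ j => exact Or.inl (hη j C hj)

theorem sound_impE (hI : INat I) (hT : K.ITy I sg) {A B : Ex} (hA : isProp sg Γs A = true)
    (hB : isProp sg Γs B = true) (h : K.Sound I Γs Δs (.imp A B)) (h' : K.Sound I Γs Δs A) :
    K.Sound I Γs Δs B := by
  obtain ⟨M, hn, ht, hp⟩ := h
  obtain ⟨N, hn', ht', hp'⟩ := h'
  refine ⟨fun θ κ ρ η => L.appP θ .imp (L.nn θ (K.den I A θ κ ρ)) (wk (K.den I B θ κ ρ))
    (M θ κ ρ η) (N θ κ ρ η), ?_, ?_, ?_⟩
  · intro σ θ κ ρ η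
    rw [L.sub_appP, L.sub_nn, sub_up_wk, K.sub_den hI, K.sub_den hI, hn, hn']
  · intro Γ θ κ ρ η hE hη
    have := L.ty_appP hE.1 (r := .imp)
      (by rw [L.s₁_imp]; exact L.ty_nn hE.1 (K.ty_isProp hT hE hA))
      ((K.ty_isProp hT hE hB).wk_sort _) (ht _ _ _ _ _ hE hη) (ht' _ _ _ _ _ hE hη)
    rwa [inst_wk] at this
  · intro κ ρ η H hη
    exact Logic.Prf.impE (hp _ _ _ _ hη) (hp' _ _ _ _ hη)

theorem sound_allI (hI : INat I) (hT : K.ITy I sg) {q : Qt} {m : Md} {φ : Ex}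
    (hφ : isProp sg (some (q.tp m) :: Γs) φ = true)
    (h : K.Sound I (some (q.tp m) :: Γs) (Δs.map Ex.lift) φ) :
    K.Sound I Γs Δs (.all q m φ) := by
  obtain ⟨M, hn, ht, hp⟩ := h
  have key : ∀ (j : ℕ) (C : Ex), (Δs.map Ex.lift)[j]? = some C → ∃ A : Ex, Δs[j]? = some A ∧ C = A.lift := by
    intro j C hj
    rw [List.getElem?_map] at hj
    obtain ⟨A, h1, h2⟩ := Option.map_eq_some_iff.1 hj
    exact ⟨A, h1, h2.symm⟩
  refine ⟨fun θ κ ρ η => L.lamP θ q.con (K.tp θ κ (q.tp m))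
    (K.den I φ (wkS θ) (wk κ) (up ρ)) (M (wkS θ) (wk κ) (up ρ) (wkS η)), ?_, ?_, ?_⟩
  · intro σ θ κ ρ η
    rw [L.sub_lamP, K.sub_tp, K.sub_den hI, hn, sub_up_wkS, sub_up_wkS, sub_up_wk, up_up]
  · intro Γ θ κ ρ η hE hη
    refine L.ty_lamP hE.1 (K.ty_qt hE.1 hE.2.1 q m) (K.ty_isProp hT (hE.up K _) hφ) ?_
    refine ht _ _ _ _ _ (hE.up K _) fun j C hj => ?_
    obtain ⟨A, hA, rfl⟩ := key j C hj
    have e : K.den I A.lift (wkS θ) (wk κ) (up ρ) = wk (K.den I A θ κ ρ) := by
      rw [K.wk_den hI]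
      exact K.den_lift A _ _ _ _
    rw [e, ← L.wk_nn]
    exact (hη j A hA).wk _
  · intro κ ρ η H hη
    refine Logic.Prf.allI (con_cases q) fun a => ?_
    rw [inst, inst, hn, K.sub_den hI, check_inst_wkS, check_inst_wkS, check_inst_up,
      sub_scons_wk, sub_id]
    refine hp _ _ _ _ fun j C hj => ?_
    obtain ⟨A, hA, rfl⟩ := key j C hj
    rw [K.den_lift]
    exact hη j A hA

theorem sound_allE (hI : INat I) (hT : K.ITy I sg) {q : Qt} {m : Md} {φ a : Ex}
    (ha : tyOf sg Γs a = some (q.tp m)) (hg : a.genFree = true)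
    (hφ : isProp sg (some (q.tp m) :: Γs) φ = true) (h : K.Sound I Γs Δs (.all q m φ)) :
    K.Sound I Γs Δs (a.subst1 φ) := by
  obtain ⟨M, hn, ht, hp⟩ := h
  refine ⟨fun θ κ ρ η => L.appP θ q.con (K.tp θ κ (q.tp m))
    (K.den I φ (wkS θ) (wk κ) (up ρ)) (M θ κ ρ η) (K.den I a θ κ ρ), ?_, ?_, ?_⟩
  · intro σ θ κ ρ η
    rw [L.sub_appP, K.sub_tp, K.sub_den hI, K.sub_den hI, hn, sub_up_wkS, sub_up_wk, up_up]
  · intro Γ θ κ ρ η hE hη
    rw [K.den_subst1 hI φ hg]
    exact L.ty_appP hE.1 (K.ty_qt hE.1 hE.2.1 q m) (K.ty_isProp hT (hE.up K _) hφ)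
      (ht _ _ _ _ _ hE hη) (K.ty_den hT a hE ha)
  · intro κ ρ η H hη
    rw [K.den_subst1 hI φ hg]
    exact Logic.Prf.allE _ (con_cases q) (hp _ _ _ _ hη)

theorem sound_foldI (hI : INat I) (hT : K.ITy I sg) {ds : Defs} (hE : K.IEq I ds) {R φ : Ex}
    (hc : contract ds R = some φ) (hR : isProp sg Γs R = true) (hφ : isProp sg Γs φ = true)
    (h : K.Sound I Γs Δs φ) : K.Sound I Γs Δs R := by
  obtain ⟨M, hn, ht, hp⟩ := h
  refine ⟨fun θ κ ρ η => L.mdI θ (K.den I φ θ κ ρ) (M θ κ ρ η) (K.cntR R), ?_, ?_, ?_⟩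
  · intro σ θ κ ρ η
    rw [L.sub_mdI, K.sub_den hI, hn]
  · intro Γ θ κ ρ η hΓ hη
    exact Ty.conv (L.ty_mdI hΓ.1 (K.ty_isProp hT hΓ hφ) (ht _ _ _ _ _ hΓ hη) _)
      (L.ty_nn hΓ.1 (K.ty_isProp hT hΓ hR))
      (L.beq_nn θ (beq_symm (K.den_contract hI hE hc θ κ ρ)))
  · intro κ ρ η H hη
    exact Logic.Prf.conv (L.prf_mdI (hp _ _ _ _ hη) _)
      (beq_symm (K.den_contract hI hE hc var κ ρ))

theorem sound_foldE (hI : INat I) (hT : K.ITy I sg) {ds : Defs} (hE : K.IEq I ds) {R φ : Ex}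
    (hc : contract ds R = some φ) (hφ : isProp sg Γs φ = true)
    (h : K.Sound I Γs Δs R) : K.Sound I Γs Δs φ := by
  obtain ⟨M, hn, ht, hp⟩ := h
  refine ⟨fun θ κ ρ η => L.mdE θ (K.den I φ θ κ ρ) (K.cntR R) (M θ κ ρ η), ?_, ?_, ?_⟩
  · intro σ θ κ ρ η
    rw [L.sub_mdE, K.sub_den hI, hn]
  · intro Γ θ κ ρ η hΓ hη
    refine L.ty_mdE hΓ.1 (K.ty_isProp hT hΓ hφ) _ ?_
    exact Ty.conv (ht _ _ _ _ _ hΓ hη)
      (L.ty_nn hΓ.1 (L.ty_md_iter hΓ.1 (K.ty_isProp hT hΓ hφ) _))
      (L.beq_nn θ (K.den_contract hI hE hc θ κ ρ))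
  · intro κ ρ η H hη
    exact L.prf_mdE _ (Logic.Prf.conv (hp _ _ _ _ hη) (K.den_contract hI hE hc var κ ρ))

omit K in
theorem argsOK_spec : ∀ {Ts : List Tp} {args : List Ex}, argsOK sg Γs Ts args = true →
    (∀ i, (args.getD i .bot).genFree = true) ∧
      ∀ i T, (Ts.map some).getD i none = some T → tyOf sg Γs (args.getD i .bot) = some T
  | [], [], _ => ⟨fun _ => rfl, fun _ _ h => by cases h⟩
  | [], _ :: _, h => by cases h
  | _ :: _, [], h => by cases h
  | T :: Ts, a :: as, h => by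
    have h' : (decide (tyOf sg Γs a = some T) && a.genFree && argsOK sg Γs Ts as) = true := h
    rw [Bool.and_eq_true, Bool.and_eq_true] at h'
    obtain ⟨⟨h1, h2⟩, h3⟩ := h'
    obtain ⟨k1, k2⟩ := argsOK_spec h3
    refine ⟨fun i => ?_, fun i T' hi => ?_⟩
    · cases i with
      | zero => exact h2
      | succ i => exact k1 i
    · cases i with
      | zero =>
        obtain rfl : T = T' := Option.some.inj hi
        exact of_decide_eq_true h1
      | succ i => exact k2 i T' hi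

theorem sound_use (hI : INat I) (hT : K.ITy I sg) {Ts : List Tp} {args : List Ex} {φ : Ex}
    (ha : argsOK sg Γs Ts args = true) (h : K.Sound I (Ts.map some) [] φ) :
    K.Sound I Γs Δs (φ.subst fun i => args.getD i .bot) := by
  obtain ⟨M, hn, ht, hp⟩ := h
  obtain ⟨hg, hty⟩ := argsOK_spec ha
  refine ⟨fun θ κ ρ η => M θ κ (fun i => K.den I (args.getD i .bot) θ κ ρ) η, ?_, ?_, ?_⟩
  · intro σ θ κ ρ η
    rw [hn]
    congr 1
    funext i
    exact K.sub_den hI _ _ _ _ _
  · intro Γ θ κ ρ η hΓ _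
    rw [K.den_subst hI φ hg]
    exact ht _ _ _ _ _ ⟨hΓ.1, hΓ.2.1, fun i T hi => K.ty_den hT _ hΓ (hty i T hi)⟩
      fun _ _ hj => by cases hj
  · intro κ ρ η H _
    rw [K.den_subst hI φ hg]
    exact hp _ _ _ _ fun _ _ hj => by cases hj

end rules

theorem infer_sound {I : Itp S} {ds : Defs} (hI : INat I) (hT : K.ITy I (sigOf ds))
    (hE : K.IEq I ds) {Λ : Lems} (hΛ : ∀ l ∈ Λ, K.Sound I (l.1.map some) [] l.2) (p : Pf) :
    ∀ {Γs : List (Option Tp)} {Δs : List Ex} {φ : Ex}, infer ds Λ Γs Δs p = some φ →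
      K.Sound I Γs Δs φ := by
  induction p with
  | hyp j => exact fun h => K.sound_hyp h
  | impI A p ih =>
    intro Γs Δs φ h
    rw [infer] at h
    split at h
    · rename_i B hB
      split at h
      · rename_i hc
        cases h
        exact K.sound_impI hI hT hc.1 hc.2 (ih hB)
      · cases h
    · cases h
  | impE p q ihp ihq =>
    intro Γs Δs φ h
    rw [infer] at h
    split at h
    · rename_i A B A' hp hq
      split at h
      · rename_i hc
        cases h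
        obtain rfl := Ex.eq_of_beq hc.1
        exact K.sound_impE hI hT hc.2.1 hc.2.2 (ihp hp) (ihq hq)
      · cases h
    · cases h
  | allI q p ih =>
    intro Γs Δs φ h
    rw [infer] at h
    split at h
    · rename_i B hB
      split at h
      · rename_i hc
        cases h
        exact K.sound_allI hI hT hc (ih hB)
      · cases h
    · cases h
  | allE p a ih =>
    intro Γs Δs φ h
    rw [infer] at h
    split at h
    · rename_i q m ψ hp
      split at h
      · rename_i hc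
        cases h
        exact K.sound_allE hI hT hc.1 hc.2.1 hc.2.2 (ih hp)
      · cases h
    · cases h
  | foldI R p ih =>
    intro Γs Δs φ h
    rw [infer] at h
    split at h
    · rename_i ψ ψ' hc hp
      split at h
      · rename_i hc'
        cases h
        obtain rfl := Ex.eq_of_beq hc'.1
        exact K.sound_foldI hI hT hE hc hc'.2.1 hc'.2.2 (ih hp)
      · cases h
    · cases h
  | foldE p ih =>
    intro Γs Δs φ h
    rw [infer] at h
    split at h
    · rename_i R hp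
      split at h
      · rename_i ψ hc
        split at h
        · rename_i hc'
          cases h
          exact K.sound_foldE hI hT hE hc hc' (ih hp)
        · cases h
      · cases h
    · cases h
  | use n args =>
    intro Γs Δs φ h
    rw [infer] at h
    split at h
    · rename_i l hl
      split at h
      · rename_i hc
        cases h
        exact K.sound_use hI hT hc (hΛ l (List.mem_of_getElem? hl))
      · cases h
    · cases h

theorem false_of_lems {I : Itp S} {ds : Defs} (hI : INat I) (hT : K.ITy I (sigOf ds))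
    (hE : K.IEq I ds) (ls : List (List Tp × Ex × Pf)) :
    ∀ {Λ : Lems}, (∀ l ∈ Λ, K.Sound I (l.1.map some) [] l.2) → checkLems ds Λ ls = true →
      False := by
  induction ls with
  | nil =>
    intro Λ hΛ h
    have h' : Λ.any (fun l => l.1.isEmpty && l.2.beq .bot) = true := h
    obtain ⟨l, hl, hb⟩ := List.any_eq_true.1 h'
    rw [Bool.and_eq_true] at hb
    have hs := hΛ l hl
    rw [List.isEmpty_iff.1 hb.1, Ex.eq_of_beq hb.2] at hs
    obtain ⟨M, -, ht, hp⟩ := hs
    exact L.no_proof (hp (K.κc var) var var _ fun _ _ hj => by cases hj)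
      (ht U.Θ var (K.κc var) var var ⟨subTy_id, K.ty_κc subTy_id, fun _ _ hi => by cases hi⟩
        fun _ _ hj => by cases hj)
  | cons l ls ih =>
    intro Λ hΛ h
    rw [checkLems, Bool.and_eq_true] at h
    obtain ⟨h1, h2⟩ := h
    refine ih (fun l' hl' => ?_) h2
    rcases List.mem_append.1 hl' with hl' | hl'
    · exact hΛ l' hl'
    · obtain rfl := List.mem_singleton.1 hl'
      split at h1
      · rename_i φ hφ
        have := K.infer_sound hI hT hE hΛ _ hφ
        rwa [← Ex.eq_of_beq h1] at this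
      · cases h1

include K in
theorem false_of_check {ds : Defs} {ls : List (List Tp × Ex × Pf)}
    (h : checkDefs [] ds = true) (h' : checkLems ds [] ls = true) : False := by
  obtain ⟨I, hI, hT, hE⟩ := K.exists_itp h
  exact K.false_of_lems hI hT hE ls (fun _ hl => by cases hl) h'

end Kinds

end Crest.Agent.R298
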