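import Crest.Agent.R298.Subst

/-! Row 298: a tiny many-sorted logic (power kinds and one polymorphic kind) with a proof
checker. The paradox is a concrete proof of `bot` in this logic. -/

set_option autoImplicit false

namespace Crest.Agent.R298.Src

/-- Modes: the generic kind variable, or the closed instance. -/
inductive Md : Type
  | g | c
  deriving DecidableEq

/-- Kinds depending on the mode: `X = P Y`, `B = P X`, `Z = P B`, and the quantifiable copies
`X' = P' Y`, `B' = P' X`, `Z' = P' B`. -/
inductive Kd : Type
  | Y | X | B | Z | X' | B' | Z'
  deriving DecidableEq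

/-- Types of expressions. `W` is the polymorphic kind `Π k, P (Z k)`, `W'` its quantifiable
double power, and `k Y c` is also a double power of `W`. -/
inductive Tp : Type
  | k (K : Kd) (m : Md) | W | W' | prop
  deriving DecidableEq

/-- Power formers. -/
inductive Pw : Type
  | X | B | Z | X' | B' | Z'
  deriving DecidableEq

/-- The power kind. -/
def Pw.res : Pw → Kd
  | .X => .X | .B => .B | .Z => .Z | .X' => .X' | .B' => .B' | .Z' => .Z'

/-- The kind of elements. -/
def Pw.arg : Pw → Kd
  | .X => .Y | .B => .X | .Z => .B | .X' => .Y | .B' => .X | .Z' => .B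

/-- Quantifiable types. -/
inductive Qt : Type
  | X' | B' | Z' | W'
  deriving DecidableEq

/-- The type over which a quantifier ranges. -/
def Qt.tp : Qt → Md → Tp
  | .X', m => .k .X' m | .B', m => .k .B' m | .Z', m => .k .Z' m | .W', _ => .W'

/-- Expressions (terms and formulas), with de Bruijn indices. Binders: the `φ` of `compr`,
`dn`, `lamW`, `all`. -/
inductive Ex : Type
  | var (i : ℕ)
  | compr (p : Pw) (m : Md) (φ : Ex)
  | mem (p : Pw) (m : Md) (a x : Ex)
  | up (b : Bool) (w : Ex)
  | dn (b : Bool) (φ z : Ex)
  | lamW (φ : Ex)
  | memW (m : Md) (w s : Ex)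
  | bot
  | imp (A B : Ex)
  | all (q : Qt) (m : Md) (φ : Ex)
  | cst (n : ℕ) (m : Md) (a b : Ex)

namespace Ex

/-- Boolean equality. -/
def beq : Ex → Ex → Bool
  | var i, var j => i == j
  | compr p m φ, compr p' m' φ' => decide (p = p') && decide (m = m') && beq φ φ'
  | mem p m a x, mem p' m' a' x' => decide (p = p') && decide (m = m') && beq a a' && beq x x'
  | up b w, up b' w' => b == b' && beq w w'
  | dn b φ z, dn b' φ' z' => b == b' && beq φ φ' && beq z z'
  | lamW φ, lamW φ' => beq φ φ'
  | memW m w s, memW m' w' s' => decide (m = m') && beq w w' && beq s s'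
  | bot, bot => true
  | imp A B, imp A' B' => beq A A' && beq B B'
  | all q m φ, all q' m' φ' => decide (q = q') && decide (m = m') && beq φ φ'
  | cst n m a b, cst n' m' a' b' => n == n' && decide (m = m') && beq a a' && beq b b'
  | _, _ => false

/-- Renaming. -/
def ren (ξ : ℕ → ℕ) : Ex → Ex
  | var i => var (ξ i)
  | compr p m φ => compr p m (ren (upr ξ) φ)
  | mem p m a x => mem p m (ren ξ a) (ren ξ x)
  | up b w => up b (ren ξ w)
  | dn b φ z => dn b (ren (upr ξ) φ) (ren ξ z)
  | lamW φ => lamW (ren (upr ξ) φ)
  | memW m w s => memW m (ren ξ w) (ren ξ s)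
  | bot => bot
  | imp A B => imp (ren ξ A) (ren ξ B)
  | all q m φ => all q m (ren (upr ξ) φ)
  | cst n m a b => cst n m (ren ξ a) (ren ξ b)

/-- Shift. -/
def lift (e : Ex) : Ex := ren Nat.succ e

/-- Lift a substitution under a binder. -/
def ups (s : ℕ → Ex) : ℕ → Ex := scons (var 0) (fun i => lift (s i))

/-- Parallel substitution. -/
def subst (s : ℕ → Ex) : Ex → Ex
  | var i => s i
  | compr p m φ => compr p m (subst (ups s) φ)
  | mem p m a x => mem p m (subst s a) (subst s x)
  | up b w => up b (subst s w)
  | dn b φ z => dn b (subst (ups s) φ) (subst s z)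
  | lamW φ => lamW (subst (ups s) φ)
  | memW m w t => memW m (subst s w) (subst s t)
  | bot => bot
  | imp A B => imp (subst s A) (subst s B)
  | all q m φ => all q m (subst (ups s) φ)
  | cst n m a b => cst n m (subst s a) (subst s b)

/-- Substitute for variable 0. -/
def subst1 (a φ : Ex) : Ex := subst (scons a var) φ

/-- Instantiate the two parameters of a definition. -/
def subst2 (a b φ : Ex) : Ex := subst (scons a (fun _ => b)) φ

/-- No use of the generic mode outside `lamW`. -/
def genFree : Ex → Bool
  | var _ => true
  | compr _ m φ => decide (m = .c) && genFree φ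
  | mem _ m a x => decide (m = .c) && genFree a && genFree x
  | up _ w => genFree w
  | dn _ φ z => genFree φ && genFree z
  | lamW _ => true
  | memW m w s => decide (m = .c) && genFree w && genFree s
  | bot => true
  | imp A B => genFree A && genFree B
  | all _ m φ => decide (m = .c) && genFree φ
  | cst _ m a b => decide (m = .c) && genFree a && genFree b

/-- Replace the generic mode by the closed mode outside `lamW`. -/
def close : Ex → Ex
  | var i => var i
  | compr p _ φ => compr p .c (close φ)
  | mem p _ a x => mem p .c (close a) (close x)
  | up b w => up b (close w)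
  | dn b φ z => dn b (close φ) (close z)
  | lamW φ => lamW φ
  | memW _ w s => memW .c (close w) (close s)
  | bot => bot
  | imp A B => imp (close A) (close B)
  | all q _ φ => all q .c (close φ)
  | cst n _ a b => cst n .c (close a) (close b)

theorem beq_anchor : type_of% @beq.eq_def := @beq.eq_def
theorem ren_anchor : type_of% @ren.eq_def := @ren.eq_def
theorem subst_anchor : type_of% @subst.eq_def := @subst.eq_def
theorem genFree_anchor : type_of% @genFree.eq_def := @genFree.eq_def
theorem close_anchor : type_of% @close.eq_def := @close.eq_def

theorem eq_of_beq : ∀ {e e' : Ex}, beq e e' = true → e = e' := by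
  intro e
  induction e <;> intro e' h <;> cases e' <;> simp_all [beq] <;> grind

end Ex

/-- Instantiate the generic mode of a type. -/
def Tp.atm : Tp → Md → Tp
  | .k K .g, m => .k K m
  | T, _ => T

/-- Hide the variables whose type depends on the generic mode. -/
def hide : Option Tp → Option Tp
  | some (.k _ .g) => none
  | o => o

/-- The type of `up b w`. -/
def upTp : Bool → Tp
  | true => .W'
  | false => .k .Y .c

/-- Signatures of the definitions: two argument types and the result type. -/
abbrev Sig : Type := List (Tp × Tp × Tp)

/-- Type inference. -/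
def tyOf (sg : Sig) : List (Option Tp) → Ex → Option Tp
  | Γ, .var i => Γ.getD i none
  | Γ, .compr p m φ =>
      if tyOf sg (some (.k p.arg m) :: Γ) φ = some .prop then some (.k p.res m) else none
  | Γ, .mem p m a x =>
      if tyOf sg Γ a = some (.k p.res m) ∧ tyOf sg Γ x = some (.k p.arg m) then some .prop
      else none
  | Γ, .up b w => if tyOf sg Γ w = some .W then some (upTp b) else none
  | Γ, .dn b φ z =>
      if tyOf sg (some .W :: Γ) φ = some .prop ∧ tyOf sg Γ z = some (upTp b) then some .prop
      else none
  | Γ, .lamW φ =>
      if tyOf sg (some (.k .Z .g) :: Γ.map hide) φ = some .prop then some .W else none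
  | Γ, .memW m w s =>
      if tyOf sg Γ w = some .W ∧ tyOf sg Γ s = some (.k .Z m) then some .prop else none
  | _, .bot => some .prop
  | Γ, .imp A B =>
      if tyOf sg Γ A = some .prop ∧ tyOf sg Γ B = some .prop then some .prop else none
  | Γ, .all q m φ => if tyOf sg (some (q.tp m) :: Γ) φ = some .prop then some .prop else none
  | Γ, .cst n m a b =>
      match sg[n]? with
      | some T =>
          if tyOf sg Γ a = some (T.1.atm m) ∧ tyOf sg Γ b = some (T.2.1.atm m) then
            some (T.2.2.atm m) else none
      | none => none

theorem tyOf_anchor : type_of% @tyOf.eq_def := @tyOf.eq_def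

/-- Well-formed formulas. -/
def isProp (sg : Sig) (Γ : List (Option Tp)) (e : Ex) : Bool := decide (tyOf sg Γ e = some .prop)

/-- Definitions: signature and body (parameters are the variables 0 and 1). -/
abbrev Defs : Type := List ((Tp × Tp × Tp) × Ex)

/-- The signature of a list of definitions. -/
def sigOf (ds : Defs) : Sig := ds.map Prod.fst

/-- Each body is typed using only the earlier definitions. -/
def checkDefs : Sig → Defs → Bool
  | _, [] => true
  | sg, d :: ds =>
      decide (tyOf sg [some d.1.1, some d.1.2.1] d.2 = some d.1.2.2) && checkDefs (sg ++ [d.1]) ds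

theorem checkDefs_anchor : type_of% @checkDefs.eq_def := @checkDefs.eq_def

/-- One-step contraction of a formula (up to the modality). -/
def contract (ds : Defs) : Ex → Option Ex
  | .mem p _ (.compr p' _ φ) x => if p = p' ∧ x.genFree = true then some (x.subst1 φ) else none
  | .dn b φ (.up b' w) => if b = b' ∧ w.genFree = true then some (w.subst1 φ) else none
  | .memW .c (.lamW φ) s => if s.genFree = true then some (s.subst1 φ.close) else none
  | .cst n .c a b =>
      match ds[n]? with
      | some d => if a.genFree = true ∧ b.genFree = true then some (a.subst2 b d.2.close) else none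
      | none => none
  | .mem p m (.cst n .c a b) x =>
      match ds[n]? with
      | some d =>
          if a.genFree = true ∧ b.genFree = true then some (.mem p m (a.subst2 b d.2.close) x)
          else none
      | none => none
  | .memW m (.cst n .c a b) s =>
      match ds[n]? with
      | some d =>
          if a.genFree = true ∧ b.genFree = true then some (.memW m (a.subst2 b d.2.close) s)
          else none
      | none => none
  | _ => none

theorem contract_anchor : type_of% @contract.eq_def := @contract.eq_def

/-- Lists of expressions (arguments of a lemma). -/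
def argsOK (sg : Sig) (Γ : List (Option Tp)) : List Tp → List Ex → Bool
  | [], [] => true
  | T :: Ts, a :: as => decide (tyOf sg Γ a = some T) && a.genFree && argsOK sg Γ Ts as
  | _, _ => false

theorem argsOK_anchor : type_of% @argsOK.eq_def := @argsOK.eq_def

/-- Proof terms. -/
inductive Pf : Type
  | hyp (j : ℕ)
  | impI (A : Ex) (p : Pf)
  | impE (p q : Pf)
  | allI (q : Qt) (p : Pf)
  | allE (p : Pf) (a : Ex)
  | foldI (R : Ex) (p : Pf)
  | foldE (p : Pf)
  | use (n : ℕ) (args : List Ex)

/-- Proved lemmas: parameter types and statement. -/
abbrev Lems : Type := List (List Tp × Ex)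

/-- The formula proved by a proof term. -/
def infer (ds : Defs) (Λ : Lems) : List (Option Tp) → List Ex → Pf → Option Ex
  | _, Δ, .hyp j => Δ[j]?
  | Γ, Δ, .impI A p =>
      match infer ds Λ Γ (A :: Δ) p with
      | some B =>
          if isProp (sigOf ds) Γ A = true ∧ isProp (sigOf ds) Γ B = true then some (.imp A B)
          else none
      | none => none
  | Γ, Δ, .impE p q =>
      match infer ds Λ Γ Δ p, infer ds Λ Γ Δ q with
      | some (.imp A B), some A' =>
          if A.beq A' = true ∧ isProp (sigOf ds) Γ A = true ∧ isProp (sigOf ds) Γ B = true then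
            some B else none
      | _, _ => none
  | Γ, Δ, .allI q p =>
      match infer ds Λ (some (q.tp .c) :: Γ) (Δ.map Ex.lift) p with
      | some φ =>
          if isProp (sigOf ds) (some (q.tp .c) :: Γ) φ = true then some (.all q .c φ) else none
      | none => none
  | Γ, Δ, .allE p a =>
      match infer ds Λ Γ Δ p with
      | some (.all q m φ) =>
          if tyOf (sigOf ds) Γ a = some (q.tp m) ∧ a.genFree = true ∧
              isProp (sigOf ds) (some (q.tp m) :: Γ) φ = true then some (a.subst1 φ) else none
      | _ => none
  | Γ, Δ, .foldI R p =>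
      match contract ds R, infer ds Λ Γ Δ p with
      | some φ, some φ' =>
          if φ.beq φ' = true ∧ isProp (sigOf ds) Γ R = true ∧ isProp (sigOf ds) Γ φ = true then
            some R else none
      | _, _ => none
  | Γ, Δ, .foldE p =>
      match infer ds Λ Γ Δ p with
      | some R =>
          match contract ds R with
          | some φ => if isProp (sigOf ds) Γ φ = true then some φ else none
          | none => none
      | none => none
  | Γ, _, .use n args =>
      match Λ[n]? with
      | some l =>
          if argsOK (sigOf ds) Γ l.1 args = true then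
            some (l.2.subst (fun i => args.getD i .bot)) else none
      | none => none

theorem infer_anchor : type_of% @infer.eq_def := @infer.eq_def

/-- Check a list of lemmas in order; succeed when `bot` has been proved without parameters. -/
def checkLems (ds : Defs) : Lems → List (List Tp × Ex × Pf) → Bool
  | Λ, [] => Λ.any (fun l => l.1.isEmpty && l.2.beq .bot)
  | Λ, l :: ls =>
      (match infer ds Λ (l.1.map some) [] l.2.2 with
        | some φ => l.2.1.beq φ
        | none => false) && checkLems ds (Λ ++ [(l.1, l.2.1)]) ls

theorem checkLems_anchor : type_of% @checkLems.eq_def := @checkLems.eq_def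

end Crest.Agent.R298.Src
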