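import Crest.Agent.R298.Kinds
import Crest.Agent.R298.Source

/-! Row 298: translation of the source logic into the pure type system. -/

set_option autoImplicit false

namespace Crest.Agent.R298
open Crest.LogicCS.PTS Crest.LogicCS.PTS.Term Src

universe u
variable {S : Type u} {P : Spec S} {U : Univ P} {s0 : S} {L : Logic U s0}

/-- The connective used by a quantifier. -/
def Src.Qt.con : Qt → Con
  | .X' => .qo | .Z' => .qo | .B' => .qe | .W' => .qe

namespace Kinds
variable (K : Kinds L)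

/-- The type of the kind variable. -/
def tA (θ : ℕ → Term S) : Term S := wrap θ K.χ (sort K.k₀)
/-- The kind denoted by an inhabitant of `tA`. -/
def kOf (θ : ℕ → Term S) (κ : Term S) : Term S := inst κ (cv θ K.χ (sort K.k₀) (var 0))
/-- The walk of a power former. -/
def pw : Pw → List (Wr S)
  | .X => K.P1 | .B => K.P0 | .Z => K.P1 | .X' => K.Q1 | .B' => K.E ++ K.P0 | .Z' => K.Q1
/-- Base kind. -/
def tY (θ : ℕ → Term S) (κ : Term S) : Term S := wrap θ K.ωb (K.kOf θ κ)
/-- Points. -/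
def tX (θ : ℕ → Term S) (κ : Term S) : Term S := wrap θ K.P1 (K.tY θ κ)
/-- Sets of points. -/
def tB (θ : ℕ → Term S) (κ : Term S) : Term S := wrap θ K.P0 (K.tX θ κ)
/-- Structures. -/
def tZ (θ : ℕ → Term S) (κ : Term S) : Term S := wrap θ K.P1 (K.tB θ κ)
/-- Translation of kinds. -/
def kd (θ : ℕ → Term S) (κ : Term S) : Kd → Term S
  | .Y => K.tY θ κ
  | .X => K.tX θ κ
  | .B => K.tB θ κ
  | .Z => K.tZ θ κ
  | .X' => wrap θ K.Q1 (K.tY θ κ)
  | .B' => wrap θ (K.E ++ K.P0) (K.tX θ κ)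
  | .Z' => wrap θ K.Q1 (K.tB θ κ)
/-- The polymorphic kind. -/
def tW (θ : ℕ → Term S) : Term S :=
  pi (K.tA θ) (wrap (wkS θ) K.P2 (K.tZ (wkS θ) (var 0)))
/-- The closed instance of the kind variable. -/
def κc (θ : ℕ → Term S) : Term S := vl θ K.χ (sort K.k₀) (wrap θ K.ω' (K.tW θ))
/-- The kind argument of a mode. -/
def κm (θ : ℕ → Term S) (κ : Term S) : Md → Term S
  | .g => κ
  | .c => K.κc θ
/-- Translation of types. -/
def tp (θ : ℕ → Term S) (κ : Term S) : Tp → Term S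
  | .k k m => K.kd θ (K.κm θ κ m) k
  | .W => K.tW θ
  | .W' => wrap θ K.E (K.tW θ)
  | .prop => sort L.c
/-- The even walks ending at the polymorphic kind. -/
def upw : Bool → List (Wr S)
  | true => K.E
  | false => K.ωb ++ K.ω'

/-- Interpretations of the defined constants. -/
abbrev Itp (S : Type u) : Type u := ℕ → (ℕ → Term S) → Term S → Term S → Term S → Term S

/-- Translation of expressions. -/
def den (I : Itp S) : Ex → (ℕ → Term S) → Term S → (ℕ → Term S) → Term S
  | .var i, _, _, ρ => ρ i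
  | .compr p m φ, θ, κ, ρ =>
      vl θ (K.pw p) (K.kd θ (K.κm θ κ m) p.arg) (den I φ (wkS θ) (wk κ) (up ρ))
  | .mem p m a x, θ, κ, ρ =>
      inst (den I a θ κ ρ) (cv θ (K.pw p) (K.kd θ (K.κm θ κ m) p.arg) (den I x θ κ ρ))
  | .up b w, θ, κ, ρ => vl θ (K.upw b) (K.tW θ) (den I w θ κ ρ)
  | .dn b φ z, θ, κ, ρ =>
      inst (den I z θ κ ρ) (cv θ (K.upw b) (K.tW θ) (den I φ (wkS θ) (wk κ) (up ρ)))
  | .lamW φ, θ, _, ρ =>
      lam (K.tA θ) (vl (wkS θ) K.P2 (K.tZ (wkS θ) (var 0))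
        (den I φ (wkS (wkS θ)) (var 1) (up (wkS ρ))))
  | .memW m w s, θ, κ, ρ =>
      inst (app (den I w θ κ ρ) (K.κm θ κ m))
        (cv θ K.P2 (K.tZ θ (K.κm θ κ m)) (den I s θ κ ρ))
  | .bot, θ, _, _ => L.botC θ
  | .imp A B, θ, κ, ρ => L.impC θ (den I A θ κ ρ) (den I B θ κ ρ)
  | .all q m φ, θ, κ, ρ =>
      L.piC θ q.con (K.tp θ κ (q.tp m)) (den I φ (wkS θ) (wk κ) (up ρ))
  | .cst n m a b, θ, κ, ρ => I n θ (K.κm θ κ m) (den I a θ κ ρ) (den I b θ κ ρ)

theorem den_anchor : type_of% @den.eq_def := @den.eq_def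

/-- Naturality of an interpretation. -/
def INat (I : Itp S) : Prop :=
  ∀ n σ θ κ a b, sub σ (I n θ κ a b) = I n (fun i => sub σ (θ i)) (sub σ κ) (sub σ a) (sub σ b)

/-- The constants unfold to their bodies. -/
def IEq (I : Itp S) (ds : Defs) : Prop :=
  ∀ n d, ds[n]? = some d → ∀ θ κ a b, I n θ κ a b = K.den I d.2 θ κ (scons a (fun _ => b))

/-- Number of modalities produced by a contraction. -/
def cntR : Ex → ℕ
  | .mem p _ (.compr _ _ _) _ => cnt (K.pw p)
  | .dn b _ _ => cnt (K.upw b)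
  | .memW _ (.lamW _) _ => cnt K.P2
  | _ => 0

theorem cntR_anchor : type_of% @cntR.eq_def := @cntR.eq_def

section nat
variable (σ θ : ℕ → Term S) (κ : Term S)

theorem par_χ : par K.χ = false := par_of_cnt_zero K.cnt_χ
theorem den_sub_shift : (fun i => sub (fun i => var (i + 1)) (θ i)) = wkS θ := by
  funext i
  rw [wkS_apply, wk_eq_sub]

theorem sub_tA : sub σ (K.tA θ) = K.tA (fun i => sub σ (θ i)) := by
  rw [tA, sub_wrap, sub_sort, tA]
theorem sub_kOf : sub σ (K.kOf θ κ) = K.kOf (fun i => sub σ (θ i)) (sub σ κ) := by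
  rw [kOf, sub_inst', sub_cv, K.par_χ, if_neg Bool.false_ne_true, sub_sort, sub_var, up_zero, kOf]
theorem sub_tY : sub σ (K.tY θ κ) = K.tY (fun i => sub σ (θ i)) (sub σ κ) := by
  rw [tY, sub_wrap, sub_kOf, tY]
theorem sub_tX : sub σ (K.tX θ κ) = K.tX (fun i => sub σ (θ i)) (sub σ κ) := by
  rw [tX, sub_wrap, sub_tY, tX]
theorem sub_tB : sub σ (K.tB θ κ) = K.tB (fun i => sub σ (θ i)) (sub σ κ) := by
  rw [tB, sub_wrap, sub_tX, tB]
theorem sub_tZ : sub σ (K.tZ θ κ) = K.tZ (fun i => sub σ (θ i)) (sub σ κ) := by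
  rw [tZ, sub_wrap, sub_tB, tZ]
theorem sub_kd (k : Kd) : sub σ (K.kd θ κ k) = K.kd (fun i => sub σ (θ i)) (sub σ κ) k := by
  cases k <;> simp only [kd, sub_wrap, sub_tY, sub_tX, sub_tB, sub_tZ]
theorem sub_tW : sub σ (K.tW θ) = K.tW (fun i => sub σ (θ i)) := by
  rw [tW, sub_pi, sub_tA, sub_wrap, sub_tZ, sub_up_wkS, sub_var, up_zero, tW]
theorem sub_κc : sub σ (K.κc θ) = K.κc (fun i => sub σ (θ i)) := by
  rw [κc, sub_vl, K.par_χ, if_neg Bool.false_ne_true, sub_sort, sub_wrap, sub_tW, κc]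
theorem sub_κm (m : Md) :
    sub σ (K.κm θ κ m) = K.κm (fun i => sub σ (θ i)) (sub σ κ) m := by
  cases m
  · rfl
  · exact K.sub_κc σ θ
theorem sub_tp (T : Tp) : sub σ (K.tp θ κ T) = K.tp (fun i => sub σ (θ i)) (sub σ κ) T := by
  cases T <;> simp only [tp, sub_kd, sub_κm, sub_tW, sub_wrap, sub_sort]
theorem wk_tp (T : Tp) : wk (K.tp θ κ T) = K.tp (wkS θ) (wk κ) T := by
  rw [wk_eq_sub, sub_tp, den_sub_shift, ← wk_eq_sub]
theorem wk_κc : wk (K.κc θ) = K.κc (wkS θ) := by
  rw [wk_eq_sub, sub_κc, den_sub_shift]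
theorem κm_κc (m : Md) : K.κm θ (K.κc θ) m = K.κc θ := by
  cases m <;> rfl
theorem par_pw (p : Pw) : par (K.pw p) = true := by
  cases p <;> simp only [pw, par_append, K.par_P1, K.par_P0, K.par_Q1, K.par_E] <;> rfl
theorem par_upw (b : Bool) : par (K.upw b) = false := by
  cases b
  · exact K.par_ω
  · exact K.par_E
theorem kd_res (p : Pw) : K.kd θ κ p.res = wrap θ (K.pw p) (K.kd θ κ p.arg) := by
  cases p <;> rfl
theorem den_not_arg_mem {ω : List (Wr S)} (h : cnt ω = 0) (c inn out : Term S) :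
    Wr.arg c inn out ∉ ω := by
  induction ω with
  | nil => exact List.not_mem_nil
  | cons w ω ih =>
    cases w with
    | res o d =>
      intro hm
      rcases List.mem_cons.1 hm with hm | hm
      · cases hm
      · exact ih h hm
    | arg c' i o => simp at h
theorem kb_χ : KB (L.md θ) θ K.χ := fun c inn out hm =>
  absurd hm (den_not_arg_mem K.cnt_χ c inn out)
theorem kb_pw (p : Pw) : KB (L.md θ) θ (K.pw p) := fun c inn out hm =>
  K.kb θ c inn out (by
    cases p <;> simp only [pw, List.mem_append] at hm ⊢ <;> tauto)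
theorem kb_upw (b : Bool) : KB (L.md θ) θ (K.upw b) := fun c inn out hm =>
  K.kb θ c inn out (by
    cases b <;> simp only [upw, List.mem_append] at hm ⊢ <;> tauto)
theorem kb_P2 : KB (L.md θ) θ K.P2 := fun c inn out hm =>
  K.kb θ c inn out (by simp only [List.mem_append]; tauto)
theorem kOf_κc : BetaEq (K.kOf θ (K.κc θ)) (wrap θ K.ω' (K.tW θ)) := by
  have h := beq_cv_vl (L.beq_md θ) (K.kb_χ θ) (sort K.k₀) (sort K.k₀)
    (wrap θ K.ω' (K.tW θ)) (var 0)
  rwa [K.cnt_χ, K.par_χ, if_neg Bool.false_ne_true, Function.iterate_zero_apply,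
    inst_var_zero] at h

end nat

variable {I : Itp S}

theorem sub_den (hI : INat I) (e : Ex) (σ θ : ℕ → Term S) (κ : Term S) (ρ : ℕ → Term S) :
    sub σ (K.den I e θ κ ρ)
      = K.den I e (fun i => sub σ (θ i)) (sub σ κ) (fun i => sub σ (ρ i)) := by
  induction e generalizing σ θ κ ρ with
  | var i => rfl
  | compr p m φ ih =>
    rw [den, sub_vl, K.par_pw, if_pos rfl, ih, sub_kd, sub_κm, sub_up_wkS, sub_up_wk, up_up, den]
  | mem p m a x iha ihx =>
    rw [den, sub_inst', sub_cv, K.par_pw, if_pos rfl, iha, ihx, sub_kd, sub_κm, den]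
  | up b w ih =>
    rw [den, sub_vl, K.par_upw, if_neg Bool.false_ne_true, ih, sub_tW, den]
  | dn b φ z ihφ ihz =>
    rw [den, sub_inst', sub_cv, K.par_upw, if_neg Bool.false_ne_true, ihφ, ihz, sub_tW,
      sub_up_wkS, sub_up_wk, up_up, den]
  | lamW φ ih =>
    rw [den, sub_lam, sub_tA, sub_vl, K.par_P2, if_pos rfl, ih, sub_tZ, sub_up_wkS, sub_up_wkS,
      up_up, sub_up_wkS, sub_up_wkS, den]
    rfl
  | memW m w s ihw ihs =>
    rw [den, sub_inst', sub_cv, K.par_P2, if_pos rfl, sub_app, ihw, ihs, sub_tZ, sub_κm, den]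
  | bot => rw [den, L.sub_botC, den]
  | imp A B ihA ihB => rw [den, L.sub_impC, ihA, ihB, den]
  | all q m φ ih =>
    rw [den, L.sub_piC, ih, sub_tp, sub_up_wkS, sub_up_wk, up_up, den]
  | cst n m a b iha ihb => rw [den, hI, iha, ihb, sub_κm, den]

theorem wk_den (hI : INat I) (e : Ex) (θ : ℕ → Term S) (κ : Term S) (ρ : ℕ → Term S) :
    wk (K.den I e θ κ ρ) = K.den I e (wkS θ) (wk κ) (wkS ρ) := by
  rw [wk_eq_sub, K.sub_den hI, den_sub_shift, den_sub_shift, ← wk_eq_sub]

theorem den_ren (e : Ex) (ξ : ℕ → ℕ) (θ : ℕ → Term S) (κ : Term S) (ρ : ℕ → Term S) :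
    K.den I (e.ren ξ) θ κ ρ = K.den I e θ κ (fun i => ρ (ξ i)) := by
  induction e generalizing ξ θ κ ρ with
  | var i => rfl
  | compr p m φ ih => rw [Ex.ren, den, ih, up_upr, den]
  | mem p m a x iha ihx => rw [Ex.ren, den, iha, ihx, den]
  | up b w ih => rw [Ex.ren, den, ih, den]
  | dn b φ z ihφ ihz => rw [Ex.ren, den, ihφ, ihz, up_upr, den]
  | lamW φ ih => rw [Ex.ren, den, ih, up_upr, den]; rfl
  | memW m w s ihw ihs => rw [Ex.ren, den, ihw, ihs, den]
  | bot => rfl
  | imp A B ihA ihB => rw [Ex.ren, den, ihA, ihB, den]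
  | all q m φ ih => rw [Ex.ren, den, ih, up_upr, den]
  | cst n m a b iha ihb => rw [Ex.ren, den, iha, ihb, den]

theorem den_lift (e : Ex) (θ : ℕ → Term S) (κ a : Term S) (ρ : ℕ → Term S) :
    K.den I e.lift θ κ (scons a ρ) = K.den I e θ κ ρ := by
  rw [Ex.lift, den_ren]
  rfl

theorem den_genFree {e : Ex} (h : e.genFree = true) (θ : ℕ → Term S) (κ κ' : Term S)
    (ρ : ℕ → Term S) : K.den I e θ κ ρ = K.den I e θ κ' ρ := by
  induction e generalizing θ κ κ' ρ with
  | var i => rfl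
  | compr p m φ ih =>
    simp only [Ex.genFree, Bool.and_eq_true, decide_eq_true_eq] at h
    obtain ⟨rfl, h⟩ := h
    rw [den, den, ih h _ (wk κ) (wk κ')]
    rfl
  | mem p m a x iha ihx =>
    simp only [Ex.genFree, Bool.and_eq_true, decide_eq_true_eq] at h
    obtain ⟨⟨rfl, h1⟩, h2⟩ := h
    rw [den, den, iha h1 _ κ κ', ihx h2 _ κ κ']
    rfl
  | up b w ih =>
    simp only [Ex.genFree] at h
    rw [den, den, ih h _ κ κ']
  | dn b φ z ihφ ihz =>
    simp only [Ex.genFree, Bool.and_eq_true] at h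
    rw [den, den, ihφ h.1 _ (wk κ) (wk κ'), ihz h.2 _ κ κ']
  | lamW φ ih => rfl
  | memW m w s ihw ihs =>
    simp only [Ex.genFree, Bool.and_eq_true, decide_eq_true_eq] at h
    obtain ⟨⟨rfl, h1⟩, h2⟩ := h
    rw [den, den, ihw h1 _ κ κ', ihs h2 _ κ κ']
    rfl
  | bot => rfl
  | imp A B ihA ihB =>
    simp only [Ex.genFree, Bool.and_eq_true] at h
    rw [den, den, ihA h.1 _ κ κ', ihB h.2 _ κ κ']
  | all q m φ ih =>
    simp only [Ex.genFree, Bool.and_eq_true, decide_eq_true_eq] at h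
    obtain ⟨rfl, h⟩ := h
    rw [den, den, ih h _ (wk κ) (wk κ')]
    cases q <;> rfl
  | cst n m a b iha ihb =>
    simp only [Ex.genFree, Bool.and_eq_true, decide_eq_true_eq] at h
    obtain ⟨⟨rfl, h1⟩, h2⟩ := h
    rw [den, den, iha h1 _ κ κ', ihb h2 _ κ κ']
    rfl

theorem den_close (hI : INat I) (e : Ex) (θ : ℕ → Term S) (κ : Term S) (ρ : ℕ → Term S) :
    K.den I e.close θ κ ρ = K.den I e θ (K.κc θ) ρ := by
  induction e generalizing θ κ ρ with
  | var i => rfl
  | compr p m φ ih => rw [Ex.close, den, den, ih, κm_κc, wk_κc]; rfl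
  | mem p m a x iha ihx => rw [Ex.close, den, den, iha, ihx, κm_κc]; rfl
  | up b w ih => rw [Ex.close, den, den, ih]
  | dn b φ z ihφ ihz => rw [Ex.close, den, den, ihφ, ihz, wk_κc]
  | lamW φ ih => rfl
  | memW m w s ihw ihs => rw [Ex.close, den, den, ihw, ihs, κm_κc]; rfl
  | bot => rfl
  | imp A B ihA ihB => rw [Ex.close, den, den, ihA, ihB]
  | all q m φ ih =>
    rw [Ex.close, den, den, ih, wk_κc]
    cases q <;> cases m <;> rfl
  | cst n m a b iha ihb => rw [Ex.close, den, den, iha, ihb, κm_κc]; rfl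

theorem den_genFree_ren (e : Ex) (ξ : ℕ → ℕ) : (e.ren ξ).genFree = e.genFree := by
  induction e generalizing ξ <;> simp only [Ex.ren, Ex.genFree, *]

theorem den_genFree_ups {s : ℕ → Ex} (hs : ∀ i, (s i).genFree = true) (i : ℕ) :
    (Ex.ups s i).genFree = true := by
  cases i with
  | zero => rfl
  | succ i => exact (den_genFree_ren (s i) Nat.succ).trans (hs i)

theorem den_ups (hI : INat I) (s : ℕ → Ex) (θ : ℕ → Term S) (κ : Term S) (ρ : ℕ → Term S) :
    (fun i => K.den I (Ex.ups s i) (wkS θ) (wk κ) (up ρ))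
      = up (fun i => K.den I (s i) θ κ ρ) := by
  funext i
  cases i with
  | zero => rfl
  | succ i =>
    rw [up_succ, K.wk_den hI]
    exact K.den_lift (s i) _ _ _ _

theorem den_subst (hI : INat I) (e : Ex) {s : ℕ → Ex} (hs : ∀ i, (s i).genFree = true)
    (θ : ℕ → Term S) (κ : Term S) (ρ : ℕ → Term S) :
    K.den I (e.subst s) θ κ ρ = K.den I e θ κ (fun i => K.den I (s i) θ κ ρ) := by
  induction e generalizing s θ κ ρ with
  | var i => rfl
  | compr p m φ ih => rw [Ex.subst, den, ih (den_genFree_ups hs), K.den_ups hI, den]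
  | mem p m a x iha ihx => rw [Ex.subst, den, iha hs, ihx hs, den]
  | up b w ih => rw [Ex.subst, den, ih hs, den]
  | dn b φ z ihφ ihz => rw [Ex.subst, den, ihφ (den_genFree_ups hs), ihz hs, K.den_ups hI, den]
  | lamW φ ih =>
    have e : (fun i => K.den I (Ex.ups s i) (wkS (wkS θ)) (var 1) (up (wkS ρ)))
        = up (wkS fun i => K.den I (s i) θ κ ρ) := by
      have h := K.den_ups hI s (wkS θ) (var 0) (wkS ρ)
      rw [wk_var] at h
      rw [h]
      congr 1
      funext i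
      rw [wkS_apply, K.wk_den hI]
      exact K.den_genFree (hs i) _ _ _ _
    rw [Ex.subst, den, ih (den_genFree_ups hs), e, den]
  | memW m w t ihw iht => rw [Ex.subst, den, ihw hs, iht hs, den]
  | bot => rfl
  | imp A B ihA ihB => rw [Ex.subst, den, ihA hs, ihB hs, den]
  | all q m φ ih => rw [Ex.subst, den, ih (den_genFree_ups hs), K.den_ups hI, den]
  | cst n m a b iha ihb => rw [Ex.subst, den, iha hs, ihb hs, den]

theorem den_inst (hI : INat I) (φ : Ex) (A : Term S) (θ : ℕ → Term S) (κ : Term S)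
    (ρ : ℕ → Term S) :
    inst A (K.den I φ (wkS θ) (wk κ) (up ρ)) = K.den I φ θ κ (scons A ρ) := by
  rw [inst, K.sub_den hI, Logic.machine_inst_wkS, sub_scons_wk, sub_id]
  congr 1
  funext i
  cases i with
  | zero => rfl
  | succ i => rw [up_succ, sub_scons_wk, sub_id, scons_succ]

theorem den_subst1 (hI : INat I) (φ : Ex) {a : Ex} (ha : a.genFree = true)
    (θ : ℕ → Term S) (κ : Term S) (ρ : ℕ → Term S) :
    K.den I (a.subst1 φ) θ κ ρ
      = inst (K.den I a θ κ ρ) (K.den I φ (wkS θ) (wk κ) (up ρ)) := by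
  rw [K.den_inst hI, Ex.subst1, K.den_subst hI φ (s := scons a Ex.var)
    (fun i => by cases i with | zero => exact ha | succ i => rfl)]
  congr 1
  funext i
  cases i <;> rfl

theorem den_unfold (hI : INat I) {ds : Defs} (hE : K.IEq I ds) {n : ℕ} {d : (Tp × Tp × Tp) × Ex}
    (hd : ds[n]? = some d) {a b : Ex} (ha : a.genFree = true) (hb : b.genFree = true)
    (θ : ℕ → Term S) (κ : Term S) (ρ : ℕ → Term S) :
    K.den I (.cst n .c a b) θ κ ρ = K.den I (a.subst2 b d.2.close) θ κ ρ := by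
  rw [den, hE n d hd, Ex.subst2, K.den_subst hI _ (s := scons a fun _ => b)
    (fun i => by cases i with | zero => exact ha | succ i => exact hb), K.den_close hI]
  congr 1
  funext i
  cases i <;> rfl

theorem den_app_lamW (hI : INat I) (φ : Ex) (θ : ℕ → Term S) (κ κ' : Term S) (ρ : ℕ → Term S) :
    BetaEq (app (K.den I (.lamW φ) θ κ ρ) κ')
      (vl θ K.P2 (K.tZ θ κ') (K.den I φ (wkS θ) (wk κ') (up ρ))) := by
  rw [den]
  refine beq_trans (beq_redex _ _ _) (beq_of_eq ?_)
  rw [inst, sub_vl, K.par_P2, if_pos rfl, K.sub_den hI, sub_tZ, sub_up_wkS, up_up,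
    Logic.machine_inst_wkS, Logic.machine_inst_wkS]
  rfl

theorem den_contract (hI : INat I) {ds : Defs} (hE : K.IEq I ds) {R φ : Ex}
    (h : contract ds R = some φ) (θ : ℕ → Term S) (κ : Term S) (ρ : ℕ → Term S) :
    BetaEq (K.den I R θ κ ρ) ((L.md θ)^[K.cntR R] (K.den I φ θ κ ρ)) := by
  unfold contract at h
  split at h
  · next p m p' m' ψ x =>
    split at h
    · next hc =>
      obtain ⟨rfl, hx⟩ := hc
      obtain rfl := Option.some.inj h
      have h1 := beq_cv_vl (L.beq_md θ) (K.kb_pw θ p) (K.kd θ (K.κm θ κ m') p.arg)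
        (K.kd θ (K.κm θ κ m) p.arg) (K.den I ψ (wkS θ) (wk κ) (up ρ)) (K.den I x θ κ ρ)
      rw [K.par_pw, if_pos rfl, ← K.den_subst1 hI ψ hx] at h1
      exact h1
    · cases h
  · next b ψ b' w =>
    split at h
    · next hc =>
      obtain ⟨rfl, hw⟩ := hc
      obtain rfl := Option.some.inj h
      have h1 := beq_cv_vl (L.beq_md θ) (K.kb_upw θ b) (K.tW θ) (K.tW θ)
        (K.den I w θ κ ρ) (K.den I ψ (wkS θ) (wk κ) (up ρ))
      rw [K.par_upw, if_neg Bool.false_ne_true, ← K.den_subst1 hI ψ hw] at h1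
      exact h1
    · cases h
  · next ψ s =>
    split at h
    · next hs =>
      obtain rfl := Option.some.inj h
      have h1 := beq_cv_vl (L.beq_md θ) (K.kb_P2 θ) (K.tZ θ (K.κc θ)) (K.tZ θ (K.κc θ))
        (K.den I ψ (wkS θ) (wk (K.κc θ)) (up ρ)) (K.den I s θ κ ρ)
      rw [K.par_P2, if_pos rfl] at h1
      rw [K.den_subst1 hI _ hs, K.den_close hI, ← wk_κc]
      exact beq_trans (beq_inst (K.den_app_lamW hI ψ θ κ (K.κc θ) ρ) (beq_refl _)) h1
    · cases h
  · next n a b =>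
    split at h
    · next d hd =>
      split at h
      · next hc =>
        obtain rfl := Option.some.inj h
        exact beq_of_eq (K.den_unfold hI hE hd hc.1 hc.2 θ κ ρ)
      · cases h
    · cases h
  · next p m n a b x =>
    split at h
    · next d hd =>
      split at h
      · next hc =>
        obtain rfl := Option.some.inj h
        refine beq_of_eq ?_
        rw [den, K.den_unfold hI hE hd hc.1 hc.2 θ κ ρ]
        rfl
      · cases h
    · cases h
  · next m n a b s =>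
    split at h
    · next d hd =>
      split at h
      · next hc =>
        obtain rfl := Option.some.inj h
        refine beq_of_eq ?_
        rw [den, K.den_unfold hI hE hd hc.1 hc.2 θ κ ρ]
        rfl
      · cases h
    · cases h
  · cases h

end Kinds

end Crest.Agent.R298
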