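import Crest.Agent.R298.Den

/-! Row 298: the translation preserves typing; interpretation of the definitions. -/

set_option autoImplicit false

namespace Crest.Agent.R298
open Crest.LogicCS.PTS Crest.LogicCS.PTS.Term Src

universe u
variable {S : Type u} {P : Spec S} {U : Univ P} {s0 : S} {L : Logic U s0}

namespace Kinds
variable (K : Kinds L)

/-- Well-typed environments. -/
def TyEnv (Γ : Ctx S) (θ : ℕ → Term S) (κ : Term S) (ρ : ℕ → Term S)
    (Γs : List (Option Tp)) : Prop :=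
  SubTy P Γ θ U.Θ ∧ Ty P Γ κ (K.tA θ) ∧
    ∀ i T, Γs.getD i none = some T → Ty P Γ (ρ i) (K.tp θ κ T)

/-- Well-typed interpretations. -/
def ITy (I : Itp S) (sg : Sig) : Prop :=
  ∀ n T, sg[n]? = some T → ∀ Γ θ κ a b, SubTy P Γ θ U.Θ → Ty P Γ κ (K.tA θ) →
    Ty P Γ a (K.tp θ κ T.1) → Ty P Γ b (K.tp θ κ T.2.1) →
    Ty P Γ (I n θ κ a b) (K.tp θ κ T.2.2)

variable {Γ : Ctx S} {θ : ℕ → Term S} {κ : Term S} {ρ : ℕ → Term S} {I : Itp S}

theorem denTy_tA (hθ : SubTy P Γ θ U.Θ) : Ty P Γ (K.tA θ) (sort K.p₁) :=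
  K.wt_χ.ty_wrap hθ (Ty.ax K.ax)

theorem denTy_wk_tA (θ : ℕ → Term S) : wk (K.tA θ) = K.tA (wkS θ) := wk_wrap θ _ _

theorem denTy_var (A : Term S) (h : A = K.tA θ) : Ty P (ext Γ A) (var 0) (K.tA (wkS θ)) := by
  rw [h, ← denTy_wk_tA]
  exact Ty.var 0

theorem denTy_kOf (hθ : SubTy P Γ θ U.Θ) (hκ : Ty P Γ κ (K.tA θ)) :
    Ty P Γ (K.kOf θ κ) (sort K.k₀) :=
  ((K.wt_χ.of_cnt_zero K.cnt_χ (sort K.k₀)).ty_cv_even hθ (Ty.ax K.ax)
    (par_of_cnt_zero K.cnt_χ) (Ty.var 0)).inst hκ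

theorem denTy_tY (hθ : SubTy P Γ θ U.Θ) (hκ : Ty P Γ κ (K.tA θ)) :
    Ty P Γ (K.tY θ κ) (sort K.p₃) := K.wt_ωb.ty_wrap hθ (K.denTy_kOf hθ hκ)

theorem denTy_tX (hθ : SubTy P Γ θ U.Θ) (hκ : Ty P Γ κ (K.tA θ)) :
    Ty P Γ (K.tX θ κ) (sort K.ps) := K.wt_P1.ty_wrap hθ (K.denTy_tY hθ hκ)

theorem denTy_tB (hθ : SubTy P Γ θ U.Θ) (hκ : Ty P Γ κ (K.tA θ)) :
    Ty P Γ (K.tB θ κ) (sort K.p₃) := K.wt_P0.ty_wrap hθ (K.denTy_tX hθ hκ)

theorem denTy_tZ (hθ : SubTy P Γ θ U.Θ) (hκ : Ty P Γ κ (K.tA θ)) :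
    Ty P Γ (K.tZ θ κ) (sort K.ps) := K.wt_P1.ty_wrap hθ (K.denTy_tB hθ hκ)

theorem denTy_tW (hθ : SubTy P Γ θ U.Θ) : Ty P Γ (K.tW θ) (sort K.p₃) :=
  Ty.pi (K.denTy_tA hθ)
    (K.wt_P2.ty_wrap (hθ.wkS _) (K.denTy_tZ (hθ.wkS _) (K.denTy_var _ rfl))) K.rule

theorem ty_κc (hθ : SubTy P Γ θ U.Θ) : Ty P Γ (K.κc θ) (K.tA θ) :=
  K.wt_χ.ty_vl_even hθ (Ty.ax K.ax) (par_of_cnt_zero K.cnt_χ)
    (K.wt_ω'.ty_wrap hθ (K.denTy_tW hθ))

theorem denTy_κm (hθ : SubTy P Γ θ U.Θ) (hκ : Ty P Γ κ (K.tA θ)) (m : Md) :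
    Ty P Γ (K.κm θ κ m) (K.tA θ) := by
  cases m with
  | g => exact hκ
  | c => exact K.ty_κc hθ

theorem denTy_pw (hθ : SubTy P Γ θ U.Θ) (hκ : Ty P Γ κ (K.tA θ)) (p : Pw) :
    ∃ s t, WT U (sort L.c) s (K.pw p) t ∧ Ty P Γ (K.kd θ κ p.arg) (sort t) := by
  cases p with
  | X => exact ⟨_, _, K.wt_P1, K.denTy_tY hθ hκ⟩
  | B => exact ⟨_, _, K.wt_P0, K.denTy_tX hθ hκ⟩
  | Z => exact ⟨_, _, K.wt_P1, K.denTy_tB hθ hκ⟩
  | X' => exact ⟨_, _, K.wt_Q1, K.denTy_tY hθ hκ⟩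
  | B' => exact ⟨_, _, K.wt_E.append K.wt_P0, K.denTy_tX hθ hκ⟩
  | Z' => exact ⟨_, _, K.wt_Q1, K.denTy_tB hθ hκ⟩

theorem denTy_upw (b : Bool) : ∃ s, WT U (sort L.c) s (K.upw b) K.p₃ := by
  cases b with
  | true => exact ⟨_, K.wt_E⟩
  | false => exact ⟨_, K.wt_ωb.append K.wt_ω'⟩

theorem denTy_beq_up (θ : ℕ → Term S) :
    BetaEq (K.tY θ (K.κc θ)) (wrap θ (K.ωb ++ K.ω') (K.tW θ)) := by
  rw [wrap_append]
  exact beq_wrap θ _ (K.kOf_κc θ)

theorem denTy_up_of (hθ : SubTy P Γ θ U.Θ) (b : Bool) {M : Term S}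
    (h : Ty P Γ M (wrap θ (K.upw b) (K.tW θ))) : Ty P Γ M (K.tp θ κ (upTp b)) := by
  cases b with
  | true => exact h
  | false => exact Ty.conv h (K.denTy_tY hθ (K.ty_κc hθ)) (beq_symm (K.denTy_beq_up θ))

theorem denTy_of_up (hθ : SubTy P Γ θ U.Θ) (b : Bool) {M : Term S}
    (h : Ty P Γ M (K.tp θ κ (upTp b))) : Ty P Γ M (wrap θ (K.upw b) (K.tW θ)) := by
  cases b with
  | true => exact h
  | false =>
    exact Ty.conv h ((K.wt_ωb.append K.wt_ω').ty_wrap hθ (K.denTy_tW hθ)) (K.denTy_beq_up θ)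

/-- Quantifiable types have the sort of their quantifier. -/
theorem ty_qt (hθ : SubTy P Γ θ U.Θ) (hκ : Ty P Γ κ (K.tA θ)) (q : Qt) (m : Md) :
    Ty P Γ (K.tp θ κ (q.tp m)) (sort (L.s₁ q.con)) := by
  have hm := K.denTy_κm hθ hκ m
  cases q with
  | X' => exact K.wt_Q1.ty_wrap hθ (K.denTy_tY hθ hm)
  | B' => exact (K.wt_E.append K.wt_P0).ty_wrap hθ (K.denTy_tX hθ hm)
  | Z' => exact K.wt_Q1.ty_wrap hθ (K.denTy_tB hθ hm)
  | W' => exact K.wt_E.ty_wrap hθ (K.denTy_tW hθ)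

theorem TyEnv.up {Γs : List (Option Tp)} (h : K.TyEnv Γ θ κ ρ Γs) (T : Tp) :
    K.TyEnv (ext Γ (K.tp θ κ T)) (wkS θ) (wk κ) (up ρ) (some T :: Γs) := by
  obtain ⟨h1, h2, h3⟩ := h
  refine ⟨h1.wkS _, by rw [← denTy_wk_tA]; exact h2.wk _, fun i T' hi => ?_⟩
  rw [← wk_tp]
  cases i with
  | zero =>
    obtain rfl : T = T' := Option.some.inj hi
    exact Ty.var 0
  | succ i => exact (h3 i T' hi).wk _

theorem TyEnv.wk {Γs : List (Option Tp)} (h : K.TyEnv Γ θ κ ρ Γs) (A : Term S) :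
    K.TyEnv (ext Γ A) (wkS θ) (wk κ) (wkS ρ) Γs := by
  obtain ⟨h1, h2, h3⟩ := h
  refine ⟨h1.wkS _, by rw [← denTy_wk_tA]; exact h2.wk _, fun i T' hi => ?_⟩
  rw [← wk_tp]
  exact (h3 i T' hi).wk _

theorem denTy_hide {o : Option Tp} {T : Tp} (h : hide o = some T) (θ : ℕ → Term S)
    (κ κ' : Term S) : o = some T ∧ K.tp θ κ T = K.tp θ κ' T := by
  rcases o with _ | ⟨⟨k, _ | _⟩ | _ | _ | _⟩ <;> cases h <;> exact ⟨rfl, rfl⟩

theorem denTy_env_hide {Γs : List (Option Tp)} (h : K.TyEnv Γ θ κ ρ Γs) {κ' : Term S}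
    (hκ : Ty P Γ κ' (K.tA θ)) : K.TyEnv Γ θ κ' ρ (Γs.map hide) := by
  refine ⟨h.1, hκ, fun i T hi => ?_⟩
  have e : (Γs.map hide).getD i none = hide (Γs.getD i none) :=
    List.getD_map (l := Γs) (d := none) hide
  rw [e] at hi
  obtain ⟨h1, h2⟩ := K.denTy_hide hi θ κ' κ
  rw [h2]
  exact h.2.2 i T h1

theorem denTy_atm (θ : ℕ → Term S) (κ : Term S) (T : Tp) (m : Md) :
    K.tp θ κ (T.atm m) = K.tp θ (K.κm θ κ m) T := by
  rcases T with ⟨k, _ | _⟩ | _ | _ | _ <;> rfl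

theorem denTy_inst_W (θ : ℕ → Term S) (a : Term S) :
    inst a (wrap (wkS θ) K.P2 (K.tZ (wkS θ) (var 0))) = wrap θ K.P2 (K.tZ θ a) := by
  have e : (fun i => sub (scons a var) (wkS θ i)) = θ := by
    funext i; exact inst_wk a (θ i)
  rw [inst, sub_wrap, sub_tZ, e]
  rfl

theorem ty_den {sg : Sig} (hT : K.ITy I sg) (e : Ex) :
    ∀ {Γ : Ctx S} {θ : ℕ → Term S} {κ : Term S} {ρ : ℕ → Term S} {Γs : List (Option Tp)}
      {T : Tp}, K.TyEnv Γ θ κ ρ Γs → tyOf sg Γs e = some T →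
      Ty P Γ (K.den I e θ κ ρ) (K.tp θ κ T) := by
  induction e with
  | var i => exact fun h ht => h.2.2 i _ ht
  | compr p m φ ih =>
    intro Γ θ κ ρ Γs T h ht
    rw [tyOf] at ht
    split_ifs at ht with hφ
    cases ht
    obtain ⟨s, t, hw, hX⟩ := K.denTy_pw h.1 (K.denTy_κm h.1 h.2.1 m) p
    have := hw.ty_vl_odd h.1 hX (K.par_pw p) (ih (h.up K (.k p.arg m)) hφ)
    rw [← kd_res] at this
    exact this
  | mem p m a x iha ihx =>
    intro Γ θ κ ρ Γs T h ht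
    rw [tyOf] at ht
    split_ifs at ht with hφ
    cases ht
    obtain ⟨s, t, hw, hX⟩ := K.denTy_pw h.1 (K.denTy_κm h.1 h.2.1 m) p
    have h1 := hw.ty_cv_odd h.1 hX (K.par_pw p) (ihx h hφ.2)
    rw [← kd_res] at h1
    exact h1.inst (iha h hφ.1)
  | up b w ih =>
    intro Γ θ κ ρ Γs T h ht
    rw [tyOf] at ht
    split_ifs at ht with hφ
    cases ht
    obtain ⟨s, hw⟩ := K.denTy_upw b
    exact K.denTy_up_of h.1 b (hw.ty_vl_even h.1 (K.denTy_tW h.1) (K.par_upw b) (ih h hφ))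
  | dn b φ z ihφ ihz =>
    intro Γ θ κ ρ Γs T h ht
    rw [tyOf] at ht
    split_ifs at ht with hφ
    cases ht
    obtain ⟨s, hw⟩ := K.denTy_upw b
    exact (hw.ty_cv_even h.1 (K.denTy_tW h.1) (K.par_upw b) (ihφ (h.up K .W) hφ.1)).inst
      (K.denTy_of_up h.1 b (ihz h hφ.2))
  | lamW φ ih =>
    intro Γ θ κ ρ Γs T h ht
    rw [tyOf] at ht
    split_ifs at ht with hφ
    cases ht
    have hv : Ty P (ext Γ (K.tA θ)) (var 0) (K.tA (wkS θ)) := K.denTy_var _ rfl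
    have h1 := (K.denTy_env_hide (h.wk K (K.tA θ)) hv).up K (.k .Z .g)
    exact Ty.lam (K.wt_P2.ty_vl_odd (h.1.wkS _) (K.denTy_tZ (h.1.wkS _) hv) K.par_P2
      (ih h1 hφ)) (K.denTy_tW h.1)
  | memW m w s ihw ihs =>
    intro Γ θ κ ρ Γs T h ht
    rw [tyOf] at ht
    split_ifs at ht with hφ
    cases ht
    have hm := K.denTy_κm h.1 h.2.1 m
    have h1 := Ty.app (ihw h hφ.1) hm
    rw [denTy_inst_W] at h1
    exact (K.wt_P2.ty_cv_odd h.1 (K.denTy_tZ h.1 hm) K.par_P2 (ihs h hφ.2)).inst h1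
  | bot =>
    intro Γ θ κ ρ Γs T h ht
    cases ht
    exact L.ty_botC h.1
  | imp A B ihA ihB =>
    intro Γ θ κ ρ Γs T h ht
    rw [tyOf] at ht
    split_ifs at ht with hφ
    cases ht
    exact L.ty_impC h.1 (ihA h hφ.1) (ihB h hφ.2)
  | all q m φ ih =>
    intro Γ θ κ ρ Γs T h ht
    rw [tyOf] at ht
    split_ifs at ht with hφ
    cases ht
    exact L.ty_piC h.1 (K.ty_qt h.1 h.2.1 q m) (ih (h.up K (q.tp m)) hφ)
  | cst n m a b iha ihb =>
    intro Γ θ κ ρ Γs T h ht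
    rw [tyOf] at ht
    split at ht
    · rename_i T₀ hn
      split_ifs at ht with hφ
      cases ht
      have ha := iha h hφ.1
      have hb := ihb h hφ.2
      rw [denTy_atm] at ha hb ⊢
      exact hT n T₀ hn Γ θ _ _ _ h.1 (K.denTy_κm h.1 h.2.1 m) ha hb
    · cases ht

theorem denTy_congr {sg : Sig} {I I' : Itp S} (hI : ∀ j, j < sg.length → I j = I' j) (e : Ex) :
    ∀ {Γs : List (Option Tp)} {T : Tp}, tyOf sg Γs e = some T → K.den I e = K.den I' e := by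
  induction e with
  | var i => exact fun _ => rfl
  | bot => exact fun _ => rfl
  | cst n m a b iha ihb =>
    intro Γs T ht
    rw [tyOf] at ht
    split at ht
    · rename_i T₀ hn
      split_ifs at ht with hφ
      funext θ κ ρ
      rw [den, den, iha hφ.1, ihb hφ.2, hI n (List.getElem?_eq_some_iff.1 hn).1]
    · cases ht
  | compr p m φ ih =>
    intro Γs T ht
    rw [tyOf] at ht
    split_ifs at ht with hφ
    funext θ κ ρ
    rw [den, den, ih hφ]
  | up b w ih =>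
    intro Γs T ht
    rw [tyOf] at ht
    split_ifs at ht with hφ
    funext θ κ ρ
    rw [den, den, ih hφ]
  | lamW φ ih =>
    intro Γs T ht
    rw [tyOf] at ht
    split_ifs at ht with hφ
    funext θ κ ρ
    rw [den, den, ih hφ]
  | all q m φ ih =>
    intro Γs T ht
    rw [tyOf] at ht
    split_ifs at ht with hφ
    funext θ κ ρ
    rw [den, den, ih hφ]
  | mem p m a x iha ihb =>
    intro Γs T ht
    rw [tyOf] at ht
    split_ifs at ht with hφ
    funext θ κ ρ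
    rw [den, den, iha hφ.1, ihb hφ.2]
  | dn b φ z iha ihb =>
    intro Γs T ht
    rw [tyOf] at ht
    split_ifs at ht with hφ
    funext θ κ ρ
    rw [den, den, iha hφ.1, ihb hφ.2]
  | memW m w s iha ihb =>
    intro Γs T ht
    rw [tyOf] at ht
    split_ifs at ht with hφ
    funext θ κ ρ
    rw [den, den, iha hφ.1, ihb hφ.2]
  | imp A B iha ihb =>
    intro Γs T ht
    rw [tyOf] at ht
    split_ifs at ht with hφ
    funext θ κ ρ
    rw [den, den, iha hφ.1, ihb hφ.2]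

theorem denTy_itp (ds : Defs) : ∀ (pre : Defs) (I : Itp S), INat I → K.ITy I (sigOf pre) →
    K.IEq I pre →
    (∀ d ∈ pre, ∀ J J' : Itp S, (∀ j, j < pre.length → J j = J' j) →
      K.den J d.2 = K.den J' d.2) →
    checkDefs (sigOf pre) ds = true →
    ∃ I : Itp S, INat I ∧ K.ITy I (sigOf (pre ++ ds)) ∧ K.IEq I (pre ++ ds) := by
  induction ds with
  | nil =>
    intro pre I h1 h2 h3 _ _
    rw [List.append_nil]
    exact ⟨I, h1, h2, h3⟩
  | cons d ds ih =>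
    intro pre I h1 h2 h3 h4 hc
    rw [checkDefs, Bool.and_eq_true, decide_eq_true_eq] at hc
    obtain ⟨hd, hc⟩ := hc
    have hlen : (sigOf pre).length = pre.length := List.length_map _
    have hsig : sigOf (pre ++ [d]) = sigOf pre ++ [d.1] := List.map_append
    let I' : Itp S := fun j =>
      if j = pre.length then fun θ κ a b => K.den I d.2 θ κ (scons a fun _ => b) else I j
    have hlt : ∀ j, j < pre.length → I j = I' j := fun j hj => (if_neg hj.ne).symm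
    have hn : I' pre.length = fun θ κ a b => K.den I d.2 θ κ (scons a fun _ => b) := if_pos rfl
    have hd' : ∀ J J' : Itp S, (∀ j, j < pre.length → J j = J' j) →
        K.den J d.2 = K.den J' d.2 := fun J J' h =>
      K.denTy_congr (fun j hj => h j (hlen ▸ hj)) d.2 hd
    rw [List.append_cons]
    refine ih (pre ++ [d]) I' ?_ ?_ ?_ ?_ (hsig ▸ hc)
    · intro n σ θ κ a b
      by_cases e : n = pre.length
      · rw [e, hn]
        simp only []
        rw [K.sub_den h1, scons_comp]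
      · have : I' n = I n := if_neg e
        rw [this]
        exact h1 n σ θ κ a b
    · intro n T hT Γ θ κ a b hθ hκ ha hb
      rw [hsig] at hT
      by_cases e : n < (sigOf pre).length
      · rw [List.getElem?_append_left e] at hT
        rw [← hlt n (hlen ▸ e)]
        exact h2 n T hT Γ θ κ a b hθ hκ ha hb
      · have e' : n = pre.length := by
          have := (List.getElem?_eq_some_iff.1 hT).1
          simp only [List.length_append, List.length_singleton] at this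
          omega
        rw [e', ← hlen, List.getElem?_concat_length] at hT
        cases hT
        rw [e', hn]
        refine K.ty_den h2 d.2 ⟨hθ, hκ, fun i T hi => ?_⟩ hd
        rcases i with _ | _ | i
        · cases hi; exact ha
        · cases hi; exact hb
        · cases hi
    · intro n d' hT θ κ a b
      by_cases e : n < pre.length
      · rw [List.getElem?_append_left e] at hT
        rw [← hlt n e, ← h4 d' (List.mem_of_getElem? hT) I I' hlt]
        exact h3 n d' hT θ κ a b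
      · have e' : n = pre.length := by
          have := (List.getElem?_eq_some_iff.1 hT).1
          simp only [List.length_append, List.length_singleton] at this
          omega
        rw [e', List.getElem?_concat_length] at hT
        cases hT
        rw [e', hn, ← hd' I I' hlt]
    · intro d' hm J J' hJ
      have hJ' : ∀ j, j < pre.length → J j = J' j := fun j hj =>
        hJ j (by rw [List.length_append]; omega)
      rcases List.mem_append.1 hm with hm | hm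
      · exact h4 d' hm J J' hJ'
      · rw [List.mem_singleton.1 hm]
        exact hd' J J' hJ'

theorem exists_itp {ds : Defs} (h : checkDefs [] ds = true) :
    ∃ I : Itp S, INat I ∧ K.ITy I (sigOf ds) ∧ K.IEq I ds :=
  K.denTy_itp ds [] (fun _ _ κ _ _ => κ) (fun _ _ _ _ _ _ => rfl)
    (fun n T hT => by simp [sigOf] at hT) (fun n d hd => by simp at hd)
    (fun d hd => by simp at hd) h

end Kinds

end Crest.Agent.R298
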