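import Crest.Agent.R298.Dom

/-! Row 298: families of values determined by a small set of observations. -/

set_option autoImplicit false

namespace Crest.Agent.R298

universe u w

/-- A (large) family of basic observations on the index type `Ω`. -/
structure Obs (Ω : Type (u + 1)) (β : Type u) : Type (u + 2) where
  /-- names of the observations -/
  J : Type (u + 1)
  /-- the observations -/
  ob : J → Ω → β

variable {α β : Type u} {Ω : Type (u + 1)}

/-- `G` is determined by a small set of observations. -/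
def Det (O : Obs Ω β) {Z : Sort w} (G : Ω → Z) : Prop :=
  ∃ (ι : Type u) (s : ι → O.J), ∀ ω ω', (∀ i, O.ob (s i) ω = O.ob (s i) ω') → G ω = G ω'

/-- Pointwise determined families of values. -/
def PW (D : PreDom α β) (O : Obs Ω β) (v : Ω → D.V) : Prop :=
  ∀ t, D.SmL t → Det O (fun ω => D.eval (v ω) t)

/-- Uniformly determined families of small values. -/
def UN (D : PreDom α β) (O : Obs Ω β) (v : Ω → D.V) : Prop :=
  Det O v ∧ ∀ ω, D.Sm (v ω)

/-- A list of labelled families evaluated at an index. -/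
def atw {V : Type (u + 1)} (l : List (α × (Ω → V))) (ω : Ω) : List (α × V) :=
  l.map (fun p => (p.1, p.2 ω))

@[simp] theorem atw_nil {V : Type (u + 1)} (ω : Ω) : atw ([] : List (α × (Ω → V))) ω = [] := rfl
@[simp] theorem atw_cons {V : Type (u + 1)} (p : α × (Ω → V)) (l : List (α × (Ω → V))) (ω : Ω) :
    atw (p :: l) ω = (p.1, p.2 ω) :: atw l ω := rfl
@[simp] theorem map_fst_atw {V : Type (u + 1)} (l : List (α × (Ω → V))) (ω : Ω) :
    (atw l ω).map Prod.fst = l.map Prod.fst := by
  simp [atw, List.map_map, Function.comp_def]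

/-- Observations on `Ω × (ℕ → V)`: those of `Ω`, and evaluation of a coordinate at a small
test. -/
def Obs.prod (D : PreDom α β) (O : Obs Ω β) : Obs (Ω × (ℕ → D.V)) β where
  J := O.J ⊕ (ℕ × {t : List (α × D.V) // D.SmL t})
  ob := fun j x => match j with
    | Sum.inl j => O.ob j x.1
    | Sum.inr (n, t) => D.eval (x.2 n) t.1

/-- The trivial family of observations on a one-point index. -/
def Obs.unit (β : Type u) : Obs PUnit.{u + 2} β where
  J := PEmpty
  ob := fun j _ => j.elim

variable {D : PreDom α β} {O : Obs Ω β}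

theorem det_const {Z : Sort w} (z : Z) : Det O (fun _ => z) :=
  ⟨PEmpty.{u + 1}, PEmpty.elim, fun _ _ _ => rfl⟩
theorem det_unit {Z : Sort w} (G : PUnit.{u + 2} → Z) : Det (Obs.unit β) G :=
  ⟨PEmpty.{u + 1}, PEmpty.elim, fun _ _ _ => rfl⟩
theorem Det.comp {Z Z' : Sort*} {G : Ω → Z} (h : Det O G) (f : Z → Z') :
    Det O (fun ω => f (G ω)) := by
  obtain ⟨ι, s, hs⟩ := h
  exact ⟨ι, s, fun ω ω' e => congrArg f (hs ω ω' e)⟩
theorem Det.congr {Z : Sort w} {G G' : Ω → Z} (h : Det O G) (e : ∀ ω, G ω = G' ω) :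
    Det O G' := by
  obtain ⟨ι, s, hs⟩ := h
  exact ⟨ι, s, fun ω ω' e' => (e ω).symm.trans ((hs ω ω' e').trans (e ω'))⟩
/-- A function that factors through a small family of determined functions is determined. -/
theorem det_of_family {ι : Type u} {Z : ι → Sort*} {G : ∀ i, Ω → Z i} (h : ∀ i, Det O (G i))
    {Z' : Sort w} {H : Ω → Z'} (hH : ∀ ω ω', (∀ i, G i ω = G i ω') → H ω = H ω') :
    Det O H := by
  choose ι' s hs using h
  exact ⟨Σ i, ι' i, fun p => s p.1 p.2,
    fun ω ω' e => hH ω ω' fun i => hs i ω ω' fun j => e ⟨i, j⟩⟩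
theorem det_of_two {Z₁ Z₂ : Sort*} {G₁ : Ω → Z₁} {G₂ : Ω → Z₂} (h₁ : Det O G₁) (h₂ : Det O G₂)
    {Z' : Sort w} {H : Ω → Z'} (hH : ∀ ω ω', G₁ ω = G₁ ω' → G₂ ω = G₂ ω' → H ω = H ω') :
    Det O H := by
  obtain ⟨ι₁, s₁, hs₁⟩ := h₁
  obtain ⟨ι₂, s₂, hs₂⟩ := h₂
  exact ⟨ι₁ ⊕ ι₂, Sum.elim s₁ s₂, fun ω ω' e =>
    hH ω ω' (hs₁ ω ω' fun i => e (Sum.inl i)) (hs₂ ω ω' fun i => e (Sum.inr i))⟩
/-- A determined function has small range. -/
theorem Det.small_range {Z : Sort w} {G : Ω → Z} (h : Det O G) :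
    ∃ (κ : Type u) (r : κ → Ω), ∀ ω, ∃ k, G ω = G (r k) := by
  obtain ⟨ι, s, hs⟩ := h
  refine ⟨{π : ι → β // ∃ ω, (fun i => O.ob (s i) ω) = π}, fun π => π.2.choose, fun ω => ?_⟩
  have hω : ∃ ω', (fun i => O.ob (s i) ω') = fun i => O.ob (s i) ω := ⟨ω, rfl⟩
  exact ⟨⟨_, hω⟩, hs _ _ fun i => (congrFun hω.choose_spec i).symm⟩
theorem Det.fst {Z : Sort w} {G : Ω → Z} (h : Det O G) :
    Det (O.prod D) (fun x => G x.1) := by
  obtain ⟨ι, s, hs⟩ := h
  exact ⟨ι, fun i => Sum.inl (s i), fun x x' e => hs x.1 x'.1 e⟩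
/-- Splitting a determined function on the product. -/
theorem Det.prod_split {Z : Sort w} {G : Ω × (ℕ → D.V) → Z} (h : Det (O.prod D) G) :
    ∃ (ι : Type u) (s : ι → O.J) (κ : Type u) (T : κ → List (α × D.V)), (∀ k, D.SmL (T k)) ∧
      ∀ ω ω' f f', (∀ i, O.ob (s i) ω = O.ob (s i) ω') → (∀ n, D.Ag T (f n) (f' n)) →
        G (ω, f) = G (ω', f') := by
  obtain ⟨ι, s, hs⟩ := h
  refine ⟨{i : ι // ∃ j, s i = Sum.inl j}, fun i => i.2.choose,
    {i : ι // ∃ q, s i = Sum.inr q}, fun i => i.2.choose.2.1, fun i => i.2.choose.2.2,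
    fun ω ω' f f' e₁ e₂ => hs _ _ fun i => ?_⟩
  rcases hi : s i with j | q
  · have hj : ∃ j, s i = Sum.inl j := ⟨j, hi⟩
    have e : hj.choose = j := Sum.inl_injective (hj.choose_spec.symm.trans hi)
    have := e₁ ⟨i, hj⟩
    simp only [e] at this
    exact this
  · have hq : ∃ q, s i = Sum.inr q := ⟨q, hi⟩
    have e : hq.choose = q := Sum.inr_injective (hq.choose_spec.symm.trans hi)
    have := e₂ q.1 ⟨i, hq⟩
    simp only [e] at this
    exact this
/-- Fixing the second coordinate, uniformly. -/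
theorem Det.forall_snd {Z : Sort w} {G : Ω × (ℕ → D.V) → Z} (h : Det (O.prod D) G) :
    Det O (fun ω => fun f : ℕ → D.V => G (ω, f)) := by
  obtain ⟨ι, s, κ, T, -, hG⟩ := h.prod_split
  exact ⟨ι, s, fun ω ω' e => funext fun f => hG ω ω' f f e fun _ _ => rfl⟩

theorem pw_const (v : D.V) : PW D O (fun _ => v) := fun _ _ => det_const _
theorem un_const {v : D.V} (h : D.Sm v) : UN D O (fun _ => v) := ⟨det_const _, fun _ => h⟩
theorem pw_snd (n : ℕ) : PW D (O.prod D) (fun x => x.2 n) := fun t ht =>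
  ⟨PUnit.{u + 1}, fun _ => Sum.inr (n, ⟨t, ht⟩), fun _ _ e => e PUnit.unit⟩
theorem PW.fst {v : Ω → D.V} (h : PW D O v) : PW D (O.prod D) (fun x => v x.1) :=
  fun t ht => (h t ht).fst
theorem UN.fst {v : Ω → D.V} (h : UN D O v) : UN D (O.prod D) (fun x => v x.1) :=
  ⟨h.1.fst, fun x => h.2 x.1⟩
theorem UN.pw {v : Ω → D.V} (h : UN D O v) : PW D O v :=
  fun t _ => h.1.comp fun x => D.eval x t

theorem det_tests {ι : Type u} {T : ι → List (α × D.V)} (hT : ∀ i, D.SmL (T i))
    {l : List (α × (Ω → D.V))} (hl : ∀ p ∈ l, PW D O p.2) :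
    Det O (fun ω => l.map (fun p => fun i => D.eval (p.2 ω) (T i))) := by
  induction l with
  | nil => exact det_const _
  | cons p l ih =>
    have h₁ : Det O (fun ω => fun i => D.eval (p.2 ω) (T i)) :=
      det_of_family (fun i => hl p List.mem_cons_self (T i) (hT i)) fun _ _ e => funext e
    refine det_of_two h₁ (ih fun q hq => hl q (List.mem_cons_of_mem _ hq)) fun ω ω' e₁ e₂ => ?_
    simp only [List.map_cons]
    rw [e₁, e₂]

theorem agL_atw_of_eq {ι : Type u} {T : ι → List (α × D.V)} {l : List (α × (Ω → D.V))}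
    {ω ω' : Ω} (h : l.map (fun p => fun i => D.eval (p.2 ω) (T i)) =
      l.map (fun p => fun i => D.eval (p.2 ω') (T i))) : D.AgL T (atw l ω) (atw l ω') := by
  induction l with
  | nil => exact List.Forall₂.nil
  | cons p l ih =>
    simp only [List.map_cons, List.cons.injEq] at h
    exact List.Forall₂.cons ⟨rfl, fun i => congrFun h.1 i⟩ (ih h.2)

theorem det_atw {l : List (α × (Ω → D.V))} (hl : ∀ p ∈ l, Det O p.2) : Det O (atw l) := by
  induction l with
  | nil => exact det_const _
  | cons p l ih =>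
    refine det_of_two (hl p List.mem_cons_self) (ih fun q hq => hl q (List.mem_cons_of_mem _ hq))
      fun ω ω' e₁ e₂ => ?_
    rw [atw_cons, atw_cons, e₁, e₂]

theorem smL_atw {l : List (α × (Ω → D.V))} (hl : ∀ p ∈ l, ∀ ω, D.Sm (p.2 ω)) (ω : Ω) :
    D.SmL (atw l ω) := by
  intro q hq
  obtain ⟨p, hp, rfl⟩ := List.mem_map.1 hq
  exact hl p hp ω

/-- A uniform small function applied to pointwise arguments. -/
theorem det_eval_un (hD : IsDom D) {v : Ω → D.V} (hv : UN D O v) {l : List (α × (Ω → D.V))}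
    (hl : ∀ p ∈ l, PW D O p.2) : Det O (fun ω => D.eval (v ω) (atw l ω)) := by
  obtain ⟨κ, r, hr⟩ := hv.1.small_range
  choose ι T hT hss using fun k => hD.ss_eval (v (r k)) (hv.2 _)
  have h₂ : Det O (fun ω => fun k => l.map (fun p => fun i => D.eval (p.2 ω) (T k i))) :=
    det_of_family (fun k => det_tests (hT k) hl) fun _ _ e => funext e
  refine det_of_two hv.1 h₂ fun ω ω' e₁ e₂ => ?_
  obtain ⟨k, hk⟩ := hr ω
  rw [← e₁, hk]
  exact hss k _ _ (agL_atw_of_eq (congrFun e₂ k))
/-- A pointwise function applied to uniform small arguments. -/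
theorem det_eval_pw {v : Ω → D.V} (hv : PW D O v) {l : List (α × (Ω → D.V))}
    (hl : ∀ p ∈ l, UN D O p.2) : Det O (fun ω => D.eval (v ω) (atw l ω)) := by
  have h₁ : Det O (atw l) := det_atw fun p hp => (hl p hp).1
  obtain ⟨κ, r, hr⟩ := h₁.small_range
  have h₂ : Det O (fun ω => fun k => D.eval (v ω) (atw l (r k))) :=
    det_of_family (fun k => hv _ (smL_atw (fun p hp => (hl p hp).2) (r k))) fun _ _ e => funext e
  refine det_of_two h₁ h₂ fun ω ω' e₁ e₂ => ?_
  obtain ⟨k, hk⟩ := hr ω
  rw [← e₁, hk]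
  exact congrFun e₂ k

/-- The argument list with labels `l` whose `j`-th value is coordinate `k + j`. -/
def zipw (D : PreDom α β) (Ω : Type (u + 1)) :
    ℕ → List α → List (α × (Ω × (ℕ → D.V) → D.V))
  | _, [] => []
  | k, a :: l => (a, fun x => x.2 k) :: zipw D Ω (k + 1) l

theorem zipw_anchor : type_of% @zipw.eq_def := @zipw.eq_def

@[simp] theorem map_fst_zipw (k : ℕ) (l : List α) : (zipw D Ω k l).map Prod.fst = l := by
  induction l generalizing k with
  | nil => rfl
  | cons a l ih => exact congrArg (List.cons a) (ih (k + 1))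

/-- The values of an argument list, as a sequence. -/
def vals [Inhabited D.V] (args : List (α × D.V)) (n : ℕ) : D.V :=
  (args.map Prod.snd).getD n default

theorem atw_zipw_vals [Inhabited D.V] (ω : Ω) (f : ℕ → D.V) (args : List (α × D.V)) (k : ℕ)
    (h : ∀ j, f (k + j) = vals args j) : atw (zipw D Ω k (args.map Prod.fst)) (ω, f) = args := by
  induction args generalizing k with
  | nil => rfl
  | cons p args ih =>
    have h0 : f k = p.2 := h 0
    have h1 := ih (k + 1) fun j => by
      rw [Nat.add_assoc, Nat.add_comm 1 j]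
      exact h (j + 1)
    change (p.1, f k) :: atw (zipw D Ω (k + 1) (args.map Prod.fst)) (ω, f) = p :: args
    rw [h0, h1]

theorem ag_vals [Inhabited D.V] {ι : Type u} {T : ι → List (α × D.V)}
    {args args' : List (α × D.V)} (h : D.AgL T args args') :
    args.map Prod.fst = args'.map Prod.fst ∧ ∀ n, D.Ag T (vals args n) (vals args' n) := by
  induction h with
  | nil => exact ⟨rfl, fun _ _ => rfl⟩
  | cons h _ ih =>
    refine ⟨by rw [List.map_cons, List.map_cons, h.1, ih.1], fun n => ?_⟩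
    cases n with
    | zero => exact h.2
    | succ n => exact ih.2 n

/-- If for every list of labels the functional is determined jointly in the index and in the
values of the arguments, then each member of the family has small support and the family is
determined. -/
theorem ss_of_det_zipw [Inhabited D.V] {φ : Ω → List (α × D.V) → β}
    (h : ∀ l : List α, Det (O.prod D) (fun x => φ x.1 (atw (zipw D Ω 0 l) x))) :
    (∀ ω, D.SS (φ ω)) ∧ Det O φ := by
  choose ι s κ T hT hG using fun l => (h l).prod_split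
  have key : ∀ (ω : Ω) (args : List (α × D.V)),
      atw (zipw D Ω 0 (args.map Prod.fst)) (ω, vals args) = args :=
    fun ω args => atw_zipw_vals ω _ args 0 fun j => by rw [Nat.zero_add]
  constructor
  · intro ω
    refine ⟨Σ l, κ l, fun p => T p.1 p.2, fun p => hT p.1 p.2, fun args args' hag => ?_⟩
    obtain ⟨e₁, e₂⟩ := ag_vals hag
    have := hG (args.map Prod.fst) ω ω (vals args) (vals args') (fun _ => rfl)
      fun n k => e₂ n ⟨_, k⟩
    rw [key ω args, e₁, key ω args'] at this
    exact this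
  · refine ⟨Σ l, ι l, fun p => s p.1 p.2, fun ω ω' e => funext fun args => ?_⟩
    have := hG (args.map Prod.fst) ω ω' (vals args) (vals args) (fun i => e ⟨_, i⟩)
      fun _ _ => rfl
    rw [key ω args, key ω' args] at this
    exact this

end Crest.Agent.R298
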