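import Mathlib

/-! Row 298: a reflexive domain in `Set`. Values are functions of lists of (label, value) pairs;
beta holds when the arguments are small or when the function has small support. -/

set_option autoImplicit false

namespace Crest.Agent.R298

universe u

/-- The data of the domain: `α` = labels (syntactic arguments), `β` = results. -/
structure PreDom (α β : Type u) : Type (u + 2) where
  /-- values -/
  V : Type (u + 1)
  /-- small values -/
  Sm : V → Prop
  /-- application to a list of labelled values -/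
  eval : V → List (α × V) → β
  /-- abstraction -/
  lam : (List (α × V) → β) → V

namespace PreDom
variable {α β : Type u} (D : PreDom α β)

/-- All values in the list are small. -/
def SmL (l : List (α × D.V)) : Prop := ∀ p ∈ l, D.Sm p.2

/-- Two values agree on the family of tests `T`. -/
def Ag {ι : Type u} (T : ι → List (α × D.V)) (v w : D.V) : Prop :=
  ∀ i, D.eval v (T i) = D.eval w (T i)

/-- Two argument lists have the same labels and their values agree on the tests `T`. -/
def AgL {ι : Type u} (T : ι → List (α × D.V)) (l l' : List (α × D.V)) : Prop :=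
  List.Forall₂ (fun p q => p.1 = q.1 ∧ D.Ag T p.2 q.2) l l'

/-- Functionals with small support. -/
def SS (φ : List (α × D.V) → β) : Prop :=
  ∃ (ι : Type u) (T : ι → List (α × D.V)), (∀ i, D.SmL (T i)) ∧
    ∀ l l', D.AgL T l l' → φ l = φ l'

end PreDom

/-- The laws of the domain. -/
structure IsDom {α β : Type u} (D : PreDom α β) : Prop where
  beta_sm : ∀ φ l, D.SmL l → D.eval (D.lam φ) l = φ l
  lam_ext : ∀ φ ψ, (∀ l, D.SmL l → φ l = ψ l) → D.lam φ = D.lam ψ
  sm_lam : ∀ φ, D.SS φ → D.Sm (D.lam φ)
  beta_ss : ∀ φ, D.SS φ → ∀ l, D.eval (D.lam φ) l = φ l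
  ss_eval : ∀ v, D.Sm v → D.SS (D.eval v)

namespace Dom

/-- Codes of small values: a family of sub-codes used in tests, and a decision functional. -/
inductive Key (α β : Type u) : Type (u + 1)
  | mk (ι : Type u) (sub : ι → Key α β) (F : List (α × (List (α × ι) → β)) → β) : Key α β

variable {α β : Type u}

/-- Apply a map to the second components. -/
def mp {X Y : Type*} (f : X → Y) (l : List (α × X)) : List (α × Y) := l.map (Prod.map id f)

lemma mp_mp {X Y Z : Type*} (g : Y → Z) (f : X → Y) (l : List (α × X)) :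
    mp g (mp f l) = mp (fun x => g (f x)) l := by
  simp [mp, List.map_map, Function.comp_def, Prod.map]

lemma mp_id {X : Type*} (l : List (α × X)) : mp (fun x => x) l = l := by
  induction l with
  | nil => rfl
  | cons p l ih => simp only [mp, List.map_cons] at ih ⊢; rw [ih]; rfl

lemma mp_eq_iff {X X' Y : Type*} (f : X → Y) (f' : X' → Y) (l : List (α × X))
    (l' : List (α × X')) :
    mp f l = mp f' l' ↔ List.Forall₂ (fun p q => p.1 = q.1 ∧ f p.2 = f' q.2) l l' := by
  unfold mp
  rw [← List.forall₂_eq_eq_eq, List.forall₂_map_left_iff, List.forall₂_map_right_iff]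
  simp [Prod.ext_iff]

lemma mp_congr_of {X X' Y Y' : Type*} {f : X → Y} {f' : X' → Y} {g : X → Y'} {g' : X' → Y'}
    {l : List (α × X)} {l' : List (α × X')} (h : mp f l = mp f' l')
    (hg : ∀ x x', f x = f' x' → g x = g' x') : mp g l = mp g' l' := by
  rw [mp_eq_iff] at h ⊢
  exact h.imp fun _ _ hpq => ⟨hpq.1, hg _ _ hpq.2⟩

namespace Key

/-- Index type of a key. -/
def ι : Key α β → Type u
  | mk i _ _ => i

/-- Sub-keys. -/
def sub : (k : Key α β) → k.ι → Key α β
  | mk _ s _ => s

/-- Decision functional. -/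
def F : (k : Key α β) → List (α × (List (α × k.ι) → β)) → β
  | mk _ _ f => f

end Key

/-- Functions of addresses. -/
abbrev Big (α β : Type u) : Type (u + 1) := List (α × Key α β) → β

/-- The functional coded by a key. -/
def ap (k : Key α β) (args : List (α × Big α β)) : β :=
  k.F (mp (fun b test => b (mp k.sub test)) args)

/-- The well-founded relation for the alternating recursion. -/
def Rel (q p : Key α β × Key α β) : Prop := q.1 = p.2 ∧ ∃ i, q.2 = p.1.sub i

lemma rel_wf : WellFounded (Rel (α := α) (β := β)) := by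
  refine ⟨fun ⟨k, k'⟩ => ?_⟩
  induction k generalizing k' with
  | mk i s f ih =>
    refine ⟨_, fun ⟨a, b⟩ h => ?_⟩
    obtain ⟨-, j, hj⟩ := h
    refine ⟨_, fun ⟨c, d⟩ h' => ?_⟩
    have h1 : c = s j := h'.1.trans hj
    rw [h1]
    exact ih j d

/-- `G (k, k') test` is the value of `k'` on a list of sub-keys of `k`. -/
noncomputable def G : (p : Key α β × Key α β) → List (α × p.1.ι) → β :=
  rel_wf.fix (C := fun p => List (α × p.1.ι) → β) fun p rec test =>
    p.2.F (mp (fun i test' => rec (p.2, p.1.sub i) ⟨rfl, i, rfl⟩ test') test)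

lemma G_eq (k k' : Key α β) (test : List (α × k.ι)) :
    G (k, k') test = k'.F (mp (fun i test' => G (k', k.sub i) test') test) := by
  unfold G
  rw [WellFounded.fix_eq]

/-- Decoding of keys. -/
noncomputable def dec (k : Key α β) : Big α β :=
  fun addr => k.F (mp (fun k' test => G (k, k') test) addr)

lemma G_dec (k k' : Key α β) (test : List (α × k.ι)) :
    G (k, k') test = dec k' (mp k.sub test) := by
  rw [G_eq, dec, mp_mp]

lemma dec_eq (k : Key α β) (addr : List (α × Key α β)) : dec k addr = ap k (mp dec addr) := by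
  rw [ap, mp_mp, dec]
  simp only [G_dec]

lemma key_of [Inhabited β] {ι : Type u} (A : ι → List (α × Key α β)) {X : Type*}
    (g : X → List (α × Big α β)) (φ : X → β)
    (h : ∀ x x', mp (fun b i => b (A i)) (g x) = mp (fun b i => b (A i)) (g x') → φ x = φ x') :
    ∃ k, ∀ x, ap k (g x) = φ x := by
  classical
  let ι' : Type u := Σ t : ι, Fin (A t).length
  let s : ι' → Key α β := fun p => ((A p.1).get p.2).2
  let o : X → List (α × (List (α × ι') → β)) := fun x => mp (fun b test => b (mp s test)) (g x)
  have ht : ∀ t, mp s (List.ofFn fun j : Fin (A t).length => (((A t).get j).1, (⟨t, j⟩ : ι'))) =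
      A t := by
    intro t
    rw [mp, List.map_ofFn]
    exact List.ofFn_get (A t)
  refine ⟨Key.mk ι' s fun l => if hl : ∃ x, o x = l then φ hl.choose else default, fun x => ?_⟩
  have hx : ∃ x', o x' = o x := ⟨x, rfl⟩
  change (if hl : ∃ x', o x' = o x then φ hl.choose else default) = φ x
  rw [dif_pos hx]
  refine h _ _ (mp_congr_of hx.choose_spec fun b b' hb => ?_)
  funext t
  have := congrFun hb (List.ofFn fun j : Fin (A t).length => (((A t).get j).1, (⟨t, j⟩ : ι')))
  simpa only [ht] using this

/-- Decoded keys. -/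
def Sm0 (α β : Type u) : Type (u + 1) := {b : Big α β // ∃ k, dec k = b}

/-- The class of a key. -/
noncomputable def cls (k : Key α β) : Sm0 α β := ⟨dec k, k, rfl⟩

/-- A chosen key. -/
noncomputable def rep (s : Sm0 α β) : Key α β := s.2.choose

lemma dec_rep (s : Sm0 α β) : dec (rep s) = s.1 := s.2.choose_spec

lemma cls_rep (s : Sm0 α β) : cls (rep s) = s := Subtype.ext (dec_rep s)

/-- Values. -/
abbrev Val (α β : Type u) : Type (u + 1) := List (α × Sm0 α β) → β

/-- Small values. -/
noncomputable def emb (s : Sm0 α β) : Val α β := fun l => s.1 (mp rep l)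

/-- A value as a function of addresses. -/
noncomputable def toBig (v : Val α β) : Big α β := fun addr => v (mp cls addr)

lemma toBig_emb (s : Sm0 α β) : toBig (emb s) = s.1 := by
  funext addr
  rw [toBig, emb, ← dec_rep s, dec_eq, dec_eq, mp_mp, mp_mp]
  simp only [dec_rep]
  rfl

lemma emb_inj {s s' : Sm0 α β} (h : emb s = emb s') : s = s' :=
  Subtype.ext (by rw [← toBig_emb, h, toBig_emb])

lemma mp_emb_inj {l l' : List (α × Sm0 α β)} (h : mp emb l = mp emb l') : l = l' := by
  have := mp_congr_of (g := fun x => x) (g' := fun x => x) h fun _ _ => emb_inj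
  rwa [mp_id, mp_id] at this

/-- Density of decoded keys. -/
lemma dense [Inhabited β] {ι : Type u} (s : ι → Key α β) (w : Val α β) :
    ∃ c, ∀ test : List (α × ι), dec c (mp s test) = toBig w (mp s test) := by
  classical
  have hA : ∀ p : ι × ι, ∃ a, dec (s p.1) a = dec (s p.2) a → dec (s p.1) = dec (s p.2) := by
    intro p
    by_cases h : dec (s p.1) = dec (s p.2)
    · exact ⟨[], fun _ => h⟩
    · obtain ⟨a, ha⟩ := Function.ne_iff.mp h
      exact ⟨a, fun h' => absurd h' ha⟩
  choose A hA using hA
  obtain ⟨c, hc⟩ := key_of A (fun test : List (α × ι) => mp dec (mp s test))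
    (fun test => toBig w (mp s test)) (fun x x' h => by
      simp only [mp_mp] at h
      simp only [toBig, mp_mp]
      congr 1
      exact mp_congr_of h fun i i' hi => Subtype.ext (hA (i, i') (congrFun hi (i, i'))))
  exact ⟨c, fun test => by rw [dec_eq, hc]⟩

lemma ap_congr [Inhabited β] {k k' : Key α β} (h : dec k = dec k') (args : List (α × Val α β)) :
    ap k (mp toBig args) = ap k' (mp toBig args) := by
  choose c hc using fun w : Val α β => dense (Sum.elim k.sub k'.sub) w
  have h1 : ap k (mp toBig args) = dec k (mp c args) := by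
    rw [dec_eq, ap, ap, mp_mp, mp_mp, mp_mp]
    congr 2
    funext w test
    have := hc w (mp Sum.inl test)
    simpa only [mp_mp, Sum.elim_inl] using this.symm
  have h2 : ap k' (mp toBig args) = dec k' (mp c args) := by
    rw [dec_eq, ap, ap, mp_mp, mp_mp, mp_mp]
    congr 2
    funext w test
    have := hc w (mp Sum.inr test)
    simpa only [mp_mp, Sum.elim_inr] using this.symm
  rw [h1, h2, h]

open Classical in
/-- Evaluation. -/
noncomputable def ev [Inhabited β] (v : Val α β) (args : List (α × Val α β)) : β :=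
  if h : ∃ l, mp emb l = args then v h.choose
  else if h' : ∃ s, emb s = v then ap (rep h'.choose) (mp toBig args) else default

lemma ev_sm [Inhabited β] (v : Val α β) (l : List (α × Sm0 α β)) : ev v (mp emb l) = v l := by
  have h : ∃ l', mp emb l' = mp emb l := ⟨l, rfl⟩
  rw [ev, dif_pos h, mp_emb_inj h.choose_spec]

lemma ev_emb [Inhabited β] (s : Sm0 α β) (args : List (α × Val α β)) :
    ev (emb s) args = ap (rep s) (mp toBig args) := by
  by_cases h : ∃ l, mp emb l = args
  · obtain ⟨l, rfl⟩ := h
    rw [ev_sm, emb, ← dec_rep s, dec_eq, mp_mp, mp_mp]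
    simp only [dec_rep, toBig_emb]
  · have h' : ∃ s', emb s' = emb s := ⟨s, rfl⟩
    rw [ev, dif_neg h, dif_pos h', emb_inj h'.choose_spec]

/-- The domain. -/
noncomputable def dom (α β : Type u) [Inhabited β] : PreDom α β where
  V := Val α β
  Sm v := ∃ s, emb s = v
  eval := ev
  lam φ := fun l => φ (mp emb l)

lemma smL_iff [Inhabited β] (args : List (α × Val α β)) :
    (dom α β).SmL args ↔ ∃ l, mp emb l = args := by
  constructor
  · intro h
    induction args with
    | nil => exact ⟨[], rfl⟩
    | cons p args ih =>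
      obtain ⟨l, rfl⟩ := ih fun q hq => h q (List.mem_cons_of_mem _ hq)
      obtain ⟨s, hs⟩ := h p List.mem_cons_self
      refine ⟨(p.1, s) :: l, ?_⟩
      simp only [mp, List.map_cons, Prod.map, id, hs]
  · rintro ⟨l, rfl⟩ p hp
    obtain ⟨q, -, rfl⟩ := List.mem_map.mp hp
    exact ⟨q.2, rfl⟩

lemma agL_iff [Inhabited β] {ι : Type u} (T : ι → List (α × Val α β))
    (l l' : List (α × Val α β)) :
    (dom α β).AgL T l l' ↔ mp (fun w i => ev w (T i)) l = mp (fun w i => ev w (T i)) l' := by
  rw [mp_eq_iff]
  simp only [funext_iff]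
  rfl

lemma key_of_ss [Inhabited β] (φ : List (α × Val α β) → β) (h : (dom α β).SS φ) :
    ∃ k, (∀ args, ap k (mp toBig args) = φ args) ∧ (dom α β).lam φ = emb (cls k) := by
  obtain ⟨ι, T, hT, hφ⟩ := h
  choose L hL using fun i => (smL_iff _).mp (hT i)
  obtain ⟨k, hk⟩ := key_of (fun i => mp rep (L i)) (fun args : List (α × Val α β) => mp toBig args)
    φ (fun x x' h => by
      refine hφ _ _ ((agL_iff _ _ _).mpr ?_)
      simp only [mp_mp, toBig, cls_rep, mp_id] at h
      simpa only [← hL, ev_sm] using h)
  refine ⟨k, hk, ?_⟩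
  funext l
  change φ (mp emb l) = dec k (mp rep l)
  rw [dec_eq, ← hk, mp_mp, mp_mp]
  simp only [dec_rep, toBig_emb]

lemma ev_emb_congr [Inhabited β] (s : Sm0 α β) (l l' : List (α × Val α β))
    (h : mp (fun w (t : List (α × (rep s).ι)) => ev w (mp emb (mp cls (mp (rep s).sub t)))) l =
      mp (fun w (t : List (α × (rep s).ι)) => ev w (mp emb (mp cls (mp (rep s).sub t)))) l') :
    ev (emb s) l = ev (emb s) l' := by
  rw [ev_emb, ev_emb, ap, ap, mp_mp, mp_mp]
  simp only [ev_sm] at h
  exact congrArg _ h

end Dom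

open Dom in
theorem exists_dom (α β : Type u) [Inhabited β] : ∃ D : PreDom α β, IsDom D := by
  refine ⟨dom α β, ?_, ?_, ?_, ?_, ?_⟩
  · intro φ args h
    obtain ⟨l, rfl⟩ := (smL_iff _).mp h
    exact ev_sm _ _
  · intro φ ψ h
    funext l
    exact h _ ((smL_iff _).mpr ⟨l, rfl⟩)
  · intro φ h
    obtain ⟨k, -, hk⟩ := key_of_ss φ h
    exact ⟨_, hk.symm⟩
  · intro φ h args
    obtain ⟨k, hk1, hk2⟩ := key_of_ss φ h
    rw [hk2, ← hk1]
    exact (ev_emb _ _).trans (ap_congr (dec_rep _) _)
  · rintro v ⟨s, rfl⟩
    refine ⟨List (α × (rep s).ι), fun t => mp emb (mp cls (mp (rep s).sub t)),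
      fun t => (smL_iff _).mpr ⟨_, rfl⟩, fun l l' h => ?_⟩
    exact ev_emb_congr s l l' ((agL_iff _ _ _).mp h)

end Crest.Agent.R298
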