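import Crest.Agent.R298.CL

/-! Row 298: the model when the obstruction is absent. -/

set_option autoImplicit false

namespace Crest.Agent.R298
open Crest.LogicCS.PTS Crest.LogicCS.PTS.Term

universe u
variable {S : Type u} {P : Spec S}

theorem modelD_inv_cons {U : Univ P} {s0 : S} (Z : Sem U s0) {τ : ℕ → Term S} {ρ : ℕ → Z.D.V}
    (h : Z.InvD τ ρ) {A : Term S} {w : Z.D.V}
    (hw : Z.Dummy w ∨ (Nd U s0 A ∧ (ParT U s0 true A → Z.D.Sm w))) :
    Z.InvD (scons A τ) (scons w ρ) := by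
  intro x
  cases x with
  | zero => exact hw
  | succ x => exact h x

theorem exists_modelD (U : Univ P) (s0 : S) (hD : ∀ t, InD P s0 t → App U t)
    (hc : ¬ Config P s0) : Nonempty (Model.{u, u + 1} U s0) := by
  obtain ⟨Z⟩ := exists_sem U s0
  obtain ⟨v, hv, -⟩ := Z.exists_dummy
  have hU := good_univ U
  refine ⟨{ X := Z.D.V
            Red := fun Γ T σ ρ => Z.red T σ (tau Γ σ) ρ
            Inv := fun Γ σ ρ => Z.InvD (tau Γ σ) ρ
            init := ⟨fun _ => v, fun _ => Or.inl hv⟩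
            cand := fun _ _ _ _ _ => isCand_fixc _ _
            red_sort := fun Γ σ ρ s => Z.red_sort s σ _ ρ
            weak := ?_
            dflt := ?_
            intro := ?_
            elim := ?_ }⟩
  · intro Γ σ ρ T s A sA a w _ _ _ _
    rw [tau_ext, Sem.red, Sem.red, Z.val_wk, sub_scons_wk]
  · intro Γ σ ρ A s a _ _ hI _ _
    refine ⟨v, ?_⟩
    rw [tau_ext]
    exact modelD_inv_cons Z hI (Or.inl hv)
  · intro Γ σ ρ A B s f hΓ hσ hI hn h hs hf H
    obtain ⟨s₁, s₂, hr, hA, hB⟩ := h.gen_pi_sort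
    rw [Z.red_pi hΓ hσ h, Z.val_pi]
    refine ⟨hf, fun a ha w => ?_⟩
    have hσ' : SubTy P U.Θ (scons a σ) (ext Γ A) :=
      hσ.cons ((hU.ty_nf_iff (hA.sub_sort hσ)).1 ((isCand_fixc _ _).sub ha).1)
    rcases (hs.rule hr).2.cases with h₂ | h₂
    · have h₃ : InC P s0 s := hs.inC_of_reach (Reach.edge (Edge.res hr)) h₂
      have he : ParT U s0 false (nf (sub σ A)) :=
        ⟨s₁, InI.par ⟨s₂, s, hr, h₂, h₃⟩, hU.ty_nf (hA.sub_sort hσ)⟩
      have h1 := H a ha (Z.N (nf (sub σ A)) w) (by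
        rw [tau_ext]
        exact modelD_inv_cons Z hI (Or.inr ⟨Or.inl he, fun ho =>
          Z.N_sm_of_ac (ac_of_both hc (nf_normal' _) he ho) w⟩))
      rwa [tau_ext] at h1
    · have h1 := H a ha v (by
        rw [tau_ext]
        exact modelD_inv_cons Z hI (Or.inl hv))
      rw [Z.red_of_inD hD (hΓ.ext hA) hσ' (normal_pi_iff.1 hn).2 hB h₂] at h1
      rw [← tau_ext Γ σ A a, Z.red_of_inD hD (hΓ.ext hA) hσ' (normal_pi_iff.1 hn).2 hB h₂]
      exact h1
  · intro Γ σ ρ A B s f N hΓ hσ hI hn h hs hf hN hN'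
    obtain ⟨s₁, s₂, hr, hA, hB⟩ := h.gen_pi_sort
    rw [Z.red_pi hΓ hσ h, Z.val_pi] at hf
    have h1 := hf.2 (sub σ N) hN' (Z.D.lam (Z.val (nf N) σ (tau Γ σ) ρ))
    have hT : Ty P Γ (inst N B) (sort s₂) := hB.inst hN
    have e : nf (sub σ (nf (inst N B))) = nf (sub (scons (sub σ N) σ) B) := by
      rw [nf_sub_nf σ (hΓ.wn hT), sub_inst]
    rcases (hs.rule hr).2.cases with h₂ | h₂
    · have h₃ : InC P s0 s := hs.inC_of_reach (Reach.edge (Edge.res hr)) h₂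
      have he : ParT U s0 false (nf (sub σ A)) :=
        ⟨s₁, InI.par ⟨s₂, s, hr, h₂, h₃⟩, hU.ty_nf (hA.sub_sort hσ)⟩
      rw [Sem.red, Z.val_subst hD hc hΓ hσ hI hA hB (normal_pi_iff.1 hn).2 h₂ he hN, e]
      exact h1
    · rw [← tau_ext Γ σ A (sub σ N), Z.red_of_inD hD (hΓ.ext hA) (hσ.cons (hN.sub hσ))
        (normal_pi_iff.1 hn).2 hB h₂] at h1
      rw [Z.red_of_inD hD hΓ hσ (nf_normal' _) (hΓ.ty_nf hT) h₂, e]
      exact h1

end Crest.Agent.R298
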