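import Crest.Agent.R298.Main

/-! Row 298: the model for a variance-consistent component. -/

set_option autoImplicit false

namespace Crest.Agent.R298
open Crest.LogicCS.PTS Crest.LogicCS.PTS.Term

universe u
variable {S : Type u} {P : Spec S}

namespace MV

/-! ### Shapes of normal types -/

/-- Iterated products over neutral terms and sorts. -/
inductive NT : Term S → Prop
  | neu {T : Term S} : Neu T → NT T
  | sort (s : S) : NT (sort s)
  | pi {A B : Term S} : NT A → NT B → NT (pi A B)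

theorem nt_of_ty {T : Term S} : ∀ {Γ : Ctx S} {s : S}, Ty P Γ T (sort s) → Normal T → NT T := by
  induction T with
  | var i => exact fun _ _ => NT.neu (Neu.var i)
  | sort t => exact fun _ _ => NT.sort t
  | app M N _ _ =>
    intro Γ s h hn
    rcases h.normal_type_cases hn with h1 | ⟨t, h1⟩ | ⟨A, B, h1⟩
    · exact NT.neu h1
    · cases h1
    · cases h1
  | lam A M _ _ => exact fun h _ => absurd h Ty.not_lam_sort
  | pi A B ihA ihB =>
    intro Γ s h hn
    obtain ⟨s₁, s₂, -, hA, hB⟩ := h.gen_pi_sort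
    exact NT.pi (ihA hA (normal_pi_iff.1 hn).1) (ihB hB (normal_pi_iff.1 hn).2)

theorem neu_sort_unique {Γ : Ctx S} {T : Term S} {s t : S} (hn : Neu T)
    (h : Ty P Γ T (sort s)) (h' : Ty P Γ T (sort t)) : s = t :=
  beq_sort_inj (Ty.neu_unique hn h h')

/-! ### Leaves -/

/-- `T` has a leaf of sort `t` and variance `e` whose head is the free variable `y`. -/
def Leaf (P : Spec S) : Term S → Ctx S → ℕ → S → Bool → Prop
  | pi A B, Γ, y, t, e => Leaf P A Γ y t (!e) ∨ Leaf P B (ext Γ A) (y + 1) t e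
  | var i, Γ, y, t, e => Ty P Γ (var i) (sort t) ∧ i = y ∧ e = false
  | app M N, Γ, y, t, e => Ty P Γ (app M N) (sort t) ∧ hd M = y ∧ e = false
  | sort _, _, _, _, _ => False
  | lam _ _, _, _, _, _ => False

/-- `T` has a leaf of sort `t` and variance `e`. -/
def Lf (P : Spec S) : Term S → Ctx S → S → Bool → Prop
  | pi A B, Γ, t, e => Lf P A Γ t (!e) ∨ Lf P B (ext Γ A) t e
  | var i, Γ, t, e => Ty P Γ (var i) (sort t) ∧ e = false
  | app M N, Γ, t, e => Ty P Γ (app M N) (sort t) ∧ e = false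
  | sort _, _, _, _ => False
  | lam _ _, _, _, _ => False

theorem leaf_pi {A B : Term S} {Γ : Ctx S} {y : ℕ} {t : S} {e : Bool} :
    Leaf P (pi A B) Γ y t e ↔ Leaf P A Γ y t (!e) ∨ Leaf P B (ext Γ A) (y + 1) t e := Iff.rfl

theorem leaf_neu {T : Term S} (h : Neu T) {Γ : Ctx S} {y : ℕ} {t : S} {e : Bool} :
    Leaf P T Γ y t e ↔ Ty P Γ T (sort t) ∧ hd T = y ∧ e = false := by
  cases h <;> exact Iff.rfl

theorem not_leaf_sort {s : S} {Γ : Ctx S} {y : ℕ} {t : S} {e : Bool} :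
    ¬ Leaf P (sort s) Γ y t e := fun h => h

theorem lf_pi {A B : Term S} {Γ : Ctx S} {t : S} {e : Bool} :
    Lf P (pi A B) Γ t e ↔ Lf P A Γ t (!e) ∨ Lf P B (ext Γ A) t e := Iff.rfl

theorem lf_neu {T : Term S} (h : Neu T) {Γ : Ctx S} {t : S} {e : Bool} :
    Lf P T Γ t e ↔ Ty P Γ T (sort t) ∧ e = false := by
  cases h <;> exact Iff.rfl

theorem not_lf_sort {s : S} {Γ : Ctx S} {t : S} {e : Bool} :
    ¬ Lf P (sort s) Γ t e := fun h => h

theorem Leaf.lf {T : Term S} : ∀ {Γ : Ctx S} {y : ℕ} {t : S} {e : Bool},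
    Leaf P T Γ y t e → Lf P T Γ t e := by
  induction T with
  | var i => exact fun h => ⟨h.1, h.2.2⟩
  | sort s => exact fun h => h
  | app M N _ _ => exact fun h => ⟨h.1, h.2.2⟩
  | lam A M _ _ => exact fun h => h
  | pi A B ihA ihB => exact fun h => (leaf_pi.1 h).imp ihA ihB

/-- A leaf gives a walk in the sort graph. -/
theorem lf_walk {T : Term S} (hT : NT T) : ∀ {Γ : Ctx S} {s t : S} {e : Bool},
    Ty P Γ T (sort s) → Lf P T Γ t e → Walk (Edge P) s e t := by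
  induction hT with
  | neu hn =>
    intro Γ s t e h hl
    obtain ⟨h1, rfl⟩ := (lf_neu hn).1 hl
    rw [neu_sort_unique hn h h1]
    exact Walk.nil t
  | sort r => exact fun _ hl => absurd hl not_lf_sort
  | pi _ _ ihA ihB =>
    intro Γ s t e h hl
    obtain ⟨s₁, s₂, hr, hA, hB⟩ := h.gen_pi_sort
    rcases lf_pi.1 hl with h1 | h1
    · have := Walk.cons (Edge.arg hr) (ihA hA h1)
      simpa using this
    · have := Walk.cons (Edge.res hr) (ihB hB h1)
      simpa using this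

/-- Variance consistency: all leaves of a sort of the component have the same variance. -/
theorem lf_unique {s0 : S} (hvc : VC P s0) {T : Term S} (hT : NT T) :
    ∀ {Γ : Ctx S} {s t : S} {e e' : Bool}, Ty P Γ T (sort s) → InL P s0 s → InC P s0 t →
      Lf P T Γ t e → Lf P T Γ t e' → e = e' := by
  induction hT with
  | neu hn =>
    intro Γ s t e e' _ _ _ hl hl'
    rw [((lf_neu hn).1 hl).2, ((lf_neu hn).1 hl').2]
  | sort r => exact fun _ _ _ hl => absurd hl not_lf_sort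
  | @pi A B hA' hB' ihA ihB =>
    intro Γ s t e e' h hs ht hl hl'
    obtain ⟨s₁, s₂, hr, hA, hB⟩ := h.gen_pi_sort
    have hC : InC P s0 s := hs.inC_of_reach ⟨e, lf_walk (NT.pi hA' hB') h hl⟩ ht
    have mixed : ∀ {b b' : Bool}, Lf P A Γ t (!b) → Lf P B (ext Γ A) t b' → b = b' := by
      intro b b' h1 h2
      by_contra hne
      have hb : b' = !b := by cases b <;> cases b' <;> simp_all
      subst hb
      exact hvc s₁ s₂ s t _ hr hC ht (lf_walk hA' hA h1) (lf_walk hB' hB h2)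
    rcases lf_pi.1 hl with h1 | h1 <;> rcases lf_pi.1 hl' with h2 | h2
    · exact Bool.not_inj (ihA hA (hs.rule hr).1 ht h1 h2)
    · exact mixed h1 h2
    · exact (mixed h2 h1).symm
    · exact ihB hB (hs.rule hr).2 ht h1 h2

open Classical in
/-- The mark of a bound variable: minimal exactly at the sorts of covariant leaves. -/
noncomputable def mark (P : Spec S) (B : Term S) (Γ : Ctx S) : S → Bool :=
  fun t => decide (Lf P B Γ t false)

theorem mark_eq {s0 : S} (hvc : VC P s0) {B : Term S} (hB : NT B) {Γ : Ctx S} {s t : S}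
    {e : Bool} (h : Ty P Γ B (sort s)) (hs : InL P s0 s) (ht : InC P s0 t)
    (hl : Lf P B Γ t e) : mark P B Γ t = !e := by
  unfold mark
  cases e with
  | false => simpa using hl
  | true =>
    have : ¬ Lf P B Γ t false := fun h' => by
      simpa using lf_unique hvc hB h hs ht hl h'
    simpa using this

/-! ### Renaming -/

theorem ext_ren {Γ Δ : Ctx S} {ξ : ℕ → ℕ} (hξ : ∀ i, Δ (ξ i) = ren ξ (Γ i)) (A : Term S) :
    ∀ i, ext Δ (ren ξ A) (upr ξ i) = ren (upr ξ) (ext Γ A i) := by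
  intro i
  cases i with
  | zero => simp [ren_upr_wk]
  | succ i => simp [ren_upr_wk, hξ]

theorem ty_ren_iff {Γ Δ : Ctx S} {ξ : ℕ → ℕ} (hξ : ∀ i, Δ (ξ i) = ren ξ (Γ i)) {T : Term S}
    (hn : Neu T) {s : S} (h : Ty P Γ T (sort s)) (t : S) :
    Ty P Δ (ren ξ T) (sort t) ↔ Ty P Γ T (sort t) := by
  constructor
  · intro h'
    have h1 : Ty P Δ (ren ξ T) (sort s) := h.ren hξ
    rw [neu_sort_unique (hn.ren ξ).1 h' h1]
    exact h
  · exact fun h' => h'.ren hξ

theorem lf_ren {T : Term S} (hT : NT T) : ∀ {Γ Δ : Ctx S} {ξ : ℕ → ℕ} {s t : S} {e : Bool},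
    (∀ i, Δ (ξ i) = ren ξ (Γ i)) → Ty P Γ T (sort s) →
      (Lf P (ren ξ T) Δ t e ↔ Lf P T Γ t e) := by
  induction hT with
  | neu hn =>
    intro Γ Δ ξ s t e hξ h
    rw [lf_neu hn, lf_neu (hn.ren ξ).1, ty_ren_iff hξ hn h]
  | sort r => exact fun _ _ => Iff.rfl
  | pi _ _ ihA ihB =>
    intro Γ Δ ξ s t e hξ h
    obtain ⟨s₁, s₂, -, hA, hB⟩ := h.gen_pi_sort
    rw [ren_pi, lf_pi, lf_pi, ihA hξ hA, ihB (ext_ren hξ _) hB]

theorem mark_ren {T : Term S} (hT : NT T) {Γ Δ : Ctx S} {ξ : ℕ → ℕ} {s : S}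
    (hξ : ∀ i, Δ (ξ i) = ren ξ (Γ i)) (h : Ty P Γ T (sort s)) :
    mark P (ren ξ T) Δ = mark P T Γ := by
  funext t
  unfold mark
  rw [decide_eq_decide]
  exact lf_ren hT hξ h

/-! ### The interpretation -/

/-- The least candidate. -/
def Min (U : Univ P) (T : Term S) : Set (Term S) := {M | ∀ X, IsCand U T X → M ∈ X}

theorem isCand_min (U : Univ P) (T : Term S) : IsCand U T (Min U T) where
  sub := fun _ hM => hM _ (isCand_top T)
  neu := fun M hM hn _ hX => hX.neu M hM hn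
  exp := fun M hM M' hw hM' X hX => hX.exp M hM M' hw (hM' X hX)

theorem min_subset {U : Univ P} {T : Term S} {X : Set (Term S)} (h : IsCand U T X) :
    Min U T ⊆ X := fun _ hM => hM X h

open Classical in
/-- The interpretation of a leaf. -/
noncomputable def Atom (U : Univ P) (s0 : S) (T : Term S) (Γ : Ctx S) (σ : ℕ → Term S)
    (ρ : ℕ → S → Bool) : Set (Term S) :=
  if ∃ t, InC P s0 t ∧ Ty P Γ T (sort t) ∧ ρ (hd T) t = true then Min U (nf (sub σ T))
  else Top U (nf (sub σ T))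

/-- The interpretation of a normal type. -/
noncomputable def RedV (U : Univ P) (s0 : S) :
    Term S → Ctx S → (ℕ → Term S) → (ℕ → S → Bool) → Set (Term S)
  | pi A B, Γ, σ, ρ => {f | Ty P U.Θ f (nf (sub σ (pi A B))) ∧ ∀ a ∈ RedV U s0 A Γ σ ρ,
      app f a ∈ RedV U s0 B (ext Γ A) (scons a σ) (scons (mark P B (ext Γ A)) ρ)}
  | sort s, _, _, _ => Top U (sort s)
  | var i, Γ, σ, ρ => Atom U s0 (var i) Γ σ ρ
  | app M N, Γ, σ, ρ => Atom U s0 (app M N) Γ σ ρ
  | lam A M, Γ, σ, ρ => Atom U s0 (lam A M) Γ σ ρ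

variable {U : Univ P} {s0 : S}

theorem redV_pi (A B : Term S) (Γ : Ctx S) (σ : ℕ → Term S) (ρ : ℕ → S → Bool) :
    RedV U s0 (pi A B) Γ σ ρ = {f | Ty P U.Θ f (nf (sub σ (pi A B))) ∧ ∀ a ∈ RedV U s0 A Γ σ ρ,
      app f a ∈ RedV U s0 B (ext Γ A) (scons a σ) (scons (mark P B (ext Γ A)) ρ)} := rfl

theorem redV_sort (s : S) (Γ : Ctx S) (σ : ℕ → Term S) (ρ : ℕ → S → Bool) :
    RedV U s0 (sort s) Γ σ ρ = Top U (sort s) := rfl

theorem redV_neu {T : Term S} (h : Neu T) (Γ : Ctx S) (σ : ℕ → Term S) (ρ : ℕ → S → Bool) :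
    RedV U s0 T Γ σ ρ = Atom U s0 T Γ σ ρ := by
  cases h <;> rfl

theorem atom_min {T : Term S} {Γ : Ctx S} {σ : ℕ → Term S} {ρ : ℕ → S → Bool} {t : S}
    (ht : InC P s0 t) (h : Ty P Γ T (sort t)) (hρ : ρ (hd T) t = true) :
    Atom U s0 T Γ σ ρ = Min U (nf (sub σ T)) := if_pos ⟨t, ht, h, hρ⟩

theorem atom_top {T : Term S} (hn : Neu T) {Γ : Ctx S} {σ : ℕ → Term S} {ρ : ℕ → S → Bool}
    {t : S} (h : Ty P Γ T (sort t)) (hρ : ¬ InC P s0 t ∨ ρ (hd T) t = false) :
    Atom U s0 T Γ σ ρ = Top U (nf (sub σ T)) := by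
  refine if_neg ?_
  rintro ⟨t', h1, h2, h3⟩
  obtain rfl := neu_sort_unique hn h h2
  rcases hρ with h4 | h4
  · exact h4 h1
  · rw [h4] at h3
    cases h3

theorem isCand_atom (T : Term S) (Γ : Ctx S) (σ : ℕ → Term S) (ρ : ℕ → S → Bool) :
    IsCand U (nf (sub σ T)) (Atom U s0 T Γ σ ρ) := by
  unfold Atom
  split
  · exact isCand_min U _
  · exact isCand_top _

/-- Members of a candidate for an instantiated domain extend the substitution. -/
theorem subTy_cons_of_top {Γ : Ctx S} {σ : ℕ → Term S} (hσ : SubTy P U.Θ σ Γ) {A a : Term S}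
    {s : S} (hA : Ty P Γ A (sort s)) (ha : a ∈ Top U (nf (sub σ A))) :
    SubTy P U.Θ (scons a σ) (ext Γ A) :=
  hσ.cons (((good_univ U).ty_nf_iff (hA.sub_sort hσ)).1 ha.1)

theorem cand {T : Term S} (hT : NT T) : ∀ {Γ : Ctx S} {σ : ℕ → Term S} {ρ : ℕ → S → Bool} {s : S},
    SubTy P U.Θ σ Γ → Ty P Γ T (sort s) → IsCand U (nf (sub σ T)) (RedV U s0 T Γ σ ρ) := by
  induction hT with
  | neu hn =>
    intro Γ σ ρ s _ _
    rw [redV_neu hn]
    exact isCand_atom _ _ _ _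
  | sort r =>
    intro Γ σ ρ s _ _
    rw [redV_sort, sub_sort, nf_sort]
    exact isCand_top _
  | @pi A B _ _ ihA ihB =>
    intro Γ σ ρ s hσ h
    obtain ⟨s₁, s₂, -, hA, hB⟩ := h.gen_pi_sort
    have hcA := ihA (ρ := ρ) hσ hA
    have h1 : Ty P U.Θ (pi (sub σ A) (sub (up σ) B)) (sort s) := h.sub_sort hσ
    have := isCand_pi (ι := Unit) h1 hcA
      (XB := fun a _ => RedV U s0 B (ext Γ A) (scons a σ) (scons (mark P B (ext Γ A)) ρ))
      (fun a ha _ => by
        rw [inst_sub_up]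
        exact ihB (subTy_cons_of_top hσ hA (hcA.sub ha)) hB)
    simp only [forall_const] at this
    exact this

/-- Types with a sort strictly below the component are interpreted by the largest candidate. -/
theorem redV_of_inD (hD : ∀ t, InD P s0 t → App U t) {T : Term S} (hT : NT T) :
    ∀ {Γ : Ctx S} {σ : ℕ → Term S} {ρ : ℕ → S → Bool} {s : S}, SubTy P U.Θ σ Γ →
      Ty P Γ T (sort s) → InD P s0 s → RedV U s0 T Γ σ ρ = Top U (nf (sub σ T)) := by
  induction hT with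
  | neu hn =>
    intro Γ σ ρ s _ h hs
    rw [redV_neu hn, atom_top hn h (Or.inl fun hc => hc.not_inD hs)]
  | sort r =>
    intro Γ σ ρ s _ _ _
    rw [redV_sort, sub_sort, nf_sort]
  | @pi A B _ _ ihA ihB =>
    intro Γ σ ρ s hσ h hs
    obtain ⟨s₁, s₂, hr, hA, hB⟩ := h.gen_pi_sort
    have h1 : Ty P U.Θ (pi (sub σ A) (sub (up σ) B)) (sort s) := h.sub_sort hσ
    rw [redV_pi, ihA hσ hA (hs.rule hr).1, sub_pi, ← top_pi (hD s hs) h1]
    ext f
    refine and_congr_right fun _ => forall₂_congr fun a ha => ?_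
    rw [ihB (subTy_cons_of_top hσ hA ha) hB (hs.rule hr).2, inst_sub_up]

theorem redV_ren {T : Term S} (hT : NT T) : ∀ {Γ Δ : Ctx S} {ξ : ℕ → ℕ} {σ : ℕ → Term S}
    {ρ : ℕ → S → Bool} {s : S}, (∀ i, Δ (ξ i) = ren ξ (Γ i)) → Ty P Γ T (sort s) →
      RedV U s0 (ren ξ T) Δ σ ρ = RedV U s0 T Γ (fun i => σ (ξ i)) (fun i => ρ (ξ i)) := by
  induction hT with
  | @neu T hn =>
    intro Γ Δ ξ σ ρ s hξ h
    rw [redV_neu hn, redV_neu (hn.ren ξ).1]
    have h' : Ty P Δ (ren ξ _) (sort s) := h.ren hξ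
    by_cases hC : InC P s0 s
    · cases hb : ρ (ξ (hd T)) s with
      | true => rw [atom_min hC h hb, atom_min hC h' (by rw [(hn.ren ξ).2, hb]), sub_ren]
      | false =>
        rw [atom_top hn h (Or.inr hb),
          atom_top (hn.ren ξ).1 h' (Or.inr (by rw [(hn.ren ξ).2, hb])), sub_ren]
    · rw [atom_top hn h (Or.inl hC), atom_top (hn.ren ξ).1 h' (Or.inl hC), sub_ren]
  | sort r => exact fun _ _ => rfl
  | @pi A B _ hB' ihA ihB =>
    intro Γ Δ ξ σ ρ s hξ h
    obtain ⟨s₁, s₂, -, hA, hB⟩ := h.gen_pi_sort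
    have e1 : sub σ (pi (ren ξ A) (ren (upr ξ) B)) = sub (fun i => σ (ξ i)) (pi A B) :=
      sub_ren ξ σ (pi A B)
    rw [ren_pi, redV_pi, redV_pi, ihA hξ hA, e1, mark_ren hB' (ext_ren hξ A) hB]
    ext f
    refine and_congr_right fun _ => forall₂_congr fun a _ => ?_
    rw [ihB (ext_ren hξ A) hB]
    have e2 : (fun i => scons a σ (upr ξ i)) = scons a (fun i => σ (ξ i)) := by
      funext i; cases i <;> rfl
    have e3 : ∀ w : S → Bool, (fun i => scons w ρ (upr ξ i)) = scons w (fun i => ρ (ξ i)) := by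
      intro w; funext i; cases i <;> rfl
    rw [e2, e3]

/-! ### Substitution -/

theorem subTy_up_nf {Γ Γ₁ : Ctx S} (hΓ : Good U Γ) {g : ℕ → Term S} (hg : SubTy P Γ g Γ₁)
    {A : Term S} {s : S} (hA : Ty P Γ₁ A (sort s)) :
    SubTy P (ext Γ (nf (sub g A))) (up g) (ext Γ₁ A) := by
  intro i
  cases i with
  | zero =>
    have h1 : Ty P Γ (sub g A) (sort s) := hA.sub_sort hg
    have h2 : Ty P (ext Γ (nf (sub g A))) (var 0) (wk (nf (sub g A))) := Ty.var 0
    rw [up_zero, ext_zero, sub_up_wk]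
    exact h2.conv (h1.wk_sort _) (beq_wk (nf_beq (hΓ.wn h1)))
  | succ i =>
    rw [up_succ, ext_succ, sub_up_wk]
    exact (hg i).wk _

/-- Leaves whose head is sent to a variable persist. -/
theorem leaf_sub {T : Term S} (hT : NT T) : ∀ {Γ Γ₁ : Ctx S} {g : ℕ → Term S} {s t : S}
    {x y : ℕ} {e : Bool}, Good U Γ → SubTy P Γ g Γ₁ → Ty P Γ₁ T (sort s) → g y = var x →
      Leaf P T Γ₁ y t e → Leaf P (nf (sub g T)) Γ x t e := by
  induction hT with
  | neu hn =>
    intro Γ Γ₁ g s t x y e hΓ hg _ hx hl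
    obtain ⟨h1, rfl, rfl⟩ := (leaf_neu hn).1 hl
    have h2 := h1.sub_sort hg
    obtain ⟨h3, h4⟩ := hn.sub hx
    obtain ⟨h5, h6⟩ := h3.nf (hΓ.wn h2)
    exact (leaf_neu h5).2 ⟨hΓ.ty_nf h2, h6.trans h4, rfl⟩
  | sort r => exact fun _ _ _ _ hl => absurd hl not_leaf_sort
  | @pi A B _ _ ihA ihB =>
    intro Γ Γ₁ g s t x y e hΓ hg h hx hl
    obtain ⟨s₁, s₂, -, hA, hB⟩ := h.gen_pi_sort
    rw [(hΓ.nf_sub_pi hg h).1, leaf_pi]
    rcases leaf_pi.1 hl with h1 | h1
    · exact Or.inl (ihA hΓ hg hA hx h1)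
    · refine Or.inr (ihB (hΓ.ext (hΓ.ty_nf (hA.sub_sort hg))) (subTy_up_nf hΓ hg hA) hB ?_ h1)
      rw [up_succ, hx, wk_var]

theorem nf_sub_nf_sub {Γ Γ₁ : Ctx S} (hΓ : Good U Γ) {g : ℕ → Term S} (hg : SubTy P Γ g Γ₁)
    {T : Term S} {s : S} (h : Ty P Γ₁ T (sort s)) (σ : ℕ → Term S) :
    nf (sub σ (nf (sub g T))) = nf (sub (fun i => sub σ (g i)) T) := by
  rw [nf_sub_nf σ (hΓ.wn (h.sub_sort hg)), sub_sub]

/-- Monotonicity of the interpretation under substitution. -/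
theorem redV_mono (hD : ∀ t, InD P s0 t → App U t) (hvc : VC P s0) {T : Term S} (hT : NT T) :
    ∀ {Γ Γ₁ : Ctx S} {g σ : ℕ → Term S} {ρ ρ₁ : ℕ → S → Bool} {s : S} {e : Bool},
      Good U Γ → SubTy P Γ g Γ₁ → SubTy P U.Θ σ Γ → Ty P Γ₁ T (sort s) → InL P s0 s →
      (∀ y t e', InC P s0 t → Leaf P T Γ₁ y t e' →
        (∃ x, g y = var x ∧ ρ x t = ρ₁ y t) ∨ ρ₁ y t = !(xor e' e)) →
      (e = false → RedV U s0 T Γ₁ (fun i => sub σ (g i)) ρ₁ ⊆ RedV U s0 (nf (sub g T)) Γ σ ρ) ∧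
      (e = true → RedV U s0 (nf (sub g T)) Γ σ ρ ⊆ RedV U s0 T Γ₁ (fun i => sub σ (g i)) ρ₁) := by
  induction hT with
  | @neu T hn =>
    intro Γ Γ₁ g σ ρ ρ₁ s e hΓ hg hσ h hs H
    have h' : Ty P Γ (nf (sub g T)) (sort s) := hΓ.ty_nf (h.sub_sort hg)
    have hT' : NT (nf (sub g T)) := nt_of_ty h' (nf_normal' _)
    have hnf := nf_sub_nf_sub hΓ hg h σ
    rcases hs.cases with hC | hD'
    · have hc : IsCand U (nf (sub (fun i => sub σ (g i)) T)) (RedV U s0 (nf (sub g T)) Γ σ ρ) := by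
        rw [← hnf]
        exact cand hT' hσ h'
      rcases H (hd T) s false hC ((leaf_neu hn).2 ⟨h, rfl, rfl⟩) with ⟨x, hx, hρ⟩ | hρ
      · obtain ⟨h3, h4⟩ := hn.sub hx
        obtain ⟨h5, h6⟩ := h3.nf (hΓ.wn (h.sub_sort hg))
        have heq : RedV U s0 T Γ₁ (fun i => sub σ (g i)) ρ₁ = RedV U s0 (nf (sub g T)) Γ σ ρ := by
          rw [redV_neu hn, redV_neu h5]
          cases hb : ρ₁ (hd T) s with
          | true =>
            rw [atom_min hC h hb, atom_min hC h' (by rw [h6, h4, hρ, hb]), hnf]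
          | false =>
            rw [atom_top hn h (Or.inr hb), atom_top h5 h' (Or.inr (by rw [h6, h4, hρ, hb])), hnf]
        exact ⟨fun _ => heq.subset, fun _ => heq.superset⟩
      · refine ⟨fun he => ?_, fun he => ?_⟩
        · subst he
          rw [redV_neu hn, atom_min hC h hρ]
          exact min_subset hc
        · subst he
          rw [redV_neu hn, atom_top hn h (Or.inr hρ)]
          exact hc.sub
    · have heq : RedV U s0 T Γ₁ (fun i => sub σ (g i)) ρ₁ = RedV U s0 (nf (sub g T)) Γ σ ρ := by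
        rw [redV_of_inD hD (NT.neu hn) (hg.comp hσ) h hD', redV_of_inD hD hT' hσ h' hD', hnf]
      exact ⟨fun _ => heq.subset, fun _ => heq.superset⟩
  | sort r =>
    intro Γ Γ₁ g σ ρ ρ₁ s e _ _ _ _ _ _
    rw [sub_sort, nf_sort, redV_sort, redV_sort]
    exact ⟨fun _ => subset_rfl, fun _ => subset_rfl⟩
  | @pi A B hA0 hB0 ihA ihB =>
    intro Γ Γ₁ g σ ρ ρ₁ s e hΓ hg hσ h hs H
    obtain ⟨s₁, s₂, hr, hA, hB⟩ := h.gen_pi_sort
    have hnf := nf_sub_nf_sub hΓ hg h σ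
    have hA' : Ty P Γ (nf (sub g A)) (sort s₁) := hΓ.ty_nf (hA.sub_sort hg)
    have hΓ' : Good U (ext Γ (nf (sub g A))) := hΓ.ext hA'
    have hg' := subTy_up_nf hΓ hg hA
    have hB' : Ty P (ext Γ (nf (sub g A))) (nf (sub (up g) B)) (sort s₂) :=
      hΓ'.ty_nf (hB.sub_sort hg')
    have IA := ihA (ρ := ρ) (ρ₁ := ρ₁) (e := !e) hΓ hg hσ hA (hs.rule hr).1
      (fun y t e' ht hl => by
        have hl' : Leaf P (pi A B) Γ₁ y t (!e') := leaf_pi.2 (Or.inl (by simpa using hl))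
        refine (H y t (!e') ht hl').imp_right fun h1 => ?_
        rw [h1]
        cases e <;> cases e' <;> rfl)
    have hcA : IsCand U (nf (sub σ (nf (sub g A)))) (RedV U s0 (nf (sub g A)) Γ σ ρ) :=
      cand (nt_of_ty hA' (nf_normal' _)) hσ hA'
    have IB := fun (a : Term S) (ha : a ∈ Top U (nf (sub σ (nf (sub g A))))) =>
      ihB (ρ := scons (mark P (nf (sub (up g) B)) (ext Γ (nf (sub g A)))) ρ)
        (ρ₁ := scons (mark P B (ext Γ₁ A)) ρ₁) (e := e) hΓ' hg'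
        (subTy_cons_of_top hσ hA' ha) hB (hs.rule hr).2
        (fun y t e' ht hl => by
          cases y with
          | zero =>
            refine Or.inl ⟨0, rfl, ?_⟩
            rw [scons_zero, scons_zero, mark_eq hvc hB0 hB (hs.rule hr).2 ht hl.lf,
              mark_eq hvc (nt_of_ty hB' (nf_normal' _)) hB' (hs.rule hr).2 ht
                (leaf_sub hB0 hΓ' hg' hB (up_zero g) hl).lf]
          | succ y =>
            refine (H y t e' ht (leaf_pi.2 (Or.inr hl))).imp_left ?_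
            rintro ⟨x, hx, hρ⟩
            exact ⟨x + 1, by rw [up_succ, hx, wk_var], hρ⟩)
    have e2 : ∀ a : Term S, (fun i => sub (scons a σ) (up g i))
        = scons a (fun i => sub σ (g i)) := by
      intro a
      funext i
      cases i with
      | zero => rfl
      | succ i => simp
    rw [(hΓ.nf_sub_pi hg h).1] at hnf ⊢
    rw [redV_pi, redV_pi, hnf]
    refine ⟨fun he f hf => ⟨hf.1, fun a ha => ?_⟩, fun he f hf => ⟨hf.1, fun a ha => ?_⟩⟩
    · subst he
      have := (IB a (hcA.sub ha)).1 rfl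
      rw [e2] at this
      exact this (hf.2 a (IA.2 rfl ha))
    · subst he
      have ha' := IA.1 rfl ha
      have := (IB a (hcA.sub ha')).2 rfl
      rw [e2] at this
      exact this (hf.2 a ha')

end MV

open MV

theorem exists_modelV (U : Univ P) (s0 : S) (hD : ∀ t, InD P s0 t → App U t) (hvc : VC P s0) :
    Nonempty (Model.{u, u} U s0) := by
  refine ⟨{
    X := S → Bool
    Red := fun Γ T σ ρ => RedV U s0 T Γ σ ρ
    Inv := fun _ _ _ => True
    init := ⟨fun _ _ => false, trivial⟩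
    cand := fun _ hσ _ hn h => cand (nt_of_ty h hn) hσ h
    red_sort := fun _ _ _ _ => rfl
    weak := fun _ _ hn h => redV_ren (ξ := Nat.succ) (nt_of_ty h hn) (fun _ => rfl) h
    dflt := fun _ _ _ _ _ => ⟨fun _ => false, trivial⟩
    intro := fun _ _ _ _ _ _ hf H => ⟨hf, fun a ha => H a ha _ trivial⟩
    elim := ?_ }⟩
  intro Γ σ ρ A B s f N hΓ hσ _ hn h hs hf hN ha
  obtain ⟨s₁, s₂, hr, hA, hB⟩ := h.gen_pi_sort
  have hB0 : NT B := nt_of_ty hB (normal_pi_iff.1 hn).2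
  have hg : SubTy P Γ (scons N var) (ext Γ A) := subTy_id.cons (by rw [sub_id]; exact hN)
  have key := (redV_mono (ρ := ρ) (ρ₁ := scons (mark P B (ext Γ A)) ρ) (e := false) hD hvc hB0
    hΓ hg hσ hB (hs.rule hr).2 (fun y t e' ht hl => by
      cases y with
      | zero =>
        refine Or.inr ?_
        rw [scons_zero, mark_eq hvc hB0 hB (hs.rule hr).2 ht hl.lf, Bool.xor_false]
      | succ y => exact Or.inl ⟨y, rfl, rfl⟩)).1 rfl
  have e : (fun i => sub σ (scons N var i)) = scons (sub σ N) σ := by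
    funext i; cases i <;> rfl
  rw [e] at key
  exact key (hf.2 _ ha)

end Crest.Agent.R298
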