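import Crest.Agent.R298.Source

/-! Row 298: the Burali-Forti paradox in the source logic. The definitions and proof terms below
were produced by a small generator and are checked by the kernel. -/

set_option autoImplicit false
set_option maxRecDepth 100000

namespace Crest.Agent.R298.Src

namespace Par

/-- definition `False` -/
def d0 : (Tp × Tp × Tp) × Ex :=
  ((.prop, .prop, .prop),
    (.all .B' .c (.mem .B' .c (.var 0) (.compr .X .c .bot))))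

/-- definition `And` -/
def d1 : (Tp × Tp × Tp) × Ex :=
  ((.prop, .prop, .prop),
    (.all .B' .c (.imp (.imp (.var 1) (.imp (.var 2) (.mem .B' .c (.var 0) (.compr .X .c
    .bot)))) (.mem .B' .c (.var 0) (.compr .X .c .bot)))))

/-- definition `Or` -/
def d2 : (Tp × Tp × Tp) × Ex :=
  ((.prop, .prop, .prop),
    (.all .B' .c (.imp (.imp (.var 1) (.mem .B' .c (.var 0) (.compr .X .c .bot))) (.imp (.imp
    (.var 2) (.mem .B' .c (.var 0) (.compr .X .c .bot))) (.mem .B' .c (.var 0) (.compr .X .c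
    .bot))))))

/-- definition `Iff` -/
def d3 : (Tp × Tp × Tp) × Ex :=
  ((.prop, .prop, .prop),
    (.cst 1 .c (.imp (.var 0) (.var 1)) (.imp (.var 1) (.var 0))))

/-- definition `rX` -/
def d4 : (Tp × Tp × Tp) × Ex :=
  (((.k .X' .g), .prop, (.k .X .g)),
    (.compr .X .g (.mem .X' .g (.var 1) (.var 0))))

/-- definition `sX` -/
def d5 : (Tp × Tp × Tp) × Ex :=
  (((.k .X .g), .prop, (.k .X' .g)),
    (.compr .X' .g (.mem .X .g (.var 1) (.var 0))))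

/-- definition `rB` -/
def d6 : (Tp × Tp × Tp) × Ex :=
  (((.k .B' .g), .prop, (.k .B .g)),
    (.compr .B .g (.mem .B' .g (.var 1) (.var 0))))

/-- definition `sB` -/
def d7 : (Tp × Tp × Tp) × Ex :=
  (((.k .B .g), .prop, (.k .B' .g)),
    (.compr .B' .g (.mem .B .g (.var 1) (.var 0))))

/-- definition `rZ` -/
def d8 : (Tp × Tp × Tp) × Ex :=
  (((.k .Z' .g), .prop, (.k .Z .g)),
    (.compr .Z .g (.mem .Z' .g (.var 1) (.var 0))))

/-- definition `sZ` -/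
def d9 : (Tp × Tp × Tp) × Ex :=
  (((.k .Z .g), .prop, (.k .Z' .g)),
    (.compr .Z' .g (.mem .Z .g (.var 1) (.var 0))))

/-- definition `sub` -/
def d10 : (Tp × Tp × Tp) × Ex :=
  (((.k .B .g), (.k .B .g), .prop),
    (.all .X' .g (.imp (.mem .B .g (.var 1) (.cst 4 .g (.var 0) .bot)) (.mem .B .g (.var 2)
    (.cst 4 .g (.var 0) .bot)))))

/-- definition `ssub` -/
def d11 : (Tp × Tp × Tp) × Ex :=
  (((.k .B .g), (.k .B .g), .prop),
    (.cst 1 .g (.cst 10 .g (.var 0) (.var 1)) (.imp (.cst 10 .g (.var 1) (.var 0)) (.cst 0 .c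
    .bot .bot))))

/-- definition `eqv` -/
def d12 : (Tp × Tp × Tp) × Ex :=
  (((.k .Z .g), (.k .Z .g), .prop),
    (.all .B' .g (.cst 3 .g (.mem .Z .g (.var 1) (.cst 6 .g (.var 0) .bot)) (.mem .Z .g (.var
    2) (.cst 6 .g (.var 0) .bot)))))

/-- definition `restr` -/
def d13 : (Tp × Tp × Tp) × Ex :=
  (((.k .Z .g), (.k .B .g), (.k .Z .g)),
    (.compr .Z .g (.cst 1 .g (.mem .Z .g (.var 1) (.var 0)) (.cst 11 .g (.var 0) (.var 2)))))

/-- definition `inj` -/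
def d14 : (Tp × Tp × Tp) × Ex :=
  (((.k .Z .g), .prop, (.k .X .c)),
    (.compr .X .c (.dn false (.all .B' .c (.imp (.all .Z' .g (.imp (.cst 1 .g (.cst 12 .g (.cst
    8 .g (.var 0) .bot) (.var 4)) (.memW .g (.var 2) (.cst 8 .g (.var 0) .bot))) (.mem .B' .c
    (.var 1) (.compr .X .c .bot)))) (.mem .B' .c (.var 0) (.compr .X .c .bot)))) (.var 0))))

/-- definition `rW` -/
def d15 : (Tp × Tp × Tp) × Ex :=
  ((.W', .prop, .W),
    (.lamW (.dn true (.memW .g (.var 0) (.var 1)) (.var 1))))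

/-- definition `app` -/
def d16 : (Tp × Tp × Tp) × Ex :=
  (((.k .X .c), (.k .X .c), .prop),
    (.all .W' .c (.cst 3 .c (.mem .X .c (.var 1) (.up false (.cst 15 .c (.var 0) .bot))) (.mem
    .X .c (.var 2) (.up false (.cst 15 .c (.var 0) .bot))))))

/-- definition `wy` -/
def d17 : (Tp × Tp × Tp) × Ex :=
  (((.k .X .c), .prop, .W),
    (.lamW (.all .B' .c (.imp (.all .B' .g (.imp (.cst 1 .g (.mem .Z .g (.var 2) (.cst 6 .g
    (.var 0) .bot)) (.cst 16 .g (.var 3) (.cst 14 .g (.cst 13 .g (.var 2) (.cst 6 .g (.var 0)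
    .bot)) .bot))) (.mem .B' .c (.var 1) (.compr .X .c .bot)))) (.mem .B' .c (.var 0) (.compr
    .X .c .bot))))))

/-- definition `lt` -/
def d18 : (Tp × Tp × Tp) × Ex :=
  (((.k .X .c), (.k .X .c), .prop),
    (.all .B' .c (.imp (.all .X' .c (.imp (.cst 1 .c (.cst 16 .c (.cst 4 .c (.var 0) .bot)
    (.var 2)) (.mem .X .c (.var 3) (.up false (.cst 15 .c (.up true (.cst 17 .c (.cst 4 .c
    (.var 0) .bot) .bot)) .bot)))) (.mem .B' .c (.var 1) (.compr .X .c .bot)))) (.mem .B' .c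
    (.var 0) (.compr .X .c .bot)))))

/-- definition `down` -/
def d19 : (Tp × Tp × Tp) × Ex :=
  (((.k .X .c), .prop, (.k .B .c)),
    (.compr .B .c (.cst 2 .c (.cst 18 .c (.var 0) (.var 1)) (.cst 16 .c (.var 0) (.var 1)))))

/-- definition `ind` -/
def d20 : (Tp × Tp × Tp) × Ex :=
  (((.k .B' .c), .prop, .prop),
    (.all .X' .c (.imp (.all .X' .c (.imp (.cst 18 .c (.cst 4 .c (.var 0) .bot) (.cst 4 .c
    (.var 1) .bot)) (.mem .B' .c (.var 2) (.cst 4 .c (.var 0) .bot)))) (.mem .B' .c (.var 1)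
    (.cst 4 .c (.var 0) .bot)))))

/-- definition `acc` -/
def d21 : (Tp × Tp × Tp) × Ex :=
  (((.k .X .c), .prop, .prop),
    (.all .B' .c (.imp (.cst 20 .c (.var 0) .bot) (.all .X' .c (.imp (.cst 18 .c (.cst 4 .c
    (.var 0) .bot) (.var 2)) (.mem .B' .c (.var 1) (.cst 4 .c (.var 0) .bot)))))))

/-- definition `tr` -/
def d22 : (Tp × Tp × Tp) × Ex :=
  (((.k .X .c), .prop, .prop),
    (.all .X' .c (.all .X' .c (.imp (.cst 18 .c (.cst 4 .c (.var 0) .bot) (.cst 4 .c (.var 1)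
    .bot)) (.imp (.cst 18 .c (.cst 4 .c (.var 1) .bot) (.var 2)) (.cst 18 .c (.cst 4 .c (.var
    0) .bot) (.var 2)))))))

/-- definition `G` -/
def d23 : (Tp × Tp × Tp) × Ex :=
  (((.k .X .c), .prop, .prop),
    (.cst 1 .c (.cst 21 .c (.var 0) .bot) (.cst 22 .c (.var 0) .bot)))

/-- definition `SG` -/
def d24 : (Tp × Tp × Tp) × Ex :=
  ((.prop, .prop, (.k .Z .c)),
    (.compr .Z .c (.all .B' .c (.imp (.all .X' .c (.imp (.cst 1 .c (.cst 23 .c (.cst 4 .c (.var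
    0) .bot) .bot) (.cst 1 .c (.cst 10 .c (.var 2) (.cst 19 .c (.cst 4 .c (.var 0) .bot) .bot))
    (.cst 10 .c (.cst 19 .c (.cst 4 .c (.var 0) .bot) .bot) (.var 2)))) (.mem .B' .c (.var 1)
    (.compr .X .c .bot)))) (.mem .B' .c (.var 0) (.compr .X .c .bot))))))

/-- the definitions -/
def ds : Defs :=
  [d0, d1, d2, d3, d4, d5, d6, d7, d8, d9, d10, d11, d12, d13, d14, d15, d16, d17, d18, d19,
  d20, d21, d22, d23, d24]

/-- lemma `efq` -/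
def l0 : List Tp × Ex × Pf :=
  ([.prop],
    (.imp (.cst 0 .c .bot .bot) (.var 0)),
    (.impI (.cst 0 .c .bot .bot) (.foldE (.allE (.foldE (.hyp 0)) (.compr .B' .c (.var 1))))))

/-- lemma `andI` -/
def l1 : List Tp × Ex × Pf :=
  ([.prop, .prop],
    (.imp (.var 0) (.imp (.var 1) (.cst 1 .c (.var 0) (.var 1)))),
    (.impI (.var 0) (.impI (.var 1) (.foldI (.cst 1 .c (.var 0) (.var 1)) (.allI .B' (.impI
    (.imp (.var 1) (.imp (.var 2) (.mem .B' .c (.var 0) (.compr .X .c .bot)))) (.impE (.impE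
    (.hyp 0) (.hyp 2)) (.hyp 1))))))))

/-- lemma `andL` -/
def l2 : List Tp × Ex × Pf :=
  ([.prop, .prop],
    (.imp (.cst 1 .c (.var 0) (.var 1)) (.var 0)),
    (.impI (.cst 1 .c (.var 0) (.var 1)) (.foldE (.impE (.allE (.foldE (.hyp 0)) (.compr .B' .c
    (.var 1))) (.impI (.var 0) (.impI (.var 1) (.foldI (.mem .B' .c (.compr .B' .c (.var 1))
    (.compr .X .c .bot)) (.hyp 1))))))))

/-- lemma `andR` -/
def l3 : List Tp × Ex × Pf :=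
  ([.prop, .prop],
    (.imp (.cst 1 .c (.var 0) (.var 1)) (.var 1)),
    (.impI (.cst 1 .c (.var 0) (.var 1)) (.foldE (.impE (.allE (.foldE (.hyp 0)) (.compr .B' .c
    (.var 2))) (.impI (.var 0) (.impI (.var 1) (.foldI (.mem .B' .c (.compr .B' .c (.var 2))
    (.compr .X .c .bot)) (.hyp 0))))))))

/-- lemma `orL` -/
def l4 : List Tp × Ex × Pf :=
  ([.prop, .prop],
    (.imp (.var 0) (.cst 2 .c (.var 0) (.var 1))),
    (.impI (.var 0) (.foldI (.cst 2 .c (.var 0) (.var 1)) (.allI .B' (.impI (.imp (.var 1)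
    (.mem .B' .c (.var 0) (.compr .X .c .bot))) (.impI (.imp (.var 2) (.mem .B' .c (.var 0)
    (.compr .X .c .bot))) (.impE (.hyp 1) (.hyp 2))))))))

/-- lemma `orR` -/
def l5 : List Tp × Ex × Pf :=
  ([.prop, .prop],
    (.imp (.var 1) (.cst 2 .c (.var 0) (.var 1))),
    (.impI (.var 1) (.foldI (.cst 2 .c (.var 0) (.var 1)) (.allI .B' (.impI (.imp (.var 1)
    (.mem .B' .c (.var 0) (.compr .X .c .bot))) (.impI (.imp (.var 2) (.mem .B' .c (.var 0)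
    (.compr .X .c .bot))) (.impE (.hyp 0) (.hyp 2))))))))

/-- lemma `orE` -/
def l6 : List Tp × Ex × Pf :=
  ([.prop, .prop, .prop],
    (.imp (.cst 2 .c (.var 0) (.var 1)) (.imp (.imp (.var 0) (.var 2)) (.imp (.imp (.var 1)
    (.var 2)) (.var 2)))),
    (.impI (.cst 2 .c (.var 0) (.var 1)) (.impI (.imp (.var 0) (.var 2)) (.impI (.imp (.var 1)
    (.var 2)) (.foldE (.impE (.impE (.allE (.foldE (.hyp 2)) (.compr .B' .c (.var 3))) (.impI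
    (.var 0) (.foldI (.mem .B' .c (.compr .B' .c (.var 3)) (.compr .X .c .bot)) (.impE (.hyp 2)
    (.hyp 0))))) (.impI (.var 1) (.foldI (.mem .B' .c (.compr .B' .c (.var 3)) (.compr .X .c
    .bot)) (.impE (.hyp 1) (.hyp 0))))))))))

/-- lemma `iffI` -/
def l7 : List Tp × Ex × Pf :=
  ([.prop, .prop],
    (.imp (.imp (.var 0) (.var 1)) (.imp (.imp (.var 1) (.var 0)) (.cst 3 .c (.var 0) (.var
    1)))),
    (.impI (.imp (.var 0) (.var 1)) (.impI (.imp (.var 1) (.var 0)) (.foldI (.cst 3 .c (.var 0)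
    (.var 1)) (.impE (.impE (.use 1 [(.imp (.var 0) (.var 1)), (.imp (.var 1) (.var 0))]) (.hyp
    1)) (.hyp 0))))))

/-- lemma `iff1` -/
def l8 : List Tp × Ex × Pf :=
  ([.prop, .prop],
    (.imp (.cst 3 .c (.var 0) (.var 1)) (.imp (.var 0) (.var 1))),
    (.impI (.cst 3 .c (.var 0) (.var 1)) (.impE (.use 2 [(.imp (.var 0) (.var 1)), (.imp (.var
    1) (.var 0))]) (.foldE (.hyp 0)))))

/-- lemma `iff2` -/
def l9 : List Tp × Ex × Pf :=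
  ([.prop, .prop],
    (.imp (.cst 3 .c (.var 0) (.var 1)) (.imp (.var 1) (.var 0))),
    (.impI (.cst 3 .c (.var 0) (.var 1)) (.impE (.use 3 [(.imp (.var 0) (.var 1)), (.imp (.var
    1) (.var 0))]) (.foldE (.hyp 0)))))

/-- lemma `iffRefl` -/
def l10 : List Tp × Ex × Pf :=
  ([.prop],
    (.cst 3 .c (.var 0) (.var 0)),
    (.impE (.impE (.use 7 [(.var 0), (.var 0)]) (.impI (.var 0) (.hyp 0))) (.impI (.var 0)
    (.hyp 0))))

/-- lemma `iffSymm` -/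
def l11 : List Tp × Ex × Pf :=
  ([.prop, .prop],
    (.imp (.cst 3 .c (.var 0) (.var 1)) (.cst 3 .c (.var 1) (.var 0))),
    (.impI (.cst 3 .c (.var 0) (.var 1)) (.impE (.impE (.use 7 [(.var 1), (.var 0)]) (.impE
    (.use 9 [(.var 0), (.var 1)]) (.hyp 0))) (.impE (.use 8 [(.var 0), (.var 1)]) (.hyp 0)))))

/-- lemma `iffTrans` -/
def l12 : List Tp × Ex × Pf :=
  ([.prop, .prop, .prop],
    (.imp (.cst 3 .c (.var 0) (.var 1)) (.imp (.cst 3 .c (.var 1) (.var 2)) (.cst 3 .c (.var 0)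
    (.var 2)))),
    (.impI (.cst 3 .c (.var 0) (.var 1)) (.impI (.cst 3 .c (.var 1) (.var 2)) (.impE (.impE
    (.use 7 [(.var 0), (.var 2)]) (.impI (.var 0) (.impE (.impE (.use 8 [(.var 1), (.var 2)])
    (.hyp 1)) (.impE (.impE (.use 8 [(.var 0), (.var 1)]) (.hyp 2)) (.hyp 0))))) (.impI (.var
    2) (.impE (.impE (.use 9 [(.var 0), (.var 1)]) (.hyp 2)) (.impE (.impE (.use 9 [(.var 1),
    (.var 2)]) (.hyp 1)) (.hyp 0))))))))

/-- lemma `appRefl` -/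
def l13 : List Tp × Ex × Pf :=
  ([(.k .X .c)],
    (.cst 16 .c (.var 0) (.var 0)),
    (.foldI (.cst 16 .c (.var 0) (.var 0)) (.allI .W' (.use 10 [(.mem .X .c (.var 1) (.up false
    (.cst 15 .c (.var 0) .bot)))]))))

/-- lemma `appSymm` -/
def l14 : List Tp × Ex × Pf :=
  ([(.k .X .c), (.k .X .c)],
    (.imp (.cst 16 .c (.var 0) (.var 1)) (.cst 16 .c (.var 1) (.var 0))),
    (.impI (.cst 16 .c (.var 0) (.var 1)) (.foldI (.cst 16 .c (.var 1) (.var 0)) (.allI .W'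
    (.impE (.use 11 [(.mem .X .c (.var 1) (.up false (.cst 15 .c (.var 0) .bot))), (.mem .X .c
    (.var 2) (.up false (.cst 15 .c (.var 0) .bot)))]) (.allE (.foldE (.hyp 0)) (.var 0)))))))

/-- lemma `appTrans` -/
def l15 : List Tp × Ex × Pf :=
  ([(.k .X .c), (.k .X .c), (.k .X .c)],
    (.imp (.cst 16 .c (.var 0) (.var 1)) (.imp (.cst 16 .c (.var 1) (.var 2)) (.cst 16 .c (.var
    0) (.var 2)))),
    (.impI (.cst 16 .c (.var 0) (.var 1)) (.impI (.cst 16 .c (.var 1) (.var 2)) (.foldI (.cst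
    16 .c (.var 0) (.var 2)) (.allI .W' (.impE (.impE (.use 12 [(.mem .X .c (.var 1) (.up false
    (.cst 15 .c (.var 0) .bot))), (.mem .X .c (.var 2) (.up false (.cst 15 .c (.var 0) .bot))),
    (.mem .X .c (.var 3) (.up false (.cst 15 .c (.var 0) .bot)))]) (.allE (.foldE (.hyp 1))
    (.var 0))) (.allE (.foldE (.hyp 0)) (.var 0))))))))

/-- lemma `appN` -/
def l16 : List Tp × Ex × Pf :=
  ([(.k .X .c)],
    (.cst 16 .c (.cst 4 .c (.cst 5 .c (.var 0) .bot) .bot) (.var 0)),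
    (.foldI (.cst 16 .c (.cst 4 .c (.cst 5 .c (.var 0) .bot) .bot) (.var 0)) (.allI .W' (.impE
    (.impE (.use 7 [(.mem .X .c (.cst 4 .c (.cst 5 .c (.var 1) .bot) .bot) (.up false (.cst 15
    .c (.var 0) .bot))), (.mem .X .c (.var 1) (.up false (.cst 15 .c (.var 0) .bot)))]) (.impI
    (.mem .X .c (.cst 4 .c (.cst 5 .c (.var 1) .bot) .bot) (.up false (.cst 15 .c (.var 0)
    .bot))) (.foldE (.foldE (.foldE (.foldE (.hyp 0))))))) (.impI (.mem .X .c (.var 1) (.up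
    false (.cst 15 .c (.var 0) .bot))) (.foldI (.mem .X .c (.cst 4 .c (.cst 5 .c (.var 1) .bot)
    .bot) (.up false (.cst 15 .c (.var 0) .bot))) (.foldI (.mem .X .c (.compr .X .c (.mem .X'
    .c (.cst 5 .c (.var 2) .bot) (.var 0))) (.up false (.cst 15 .c (.var 0) .bot))) (.foldI
    (.mem .X' .c (.cst 5 .c (.var 1) .bot) (.up false (.cst 15 .c (.var 0) .bot))) (.foldI
    (.mem .X' .c (.compr .X' .c (.mem .X .c (.var 2) (.var 0))) (.up false (.cst 15 .c (.var 0)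
    .bot))) (.hyp 0))))))))))

/-- lemma `appN2` -/
def l17 : List Tp × Ex × Pf :=
  ([(.k .X .c)],
    (.cst 16 .c (.var 0) (.cst 4 .c (.cst 5 .c (.var 0) .bot) .bot)),
    (.impE (.use 14 [(.cst 4 .c (.cst 5 .c (.var 0) .bot) .bot), (.var 0)]) (.use 16 [(.var
    0)])))

/-- lemma `ltL` -/
def l18 : List Tp × Ex × Pf :=
  ([(.k .X .c), (.k .X .c), (.k .X .c)],
    (.imp (.cst 18 .c (.var 0) (.var 1)) (.imp (.cst 16 .c (.var 0) (.var 2)) (.cst 18 .c (.var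
    2) (.var 1)))),
    (.impI (.cst 18 .c (.var 0) (.var 1)) (.impI (.cst 16 .c (.var 0) (.var 2)) (.foldE (.impE
    (.allE (.foldE (.hyp 1)) (.compr .B' .c (.cst 18 .c (.var 3) (.var 2)))) (.allI .X' (.impI
    (.cst 1 .c (.cst 16 .c (.cst 4 .c (.var 0) .bot) (.var 1)) (.mem .X .c (.var 2) (.up false
    (.cst 15 .c (.up true (.cst 17 .c (.cst 4 .c (.var 0) .bot) .bot)) .bot)))) (.foldI (.mem
    .B' .c (.compr .B' .c (.cst 18 .c (.var 4) (.var 3))) (.compr .X .c .bot)) (.foldI (.cst 18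
    .c (.var 3) (.var 2)) (.allI .B' (.impI (.all .X' .c (.imp (.cst 1 .c (.cst 16 .c (.cst 4
    .c (.var 0) .bot) (.var 5)) (.mem .X .c (.var 4) (.up false (.cst 15 .c (.up true (.cst 17
    .c (.cst 4 .c (.var 0) .bot) .bot)) .bot)))) (.mem .B' .c (.var 1) (.compr .X .c .bot))))
    (.impE (.allE (.hyp 0) (.var 1)) (.impE (.impE (.use 1 [(.cst 16 .c (.cst 4 .c (.var 1)
    .bot) (.var 4)), (.mem .X .c (.var 3) (.up false (.cst 15 .c (.up true (.cst 17 .c (.cst 4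
    .c (.var 1) .bot) .bot)) .bot)))]) (.impE (.impE (.use 15 [(.cst 4 .c (.var 1) .bot), (.var
    2), (.var 4)]) (.impE (.use 2 [(.cst 16 .c (.cst 4 .c (.var 1) .bot) (.var 2)), (.mem .X .c
    (.var 3) (.up false (.cst 15 .c (.up true (.cst 17 .c (.cst 4 .c (.var 1) .bot) .bot))
    .bot)))]) (.hyp 1))) (.hyp 2))) (.impE (.use 3 [(.cst 16 .c (.cst 4 .c (.var 1) .bot) (.var
    2)), (.mem .X .c (.var 3) (.up false (.cst 15 .c (.up true (.cst 17 .c (.cst 4 .c (.var 1)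
    .bot) .bot)) .bot)))]) (.hyp 1)))))))))))))))

/-- lemma `ltR` -/
def l19 : List Tp × Ex × Pf :=
  ([(.k .X .c), (.k .X .c), (.k .X .c)],
    (.imp (.cst 18 .c (.var 0) (.var 1)) (.imp (.cst 16 .c (.var 1) (.var 2)) (.cst 18 .c (.var
    0) (.var 2)))),
    (.impI (.cst 18 .c (.var 0) (.var 1)) (.impI (.cst 16 .c (.var 1) (.var 2)) (.foldE (.impE
    (.allE (.foldE (.hyp 1)) (.compr .B' .c (.cst 18 .c (.var 1) (.var 3)))) (.allI .X' (.impI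
    (.cst 1 .c (.cst 16 .c (.cst 4 .c (.var 0) .bot) (.var 1)) (.mem .X .c (.var 2) (.up false
    (.cst 15 .c (.up true (.cst 17 .c (.cst 4 .c (.var 0) .bot) .bot)) .bot)))) (.foldI (.mem
    .B' .c (.compr .B' .c (.cst 18 .c (.var 2) (.var 4))) (.compr .X .c .bot)) (.foldI (.cst 18
    .c (.var 1) (.var 3)) (.allI .B' (.impI (.all .X' .c (.imp (.cst 1 .c (.cst 16 .c (.cst 4
    .c (.var 0) .bot) (.var 3)) (.mem .X .c (.var 5) (.up false (.cst 15 .c (.up true (.cst 17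
    .c (.cst 4 .c (.var 0) .bot) .bot)) .bot)))) (.mem .B' .c (.var 1) (.compr .X .c .bot))))
    (.impE (.allE (.hyp 0) (.var 1)) (.impE (.impE (.use 1 [(.cst 16 .c (.cst 4 .c (.var 1)
    .bot) (.var 2)), (.mem .X .c (.var 4) (.up false (.cst 15 .c (.up true (.cst 17 .c (.cst 4
    .c (.var 1) .bot) .bot)) .bot)))]) (.impE (.use 2 [(.cst 16 .c (.cst 4 .c (.var 1) .bot)
    (.var 2)), (.mem .X .c (.var 3) (.up false (.cst 15 .c (.up true (.cst 17 .c (.cst 4 .c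
    (.var 1) .bot) .bot)) .bot)))]) (.hyp 1))) (.impE (.impE (.use 8 [(.mem .X .c (.var 3) (.up
    false (.cst 15 .c (.up true (.cst 17 .c (.cst 4 .c (.var 1) .bot) .bot)) .bot))), (.mem .X
    .c (.var 4) (.up false (.cst 15 .c (.up true (.cst 17 .c (.cst 4 .c (.var 1) .bot) .bot))
    .bot)))]) (.allE (.foldE (.hyp 2)) (.up true (.cst 17 .c (.cst 4 .c (.var 1) .bot) .bot))))
    (.impE (.use 3 [(.cst 16 .c (.cst 4 .c (.var 1) .bot) (.var 2)), (.mem .X .c (.var 3) (.up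
    false (.cst 15 .c (.up true (.cst 17 .c (.cst 4 .c (.var 1) .bot) .bot)) .bot)))]) (.hyp
    1))))))))))))))))

/-- lemma `subTrans` -/
def l20 : List Tp × Ex × Pf :=
  ([(.k .B .c), (.k .B .c), (.k .B .c)],
    (.imp (.cst 10 .c (.var 0) (.var 1)) (.imp (.cst 10 .c (.var 1) (.var 2)) (.cst 10 .c (.var
    0) (.var 2)))),
    (.impI (.cst 10 .c (.var 0) (.var 1)) (.impI (.cst 10 .c (.var 1) (.var 2)) (.foldI (.cst
    10 .c (.var 0) (.var 2)) (.allI .X' (.impI (.mem .B .c (.var 1) (.cst 4 .c (.var 0) .bot))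
    (.impE (.allE (.foldE (.hyp 1)) (.var 0)) (.impE (.allE (.foldE (.hyp 2)) (.var 0)) (.hyp
    0)))))))))

/-- lemma `subN1` -/
def l21 : List Tp × Ex × Pf :=
  ([(.k .B .c)],
    (.cst 10 .c (.cst 6 .c (.cst 7 .c (.var 0) .bot) .bot) (.var 0)),
    (.foldI (.cst 10 .c (.cst 6 .c (.cst 7 .c (.var 0) .bot) .bot) (.var 0)) (.allI .X' (.impI
    (.mem .B .c (.cst 6 .c (.cst 7 .c (.var 1) .bot) .bot) (.cst 4 .c (.var 0) .bot)) (.foldE
    (.foldE (.foldE (.foldE (.hyp 0)))))))))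

/-- lemma `subN2` -/
def l22 : List Tp × Ex × Pf :=
  ([(.k .B .c)],
    (.cst 10 .c (.var 0) (.cst 6 .c (.cst 7 .c (.var 0) .bot) .bot)),
    (.foldI (.cst 10 .c (.var 0) (.cst 6 .c (.cst 7 .c (.var 0) .bot) .bot)) (.allI .X' (.impI
    (.mem .B .c (.var 1) (.cst 4 .c (.var 0) .bot)) (.foldI (.mem .B .c (.cst 6 .c (.cst 7 .c
    (.var 1) .bot) .bot) (.cst 4 .c (.var 0) .bot)) (.foldI (.mem .B .c (.compr .B .c (.mem .B'
    .c (.cst 7 .c (.var 2) .bot) (.var 0))) (.cst 4 .c (.var 0) .bot)) (.foldI (.mem .B' .c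
    (.cst 7 .c (.var 1) .bot) (.cst 4 .c (.var 0) .bot)) (.foldI (.mem .B' .c (.compr .B' .c
    (.mem .B .c (.var 2) (.var 0))) (.cst 4 .c (.var 0) .bot)) (.hyp 0)))))))))

/-- lemma `eqvSymm` -/
def l23 : List Tp × Ex × Pf :=
  ([(.k .Z .c), (.k .Z .c)],
    (.imp (.cst 12 .c (.var 0) (.var 1)) (.cst 12 .c (.var 1) (.var 0))),
    (.impI (.cst 12 .c (.var 0) (.var 1)) (.foldI (.cst 12 .c (.var 1) (.var 0)) (.allI .B'
    (.impE (.use 11 [(.mem .Z .c (.var 1) (.cst 6 .c (.var 0) .bot)), (.mem .Z .c (.var 2)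
    (.cst 6 .c (.var 0) .bot))]) (.allE (.foldE (.hyp 0)) (.var 0)))))))

/-- lemma `eqvTrans` -/
def l24 : List Tp × Ex × Pf :=
  ([(.k .Z .c), (.k .Z .c), (.k .Z .c)],
    (.imp (.cst 12 .c (.var 0) (.var 1)) (.imp (.cst 12 .c (.var 1) (.var 2)) (.cst 12 .c (.var
    0) (.var 2)))),
    (.impI (.cst 12 .c (.var 0) (.var 1)) (.impI (.cst 12 .c (.var 1) (.var 2)) (.foldI (.cst
    12 .c (.var 0) (.var 2)) (.allI .B' (.impE (.impE (.use 12 [(.mem .Z .c (.var 1) (.cst 6 .c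
    (.var 0) .bot)), (.mem .Z .c (.var 2) (.cst 6 .c (.var 0) .bot)), (.mem .Z .c (.var 3)
    (.cst 6 .c (.var 0) .bot))]) (.allE (.foldE (.hyp 1)) (.var 0))) (.allE (.foldE (.hyp 0))
    (.var 0))))))))

/-- lemma `eqvN` -/
def l25 : List Tp × Ex × Pf :=
  ([(.k .Z .c)],
    (.cst 12 .c (.cst 8 .c (.cst 9 .c (.var 0) .bot) .bot) (.var 0)),
    (.foldI (.cst 12 .c (.cst 8 .c (.cst 9 .c (.var 0) .bot) .bot) (.var 0)) (.allI .B' (.impE
    (.impE (.use 7 [(.mem .Z .c (.cst 8 .c (.cst 9 .c (.var 1) .bot) .bot) (.cst 6 .c (.var 0)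
    .bot)), (.mem .Z .c (.var 1) (.cst 6 .c (.var 0) .bot))]) (.impI (.mem .Z .c (.cst 8 .c
    (.cst 9 .c (.var 1) .bot) .bot) (.cst 6 .c (.var 0) .bot)) (.foldE (.foldE (.foldE (.foldE
    (.hyp 0))))))) (.impI (.mem .Z .c (.var 1) (.cst 6 .c (.var 0) .bot)) (.foldI (.mem .Z .c
    (.cst 8 .c (.cst 9 .c (.var 1) .bot) .bot) (.cst 6 .c (.var 0) .bot)) (.foldI (.mem .Z .c
    (.compr .Z .c (.mem .Z' .c (.cst 9 .c (.var 2) .bot) (.var 0))) (.cst 6 .c (.var 0) .bot))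
    (.foldI (.mem .Z' .c (.cst 9 .c (.var 1) .bot) (.cst 6 .c (.var 0) .bot)) (.foldI (.mem .Z'
    .c (.compr .Z' .c (.mem .Z .c (.var 2) (.var 0))) (.cst 6 .c (.var 0) .bot)) (.hyp
    0))))))))))

/-- lemma `injImp` -/
def l26 : List Tp × Ex × Pf :=
  ([(.k .Z .c), (.k .Z .c), .W],
    (.imp (.cst 12 .c (.var 0) (.var 1)) (.imp (.mem .X .c (.cst 14 .c (.var 0) .bot) (.up
    false (.var 2))) (.mem .X .c (.cst 14 .c (.var 1) .bot) (.up false (.var 2))))),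
    (.impI (.cst 12 .c (.var 0) (.var 1)) (.impI (.mem .X .c (.cst 14 .c (.var 0) .bot) (.up
    false (.var 2))) (.foldE (.impE (.allE (.foldE (.foldE (.foldE (.hyp 0)))) (.compr .B' .c
    (.mem .X .c (.cst 14 .c (.var 2) .bot) (.up false (.var 3))))) (.allI .Z' (.impI (.cst 1 .c
    (.cst 12 .c (.cst 8 .c (.var 0) .bot) (.var 1)) (.memW .c (.var 3) (.cst 8 .c (.var 0)
    .bot))) (.foldI (.mem .B' .c (.compr .B' .c (.mem .X .c (.cst 14 .c (.var 3) .bot) (.up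
    false (.var 4)))) (.compr .X .c .bot)) (.foldI (.mem .X .c (.cst 14 .c (.var 2) .bot) (.up
    false (.var 3))) (.foldI (.mem .X .c (.compr .X .c (.dn false (.all .B' .c (.imp (.all .Z'
    .c (.imp (.cst 1 .c (.cst 12 .c (.cst 8 .c (.var 0) .bot) (.var 6)) (.memW .c (.var 2)
    (.cst 8 .c (.var 0) .bot))) (.mem .B' .c (.var 1) (.compr .X .c .bot)))) (.mem .B' .c (.var
    0) (.compr .X .c .bot)))) (.var 0))) (.up false (.var 3))) (.foldI (.dn false (.all .B' .c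
    (.imp (.all .Z' .c (.imp (.cst 1 .c (.cst 12 .c (.cst 8 .c (.var 0) .bot) (.var 5)) (.memW
    .c (.var 2) (.cst 8 .c (.var 0) .bot))) (.mem .B' .c (.var 1) (.compr .X .c .bot)))) (.mem
    .B' .c (.var 0) (.compr .X .c .bot)))) (.up false (.var 3))) (.allI .B' (.impI (.all .Z' .c
    (.imp (.cst 1 .c (.cst 12 .c (.cst 8 .c (.var 0) .bot) (.var 4)) (.memW .c (.var 5) (.cst 8
    .c (.var 0) .bot))) (.mem .B' .c (.var 1) (.compr .X .c .bot)))) (.impE (.allE (.hyp 0)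
    (.var 1)) (.impE (.impE (.use 1 [(.cst 12 .c (.cst 8 .c (.var 1) .bot) (.var 3)), (.memW .c
    (.var 4) (.cst 8 .c (.var 1) .bot))]) (.impE (.impE (.use 24 [(.cst 8 .c (.var 1) .bot),
    (.var 2), (.var 3)]) (.impE (.use 2 [(.cst 12 .c (.cst 8 .c (.var 1) .bot) (.var 2)),
    (.memW .c (.var 4) (.cst 8 .c (.var 1) .bot))]) (.hyp 1))) (.hyp 3))) (.impE (.use 3 [(.cst
    12 .c (.cst 8 .c (.var 1) .bot) (.var 2)), (.memW .c (.var 4) (.cst 8 .c (.var 1) .bot))])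
    (.hyp 1)))))))))))))))))

/-- lemma `injApp` -/
def l27 : List Tp × Ex × Pf :=
  ([(.k .Z .c), (.k .Z .c)],
    (.imp (.cst 12 .c (.var 0) (.var 1)) (.cst 16 .c (.cst 14 .c (.var 0) .bot) (.cst 14 .c
    (.var 1) .bot))),
    (.impI (.cst 12 .c (.var 0) (.var 1)) (.foldI (.cst 16 .c (.cst 14 .c (.var 0) .bot) (.cst
    14 .c (.var 1) .bot)) (.allI .W' (.impE (.impE (.use 7 [(.mem .X .c (.cst 14 .c (.var 1)
    .bot) (.up false (.cst 15 .c (.var 0) .bot))), (.mem .X .c (.cst 14 .c (.var 2) .bot) (.up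
    false (.cst 15 .c (.var 0) .bot)))]) (.impE (.use 26 [(.var 1), (.var 2), (.cst 15 .c (.var
    0) .bot)]) (.hyp 0))) (.impE (.use 26 [(.var 2), (.var 1), (.cst 15 .c (.var 0) .bot)])
    (.impE (.use 23 [(.var 1), (.var 2)]) (.hyp 0))))))))

/-- lemma `restrE` -/
def l28 : List Tp × Ex × Pf :=
  ([(.k .Z .c), (.k .Z .c), (.k .B .c)],
    (.imp (.cst 12 .c (.var 0) (.var 1)) (.cst 12 .c (.cst 13 .c (.var 0) (.var 2)) (.cst 13 .c
    (.var 1) (.var 2)))),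
    (.impI (.cst 12 .c (.var 0) (.var 1)) (.foldI (.cst 12 .c (.cst 13 .c (.var 0) (.var 2))
    (.cst 13 .c (.var 1) (.var 2))) (.allI .B' (.impE (.impE (.use 7 [(.mem .Z .c (.cst 13 .c
    (.var 1) (.var 3)) (.cst 6 .c (.var 0) .bot)), (.mem .Z .c (.cst 13 .c (.var 2) (.var 3))
    (.cst 6 .c (.var 0) .bot))]) (.impI (.mem .Z .c (.cst 13 .c (.var 1) (.var 3)) (.cst 6 .c
    (.var 0) .bot)) (.foldI (.mem .Z .c (.cst 13 .c (.var 2) (.var 3)) (.cst 6 .c (.var 0)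
    .bot)) (.foldI (.mem .Z .c (.compr .Z .c (.cst 1 .c (.mem .Z .c (.var 3) (.var 0)) (.cst 11
    .c (.var 0) (.var 4)))) (.cst 6 .c (.var 0) .bot)) (.impE (.impE (.use 1 [(.mem .Z .c (.var
    2) (.cst 6 .c (.var 0) .bot)), (.cst 11 .c (.cst 6 .c (.var 0) .bot) (.var 3))]) (.impE
    (.impE (.use 8 [(.mem .Z .c (.var 1) (.cst 6 .c (.var 0) .bot)), (.mem .Z .c (.var 2) (.cst
    6 .c (.var 0) .bot))]) (.allE (.foldE (.hyp 1)) (.var 0))) (.impE (.use 2 [(.mem .Z .c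
    (.var 1) (.cst 6 .c (.var 0) .bot)), (.cst 11 .c (.cst 6 .c (.var 0) .bot) (.var 3))])
    (.foldE (.foldE (.hyp 0)))))) (.impE (.use 3 [(.mem .Z .c (.var 1) (.cst 6 .c (.var 0)
    .bot)), (.cst 11 .c (.cst 6 .c (.var 0) .bot) (.var 3))]) (.foldE (.foldE (.hyp 0)))))))))
    (.impI (.mem .Z .c (.cst 13 .c (.var 2) (.var 3)) (.cst 6 .c (.var 0) .bot)) (.foldI (.mem
    .Z .c (.cst 13 .c (.var 1) (.var 3)) (.cst 6 .c (.var 0) .bot)) (.foldI (.mem .Z .c (.compr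
    .Z .c (.cst 1 .c (.mem .Z .c (.var 2) (.var 0)) (.cst 11 .c (.var 0) (.var 4)))) (.cst 6 .c
    (.var 0) .bot)) (.impE (.impE (.use 1 [(.mem .Z .c (.var 1) (.cst 6 .c (.var 0) .bot)),
    (.cst 11 .c (.cst 6 .c (.var 0) .bot) (.var 3))]) (.impE (.impE (.use 9 [(.mem .Z .c (.var
    1) (.cst 6 .c (.var 0) .bot)), (.mem .Z .c (.var 2) (.cst 6 .c (.var 0) .bot))]) (.allE
    (.foldE (.hyp 1)) (.var 0))) (.impE (.use 2 [(.mem .Z .c (.var 2) (.cst 6 .c (.var 0)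
    .bot)), (.cst 11 .c (.cst 6 .c (.var 0) .bot) (.var 3))]) (.foldE (.foldE (.hyp 0))))))
    (.impE (.use 3 [(.mem .Z .c (.var 2) (.cst 6 .c (.var 0) .bot)), (.cst 11 .c (.cst 6 .c
    (.var 0) .bot) (.var 3))]) (.foldE (.foldE (.hyp 0)))))))))))))

/-- lemma `ssubR` -/
def l29 : List Tp × Ex × Pf :=
  ([(.k .B .c), (.k .B .c), (.k .B .c)],
    (.imp (.cst 11 .c (.var 0) (.var 1)) (.imp (.cst 10 .c (.var 1) (.var 2)) (.cst 11 .c (.var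
    0) (.var 2)))),
    (.impI (.cst 11 .c (.var 0) (.var 1)) (.impI (.cst 10 .c (.var 1) (.var 2)) (.foldI (.cst
    11 .c (.var 0) (.var 2)) (.impE (.impE (.use 1 [(.cst 10 .c (.var 0) (.var 2)), (.imp (.cst
    10 .c (.var 2) (.var 0)) (.cst 0 .c .bot .bot))]) (.impE (.impE (.use 20 [(.var 0), (.var
    1), (.var 2)]) (.impE (.use 2 [(.cst 10 .c (.var 0) (.var 1)), (.imp (.cst 10 .c (.var 1)
    (.var 0)) (.cst 0 .c .bot .bot))]) (.foldE (.hyp 1)))) (.hyp 0))) (.impI (.cst 10 .c (.var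
    2) (.var 0)) (.impE (.impE (.use 3 [(.cst 10 .c (.var 0) (.var 1)), (.imp (.cst 10 .c (.var
    1) (.var 0)) (.cst 0 .c .bot .bot))]) (.foldE (.hyp 2))) (.impE (.impE (.use 20 [(.var 1),
    (.var 2), (.var 0)]) (.hyp 1)) (.hyp 0)))))))))

/-- lemma `restrImp` -/
def l30 : List Tp × Ex × Pf :=
  ([(.k .Z .c), (.k .B .c), (.k .B .c), (.k .B .c)],
    (.imp (.cst 10 .c (.var 1) (.var 2)) (.imp (.mem .Z .c (.cst 13 .c (.var 0) (.var 1)) (.var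
    3)) (.mem .Z .c (.cst 13 .c (.var 0) (.var 2)) (.var 3)))),
    (.impI (.cst 10 .c (.var 1) (.var 2)) (.impI (.mem .Z .c (.cst 13 .c (.var 0) (.var 1))
    (.var 3)) (.foldI (.mem .Z .c (.cst 13 .c (.var 0) (.var 2)) (.var 3)) (.foldI (.mem .Z .c
    (.compr .Z .c (.cst 1 .c (.mem .Z .c (.var 1) (.var 0)) (.cst 11 .c (.var 0) (.var 3))))
    (.var 3)) (.impE (.impE (.use 1 [(.mem .Z .c (.var 0) (.var 3)), (.cst 11 .c (.var 3) (.var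
    2))]) (.impE (.use 2 [(.mem .Z .c (.var 0) (.var 3)), (.cst 11 .c (.var 3) (.var 1))])
    (.foldE (.foldE (.hyp 0))))) (.impE (.impE (.use 29 [(.var 3), (.var 1), (.var 2)]) (.impE
    (.use 3 [(.mem .Z .c (.var 0) (.var 3)), (.cst 11 .c (.var 3) (.var 1))]) (.foldE (.foldE
    (.hyp 0))))) (.hyp 1))))))))

/-- lemma `restrB` -/
def l31 : List Tp × Ex × Pf :=
  ([(.k .Z .c), (.k .B .c), (.k .B .c)],
    (.imp (.cst 10 .c (.var 1) (.var 2)) (.imp (.cst 10 .c (.var 2) (.var 1)) (.cst 12 .c (.cst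
    13 .c (.var 0) (.var 1)) (.cst 13 .c (.var 0) (.var 2))))),
    (.impI (.cst 10 .c (.var 1) (.var 2)) (.impI (.cst 10 .c (.var 2) (.var 1)) (.foldI (.cst
    12 .c (.cst 13 .c (.var 0) (.var 1)) (.cst 13 .c (.var 0) (.var 2))) (.allI .B' (.impE
    (.impE (.use 7 [(.mem .Z .c (.cst 13 .c (.var 1) (.var 2)) (.cst 6 .c (.var 0) .bot)),
    (.mem .Z .c (.cst 13 .c (.var 1) (.var 3)) (.cst 6 .c (.var 0) .bot))]) (.impE (.use 30
    [(.var 1), (.var 2), (.var 3), (.cst 6 .c (.var 0) .bot)]) (.hyp 1))) (.impE (.use 30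
    [(.var 1), (.var 3), (.var 2), (.cst 6 .c (.var 0) .bot)]) (.hyp 0))))))))

/-- lemma `restrR` -/
def l32 : List Tp × Ex × Pf :=
  ([(.k .Z .c), (.k .B .c), (.k .B .c)],
    (.imp (.cst 10 .c (.var 1) (.var 2)) (.cst 12 .c (.cst 13 .c (.cst 13 .c (.var 0) (.var 2))
    (.var 1)) (.cst 13 .c (.var 0) (.var 1)))),
    (.impI (.cst 10 .c (.var 1) (.var 2)) (.foldI (.cst 12 .c (.cst 13 .c (.cst 13 .c (.var 0)
    (.var 2)) (.var 1)) (.cst 13 .c (.var 0) (.var 1))) (.allI .B' (.impE (.impE (.use 7 [(.mem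
    .Z .c (.cst 13 .c (.cst 13 .c (.var 1) (.var 3)) (.var 2)) (.cst 6 .c (.var 0) .bot)),
    (.mem .Z .c (.cst 13 .c (.var 1) (.var 2)) (.cst 6 .c (.var 0) .bot))]) (.impI (.mem .Z .c
    (.cst 13 .c (.cst 13 .c (.var 1) (.var 3)) (.var 2)) (.cst 6 .c (.var 0) .bot)) (.foldI
    (.mem .Z .c (.cst 13 .c (.var 1) (.var 2)) (.cst 6 .c (.var 0) .bot)) (.foldI (.mem .Z .c
    (.compr .Z .c (.cst 1 .c (.mem .Z .c (.var 2) (.var 0)) (.cst 11 .c (.var 0) (.var 3))))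
    (.cst 6 .c (.var 0) .bot)) (.impE (.impE (.use 1 [(.mem .Z .c (.var 1) (.cst 6 .c (.var 0)
    .bot)), (.cst 11 .c (.cst 6 .c (.var 0) .bot) (.var 2))]) (.impE (.use 2 [(.mem .Z .c (.var
    1) (.cst 6 .c (.var 0) .bot)), (.cst 11 .c (.cst 6 .c (.var 0) .bot) (.var 3))]) (.foldE
    (.foldE (.impE (.use 2 [(.mem .Z .c (.cst 13 .c (.var 1) (.var 3)) (.cst 6 .c (.var 0)
    .bot)), (.cst 11 .c (.cst 6 .c (.var 0) .bot) (.var 2))]) (.foldE (.foldE (.hyp 0))))))))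
    (.impE (.use 3 [(.mem .Z .c (.cst 13 .c (.var 1) (.var 3)) (.cst 6 .c (.var 0) .bot)),
    (.cst 11 .c (.cst 6 .c (.var 0) .bot) (.var 2))]) (.foldE (.foldE (.hyp 0))))))))) (.impI
    (.mem .Z .c (.cst 13 .c (.var 1) (.var 2)) (.cst 6 .c (.var 0) .bot)) (.foldI (.mem .Z .c
    (.cst 13 .c (.cst 13 .c (.var 1) (.var 3)) (.var 2)) (.cst 6 .c (.var 0) .bot)) (.foldI
    (.mem .Z .c (.compr .Z .c (.cst 1 .c (.mem .Z .c (.cst 13 .c (.var 2) (.var 4)) (.var 0))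
    (.cst 11 .c (.var 0) (.var 3)))) (.cst 6 .c (.var 0) .bot)) (.impE (.impE (.use 1 [(.mem .Z
    .c (.cst 13 .c (.var 1) (.var 3)) (.cst 6 .c (.var 0) .bot)), (.cst 11 .c (.cst 6 .c (.var
    0) .bot) (.var 2))]) (.foldI (.mem .Z .c (.cst 13 .c (.var 1) (.var 3)) (.cst 6 .c (.var 0)
    .bot)) (.foldI (.mem .Z .c (.compr .Z .c (.cst 1 .c (.mem .Z .c (.var 2) (.var 0)) (.cst 11
    .c (.var 0) (.var 4)))) (.cst 6 .c (.var 0) .bot)) (.impE (.impE (.use 1 [(.mem .Z .c (.var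
    1) (.cst 6 .c (.var 0) .bot)), (.cst 11 .c (.cst 6 .c (.var 0) .bot) (.var 3))]) (.impE
    (.use 2 [(.mem .Z .c (.var 1) (.cst 6 .c (.var 0) .bot)), (.cst 11 .c (.cst 6 .c (.var 0)
    .bot) (.var 2))]) (.foldE (.foldE (.hyp 0))))) (.impE (.impE (.use 29 [(.cst 6 .c (.var 0)
    .bot), (.var 2), (.var 3)]) (.impE (.use 3 [(.mem .Z .c (.var 1) (.cst 6 .c (.var 0)
    .bot)), (.cst 11 .c (.cst 6 .c (.var 0) .bot) (.var 2))]) (.foldE (.foldE (.hyp 0)))))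
    (.hyp 1)))))) (.impE (.use 3 [(.mem .Z .c (.var 1) (.cst 6 .c (.var 0) .bot)), (.cst 11 .c
    (.cst 6 .c (.var 0) .bot) (.var 2))]) (.foldE (.foldE (.hyp 0)))))))))))))

/-- lemma `H1` -/
def l33 : List Tp × Ex × Pf :=
  ([(.k .X .c), (.k .Z .c)],
    (.imp (.cst 18 .c (.var 0) (.cst 14 .c (.var 1) .bot)) (.all .B' .c (.imp (.all .B' .c
    (.imp (.cst 1 .c (.mem .Z .c (.var 3) (.cst 6 .c (.var 0) .bot)) (.cst 16 .c (.var 2) (.cst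
    14 .c (.cst 13 .c (.var 3) (.cst 6 .c (.var 0) .bot)) .bot))) (.mem .B' .c (.var 1) (.compr
    .X .c .bot)))) (.mem .B' .c (.var 0) (.compr .X .c .bot))))),
    (.impI (.cst 18 .c (.var 0) (.cst 14 .c (.var 1) .bot)) (.foldE (.impE (.allE (.foldE (.hyp
    0)) (.compr .B' .c (.all .B' .c (.imp (.all .B' .c (.imp (.cst 1 .c (.mem .Z .c (.var 4)
    (.cst 6 .c (.var 0) .bot)) (.cst 16 .c (.var 3) (.cst 14 .c (.cst 13 .c (.var 4) (.cst 6 .c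
    (.var 0) .bot)) .bot))) (.mem .B' .c (.var 1) (.compr .X .c .bot)))) (.mem .B' .c (.var 0)
    (.compr .X .c .bot)))))) (.allI .X' (.impI (.cst 1 .c (.cst 16 .c (.cst 4 .c (.var 0) .bot)
    (.var 1)) (.mem .X .c (.cst 14 .c (.var 2) .bot) (.up false (.cst 15 .c (.up true (.cst 17
    .c (.cst 4 .c (.var 0) .bot) .bot)) .bot)))) (.foldI (.mem .B' .c (.compr .B' .c (.all .B'
    .c (.imp (.all .B' .c (.imp (.cst 1 .c (.mem .Z .c (.var 5) (.cst 6 .c (.var 0) .bot))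
    (.cst 16 .c (.var 4) (.cst 14 .c (.cst 13 .c (.var 5) (.cst 6 .c (.var 0) .bot)) .bot)))
    (.mem .B' .c (.var 1) (.compr .X .c .bot)))) (.mem .B' .c (.var 0) (.compr .X .c .bot)))))
    (.compr .X .c .bot)) (.foldE (.impE (.allE (.foldE (.foldE (.foldE (.impE (.use 3 [(.cst 16
    .c (.cst 4 .c (.var 0) .bot) (.var 1)), (.mem .X .c (.cst 14 .c (.var 2) .bot) (.up false
    (.cst 15 .c (.up true (.cst 17 .c (.cst 4 .c (.var 0) .bot) .bot)) .bot)))]) (.hyp 0)))))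
    (.compr .B' .c (.all .B' .c (.imp (.all .B' .c (.imp (.cst 1 .c (.mem .Z .c (.var 5) (.cst
    6 .c (.var 0) .bot)) (.cst 16 .c (.var 4) (.cst 14 .c (.cst 13 .c (.var 5) (.cst 6 .c (.var
    0) .bot)) .bot))) (.mem .B' .c (.var 1) (.compr .X .c .bot)))) (.mem .B' .c (.var 0)
    (.compr .X .c .bot)))))) (.allI .Z' (.impI (.cst 1 .c (.cst 12 .c (.cst 8 .c (.var 0) .bot)
    (.var 3)) (.memW .c (.cst 15 .c (.up true (.cst 17 .c (.cst 4 .c (.var 1) .bot) .bot))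
    .bot) (.cst 8 .c (.var 0) .bot))) (.foldI (.mem .B' .c (.compr .B' .c (.all .B' .c (.imp
    (.all .B' .c (.imp (.cst 1 .c (.mem .Z .c (.var 6) (.cst 6 .c (.var 0) .bot)) (.cst 16 .c
    (.var 5) (.cst 14 .c (.cst 13 .c (.var 6) (.cst 6 .c (.var 0) .bot)) .bot))) (.mem .B' .c
    (.var 1) (.compr .X .c .bot)))) (.mem .B' .c (.var 0) (.compr .X .c .bot))))) (.compr .X .c
    .bot)) (.foldE (.impE (.allE (.foldE (.foldE (.foldE (.foldE (.foldE (.impE (.use 3 [(.cst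
    12 .c (.cst 8 .c (.var 0) .bot) (.var 3)), (.memW .c (.cst 15 .c (.up true (.cst 17 .c
    (.cst 4 .c (.var 1) .bot) .bot)) .bot) (.cst 8 .c (.var 0) .bot))]) (.hyp 0))))))) (.compr
    .B' .c (.all .B' .c (.imp (.all .B' .c (.imp (.cst 1 .c (.mem .Z .c (.var 6) (.cst 6 .c
    (.var 0) .bot)) (.cst 16 .c (.var 5) (.cst 14 .c (.cst 13 .c (.var 6) (.cst 6 .c (.var 0)
    .bot)) .bot))) (.mem .B' .c (.var 1) (.compr .X .c .bot)))) (.mem .B' .c (.var 0) (.compr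
    .X .c .bot)))))) (.allI .B' (.impI (.cst 1 .c (.mem .Z .c (.cst 8 .c (.var 1) .bot) (.cst 6
    .c (.var 0) .bot)) (.cst 16 .c (.cst 4 .c (.var 2) .bot) (.cst 14 .c (.cst 13 .c (.cst 8 .c
    (.var 1) .bot) (.cst 6 .c (.var 0) .bot)) .bot))) (.foldI (.mem .B' .c (.compr .B' .c (.all
    .B' .c (.imp (.all .B' .c (.imp (.cst 1 .c (.mem .Z .c (.var 7) (.cst 6 .c (.var 0) .bot))
    (.cst 16 .c (.var 6) (.cst 14 .c (.cst 13 .c (.var 7) (.cst 6 .c (.var 0) .bot)) .bot)))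
    (.mem .B' .c (.var 1) (.compr .X .c .bot)))) (.mem .B' .c (.var 0) (.compr .X .c .bot)))))
    (.compr .X .c .bot)) (.allI .B' (.impI (.all .B' .c (.imp (.cst 1 .c (.mem .Z .c (.var 6)
    (.cst 6 .c (.var 0) .bot)) (.cst 16 .c (.var 5) (.cst 14 .c (.cst 13 .c (.var 6) (.cst 6 .c
    (.var 0) .bot)) .bot))) (.mem .B' .c (.var 1) (.compr .X .c .bot)))) (.impE (.allE (.hyp 0)
    (.var 1)) (.impE (.impE (.use 1 [(.mem .Z .c (.var 5) (.cst 6 .c (.var 1) .bot)), (.cst 16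
    .c (.var 4) (.cst 14 .c (.cst 13 .c (.var 5) (.cst 6 .c (.var 1) .bot)) .bot))]) (.impE
    (.impE (.use 8 [(.mem .Z .c (.cst 8 .c (.var 2) .bot) (.cst 6 .c (.var 1) .bot)), (.mem .Z
    .c (.var 5) (.cst 6 .c (.var 1) .bot))]) (.allE (.foldE (.impE (.use 2 [(.cst 12 .c (.cst 8
    .c (.var 2) .bot) (.var 5)), (.memW .c (.cst 15 .c (.up true (.cst 17 .c (.cst 4 .c (.var
    3) .bot) .bot)) .bot) (.cst 8 .c (.var 2) .bot))]) (.hyp 2))) (.var 1))) (.impE (.use 2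
    [(.mem .Z .c (.cst 8 .c (.var 2) .bot) (.cst 6 .c (.var 1) .bot)), (.cst 16 .c (.cst 4 .c
    (.var 3) .bot) (.cst 14 .c (.cst 13 .c (.cst 8 .c (.var 2) .bot) (.cst 6 .c (.var 1) .bot))
    .bot))]) (.hyp 1)))) (.impE (.impE (.use 15 [(.var 4), (.cst 14 .c (.cst 13 .c (.cst 8 .c
    (.var 2) .bot) (.cst 6 .c (.var 1) .bot)) .bot), (.cst 14 .c (.cst 13 .c (.var 5) (.cst 6
    .c (.var 1) .bot)) .bot)]) (.impE (.impE (.use 15 [(.var 4), (.cst 4 .c (.var 3) .bot),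
    (.cst 14 .c (.cst 13 .c (.cst 8 .c (.var 2) .bot) (.cst 6 .c (.var 1) .bot)) .bot)]) (.impE
    (.use 14 [(.cst 4 .c (.var 3) .bot), (.var 4)]) (.impE (.use 2 [(.cst 16 .c (.cst 4 .c
    (.var 3) .bot) (.var 4)), (.mem .X .c (.cst 14 .c (.var 5) .bot) (.up false (.cst 15 .c
    (.up true (.cst 17 .c (.cst 4 .c (.var 3) .bot) .bot)) .bot)))]) (.hyp 3)))) (.impE (.use 3
    [(.mem .Z .c (.cst 8 .c (.var 2) .bot) (.cst 6 .c (.var 1) .bot)), (.cst 16 .c (.cst 4 .c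
    (.var 3) .bot) (.cst 14 .c (.cst 13 .c (.cst 8 .c (.var 2) .bot) (.cst 6 .c (.var 1) .bot))
    .bot))]) (.hyp 1)))) (.impE (.use 27 [(.cst 13 .c (.cst 8 .c (.var 2) .bot) (.cst 6 .c
    (.var 1) .bot)), (.cst 13 .c (.var 5) (.cst 6 .c (.var 1) .bot))]) (.impE (.use 28 [(.cst 8
    .c (.var 2) .bot), (.var 5), (.cst 6 .c (.var 1) .bot)]) (.impE (.use 2 [(.cst 12 .c (.cst
    8 .c (.var 2) .bot) (.var 5)), (.memW .c (.cst 15 .c (.up true (.cst 17 .c (.cst 4 .c (.var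
    3) .bot) .bot)) .bot) (.cst 8 .c (.var 2) .bot))]) (.hyp 2))))))))))))))))))))))))))

/-- lemma `H2` -/
def l34 : List Tp × Ex × Pf :=
  ([(.k .X .c), (.k .Z .c), (.k .B' .c)],
    (.imp (.mem .Z .c (.var 1) (.cst 6 .c (.var 2) .bot)) (.imp (.cst 16 .c (.var 0) (.cst 14
    .c (.cst 13 .c (.var 1) (.cst 6 .c (.var 2) .bot)) .bot)) (.cst 18 .c (.var 0) (.cst 14 .c
    (.var 1) .bot)))),
    (.impI (.mem .Z .c (.var 1) (.cst 6 .c (.var 2) .bot)) (.impI (.cst 16 .c (.var 0) (.cst 14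
    .c (.cst 13 .c (.var 1) (.cst 6 .c (.var 2) .bot)) .bot)) (.foldI (.cst 18 .c (.var 0)
    (.cst 14 .c (.var 1) .bot)) (.allI .B' (.impI (.all .X' .c (.imp (.cst 1 .c (.cst 16 .c
    (.cst 4 .c (.var 0) .bot) (.var 2)) (.mem .X .c (.cst 14 .c (.var 3) .bot) (.up false (.cst
    15 .c (.up true (.cst 17 .c (.cst 4 .c (.var 0) .bot) .bot)) .bot)))) (.mem .B' .c (.var 1)
    (.compr .X .c .bot)))) (.impE (.allE (.hyp 0) (.cst 5 .c (.var 1) .bot)) (.impE (.impE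
    (.use 1 [(.cst 16 .c (.cst 4 .c (.cst 5 .c (.var 1) .bot) .bot) (.var 1)), (.mem .X .c
    (.cst 14 .c (.var 2) .bot) (.up false (.cst 15 .c (.up true (.cst 17 .c (.cst 4 .c (.cst 5
    .c (.var 1) .bot) .bot) .bot)) .bot)))]) (.use 16 [(.var 1)])) (.foldI (.mem .X .c (.cst 14
    .c (.var 2) .bot) (.up false (.cst 15 .c (.up true (.cst 17 .c (.cst 4 .c (.cst 5 .c (.var
    1) .bot) .bot) .bot)) .bot))) (.foldI (.mem .X .c (.compr .X .c (.dn false (.all .B' .c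
    (.imp (.all .Z' .c (.imp (.cst 1 .c (.cst 12 .c (.cst 8 .c (.var 0) .bot) (.var 6)) (.memW
    .c (.var 2) (.cst 8 .c (.var 0) .bot))) (.mem .B' .c (.var 1) (.compr .X .c .bot)))) (.mem
    .B' .c (.var 0) (.compr .X .c .bot)))) (.var 0))) (.up false (.cst 15 .c (.up true (.cst 17
    .c (.cst 4 .c (.cst 5 .c (.var 1) .bot) .bot) .bot)) .bot))) (.foldI (.dn false (.all .B'
    .c (.imp (.all .Z' .c (.imp (.cst 1 .c (.cst 12 .c (.cst 8 .c (.var 0) .bot) (.var 5))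
    (.memW .c (.var 2) (.cst 8 .c (.var 0) .bot))) (.mem .B' .c (.var 1) (.compr .X .c .bot))))
    (.mem .B' .c (.var 0) (.compr .X .c .bot)))) (.up false (.cst 15 .c (.up true (.cst 17 .c
    (.cst 4 .c (.cst 5 .c (.var 1) .bot) .bot) .bot)) .bot))) (.allI .B' (.impI (.all .Z' .c
    (.imp (.cst 1 .c (.cst 12 .c (.cst 8 .c (.var 0) .bot) (.var 4)) (.memW .c (.cst 15 .c (.up
    true (.cst 17 .c (.cst 4 .c (.cst 5 .c (.var 3) .bot) .bot) .bot)) .bot) (.cst 8 .c (.var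
    0) .bot))) (.mem .B' .c (.var 1) (.compr .X .c .bot)))) (.impE (.allE (.hyp 0) (.cst 9 .c
    (.var 3) .bot)) (.impE (.impE (.use 1 [(.cst 12 .c (.cst 8 .c (.cst 9 .c (.var 3) .bot)
    .bot) (.var 3)), (.memW .c (.cst 15 .c (.up true (.cst 17 .c (.cst 4 .c (.cst 5 .c (.var 2)
    .bot) .bot) .bot)) .bot) (.cst 8 .c (.cst 9 .c (.var 3) .bot) .bot))]) (.use 25 [(.var
    3)])) (.foldI (.memW .c (.cst 15 .c (.up true (.cst 17 .c (.cst 4 .c (.cst 5 .c (.var 2)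
    .bot) .bot) .bot)) .bot) (.cst 8 .c (.cst 9 .c (.var 3) .bot) .bot)) (.foldI (.memW .c
    (.lamW (.dn true (.memW .g (.var 0) (.var 1)) (.up true (.cst 17 .c (.cst 4 .c (.cst 5 .c
    (.var 3) .bot) .bot) .bot)))) (.cst 8 .c (.cst 9 .c (.var 3) .bot) .bot)) (.foldI (.dn true
    (.memW .c (.var 0) (.cst 8 .c (.cst 9 .c (.var 4) .bot) .bot)) (.up true (.cst 17 .c (.cst
    4 .c (.cst 5 .c (.var 2) .bot) .bot) .bot))) (.foldI (.memW .c (.cst 17 .c (.cst 4 .c (.cst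
    5 .c (.var 2) .bot) .bot) .bot) (.cst 8 .c (.cst 9 .c (.var 3) .bot) .bot)) (.foldI (.memW
    .c (.lamW (.all .B' .c (.imp (.all .B' .g (.imp (.cst 1 .g (.mem .Z .g (.var 2) (.cst 6 .g
    (.var 0) .bot)) (.cst 16 .g (.cst 4 .c (.cst 5 .c (.var 5) .bot) .bot) (.cst 14 .g (.cst 13
    .g (.var 2) (.cst 6 .g (.var 0) .bot)) .bot))) (.mem .B' .c (.var 1) (.compr .X .c .bot))))
    (.mem .B' .c (.var 0) (.compr .X .c .bot))))) (.cst 8 .c (.cst 9 .c (.var 3) .bot) .bot))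
    (.allI .B' (.impI (.all .B' .c (.imp (.cst 1 .c (.mem .Z .c (.cst 8 .c (.cst 9 .c (.var 5)
    .bot) .bot) (.cst 6 .c (.var 0) .bot)) (.cst 16 .c (.cst 4 .c (.cst 5 .c (.var 4) .bot)
    .bot) (.cst 14 .c (.cst 13 .c (.cst 8 .c (.cst 9 .c (.var 5) .bot) .bot) (.cst 6 .c (.var
    0) .bot)) .bot))) (.mem .B' .c (.var 1) (.compr .X .c .bot)))) (.impE (.allE (.hyp 0) (.var
    5)) (.impE (.impE (.use 1 [(.mem .Z .c (.cst 8 .c (.cst 9 .c (.var 4) .bot) .bot) (.cst 6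
    .c (.var 5) .bot)), (.cst 16 .c (.cst 4 .c (.cst 5 .c (.var 3) .bot) .bot) (.cst 14 .c
    (.cst 13 .c (.cst 8 .c (.cst 9 .c (.var 4) .bot) .bot) (.cst 6 .c (.var 5) .bot)) .bot))])
    (.foldI (.mem .Z .c (.cst 8 .c (.cst 9 .c (.var 4) .bot) .bot) (.cst 6 .c (.var 5) .bot))
    (.foldI (.mem .Z .c (.compr .Z .c (.mem .Z' .c (.cst 9 .c (.var 5) .bot) (.var 0))) (.cst 6
    .c (.var 5) .bot)) (.foldI (.mem .Z' .c (.cst 9 .c (.var 4) .bot) (.cst 6 .c (.var 5)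
    .bot)) (.foldI (.mem .Z' .c (.compr .Z' .c (.mem .Z .c (.var 5) (.var 0))) (.cst 6 .c (.var
    5) .bot)) (.hyp 4)))))) (.impE (.impE (.use 15 [(.cst 4 .c (.cst 5 .c (.var 3) .bot) .bot),
    (.cst 14 .c (.cst 13 .c (.var 4) (.cst 6 .c (.var 5) .bot)) .bot), (.cst 14 .c (.cst 13 .c
    (.cst 8 .c (.cst 9 .c (.var 4) .bot) .bot) (.cst 6 .c (.var 5) .bot)) .bot)]) (.impE (.impE
    (.use 15 [(.cst 4 .c (.cst 5 .c (.var 3) .bot) .bot), (.var 3), (.cst 14 .c (.cst 13 .c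
    (.var 4) (.cst 6 .c (.var 5) .bot)) .bot)]) (.use 16 [(.var 3)])) (.hyp 3))) (.impE (.use
    27 [(.cst 13 .c (.var 4) (.cst 6 .c (.var 5) .bot)), (.cst 13 .c (.cst 8 .c (.cst 9 .c
    (.var 4) .bot) .bot) (.cst 6 .c (.var 5) .bot))]) (.impE (.use 28 [(.var 4), (.cst 8 .c
    (.cst 9 .c (.var 4) .bot) .bot), (.cst 6 .c (.var 5) .bot)]) (.impE (.use 23 [(.cst 8 .c
    (.cst 9 .c (.var 4) .bot) .bot), (.var 4)]) (.use 25 [(.var 4)])))))))))))))))))))))))))))))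

/-- lemma `trE` -/
def l35 : List Tp × Ex × Pf :=
  ([(.k .X .c), (.k .X .c), (.k .X .c)],
    (.imp (.cst 22 .c (.var 0) .bot) (.imp (.cst 18 .c (.var 2) (.var 1)) (.imp (.cst 18 .c
    (.var 1) (.var 0)) (.cst 18 .c (.var 2) (.var 0))))),
    (.impI (.cst 22 .c (.var 0) .bot) (.impI (.cst 18 .c (.var 2) (.var 1)) (.impI (.cst 18 .c
    (.var 1) (.var 0)) (.impE (.impE (.use 18 [(.cst 4 .c (.cst 5 .c (.var 2) .bot) .bot),
    (.var 0), (.var 2)]) (.impE (.impE (.allE (.allE (.foldE (.hyp 2)) (.cst 5 .c (.var 1)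
    .bot)) (.cst 5 .c (.var 2) .bot)) (.impE (.impE (.use 19 [(.cst 4 .c (.cst 5 .c (.var 2)
    .bot) .bot), (.var 1), (.cst 4 .c (.cst 5 .c (.var 1) .bot) .bot)]) (.impE (.impE (.use 18
    [(.var 2), (.var 1), (.cst 4 .c (.cst 5 .c (.var 2) .bot) .bot)]) (.hyp 1)) (.use 17 [(.var
    2)]))) (.use 17 [(.var 1)]))) (.impE (.impE (.use 18 [(.var 1), (.var 0), (.cst 4 .c (.cst
    5 .c (.var 1) .bot) .bot)]) (.hyp 0)) (.use 17 [(.var 1)])))) (.use 16 [(.var 2)]))))))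

/-- lemma `downApp` -/
def l36 : List Tp × Ex × Pf :=
  ([(.k .X .c), (.k .X .c)],
    (.imp (.cst 16 .c (.var 0) (.var 1)) (.cst 10 .c (.cst 19 .c (.var 0) .bot) (.cst 19 .c
    (.var 1) .bot))),
    (.impI (.cst 16 .c (.var 0) (.var 1)) (.foldI (.cst 10 .c (.cst 19 .c (.var 0) .bot) (.cst
    19 .c (.var 1) .bot)) (.allI .X' (.impI (.mem .B .c (.cst 19 .c (.var 1) .bot) (.cst 4 .c
    (.var 0) .bot)) (.impE (.impE (.impE (.use 6 [(.cst 18 .c (.cst 4 .c (.var 0) .bot) (.var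
    1)), (.cst 16 .c (.cst 4 .c (.var 0) .bot) (.var 1)), (.mem .B .c (.cst 19 .c (.var 2)
    .bot) (.cst 4 .c (.var 0) .bot))]) (.foldE (.foldE (.hyp 0)))) (.impI (.cst 18 .c (.cst 4
    .c (.var 0) .bot) (.var 1)) (.foldI (.mem .B .c (.cst 19 .c (.var 2) .bot) (.cst 4 .c (.var
    0) .bot)) (.foldI (.mem .B .c (.compr .B .c (.cst 2 .c (.cst 18 .c (.var 0) (.var 3)) (.cst
    16 .c (.var 0) (.var 3)))) (.cst 4 .c (.var 0) .bot)) (.impE (.use 4 [(.cst 18 .c (.cst 4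
    .c (.var 0) .bot) (.var 2)), (.cst 16 .c (.cst 4 .c (.var 0) .bot) (.var 2))]) (.impE
    (.impE (.use 19 [(.cst 4 .c (.var 0) .bot), (.var 1), (.var 2)]) (.hyp 0)) (.hyp 2)))))))
    (.impI (.cst 16 .c (.cst 4 .c (.var 0) .bot) (.var 1)) (.foldI (.mem .B .c (.cst 19 .c
    (.var 2) .bot) (.cst 4 .c (.var 0) .bot)) (.foldI (.mem .B .c (.compr .B .c (.cst 2 .c
    (.cst 18 .c (.var 0) (.var 3)) (.cst 16 .c (.var 0) (.var 3)))) (.cst 4 .c (.var 0) .bot))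
    (.impE (.use 5 [(.cst 18 .c (.cst 4 .c (.var 0) .bot) (.var 2)), (.cst 16 .c (.cst 4 .c
    (.var 0) .bot) (.var 2))]) (.impE (.impE (.use 15 [(.cst 4 .c (.var 0) .bot), (.var 1),
    (.var 2)]) (.hyp 0)) (.hyp 2))))))))))))

/-- lemma `GApp` -/
def l37 : List Tp × Ex × Pf :=
  ([(.k .X .c), (.k .X .c)],
    (.imp (.cst 16 .c (.var 0) (.var 1)) (.imp (.cst 23 .c (.var 0) .bot) (.cst 23 .c (.var 1)
    .bot))),
    (.impI (.cst 16 .c (.var 0) (.var 1)) (.impI (.cst 23 .c (.var 0) .bot) (.foldI (.cst 23 .c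
    (.var 1) .bot) (.impE (.impE (.use 1 [(.cst 21 .c (.var 1) .bot), (.cst 22 .c (.var 1)
    .bot)]) (.foldI (.cst 21 .c (.var 1) .bot) (.allI .B' (.impI (.cst 20 .c (.var 0) .bot)
    (.allI .X' (.impI (.cst 18 .c (.cst 4 .c (.var 0) .bot) (.var 3)) (.impE (.allE (.impE
    (.allE (.foldE (.impE (.use 2 [(.cst 21 .c (.var 2) .bot), (.cst 22 .c (.var 2) .bot)])
    (.foldE (.hyp 2)))) (.var 1)) (.hyp 1)) (.var 0)) (.impE (.impE (.use 19 [(.cst 4 .c (.var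
    0) .bot), (.var 3), (.var 2)]) (.hyp 0)) (.impE (.use 14 [(.var 2), (.var 3)]) (.hyp
    3)))))))))) (.foldI (.cst 22 .c (.var 1) .bot) (.allI .X' (.allI .X' (.impI (.cst 18 .c
    (.cst 4 .c (.var 0) .bot) (.cst 4 .c (.var 1) .bot)) (.impI (.cst 18 .c (.cst 4 .c (.var 1)
    .bot) (.var 3)) (.impE (.impE (.use 19 [(.cst 4 .c (.var 0) .bot), (.var 2), (.var 3)])
    (.impE (.impE (.allE (.allE (.foldE (.impE (.use 3 [(.cst 21 .c (.var 2) .bot), (.cst 22 .c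
    (.var 2) .bot)]) (.foldE (.hyp 2)))) (.var 1)) (.var 0)) (.hyp 1)) (.impE (.impE (.use 19
    [(.cst 4 .c (.var 1) .bot), (.var 3), (.var 2)]) (.hyp 0)) (.impE (.use 14 [(.var 2), (.var
    3)]) (.hyp 3))))) (.hyp 3))))))))))))

/-- lemma `jApp` -/
def l38 : List Tp × Ex × Pf :=
  ([(.k .X .c), (.k .X .c)],
    (.imp (.cst 16 .c (.var 0) (.var 1)) (.cst 16 .c (.cst 14 .c (.cst 13 .c (.cst 24 .c .bot
    .bot) (.cst 19 .c (.var 0) .bot)) .bot) (.cst 14 .c (.cst 13 .c (.cst 24 .c .bot .bot)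
    (.cst 19 .c (.var 1) .bot)) .bot))),
    (.impI (.cst 16 .c (.var 0) (.var 1)) (.impE (.use 27 [(.cst 13 .c (.cst 24 .c .bot .bot)
    (.cst 19 .c (.var 0) .bot)), (.cst 13 .c (.cst 24 .c .bot .bot) (.cst 19 .c (.var 1)
    .bot))]) (.impE (.impE (.use 31 [(.cst 24 .c .bot .bot), (.cst 19 .c (.var 0) .bot), (.cst
    19 .c (.var 1) .bot)]) (.impE (.use 36 [(.var 0), (.var 1)]) (.hyp 0))) (.impE (.use 36
    [(.var 1), (.var 0)]) (.impE (.use 14 [(.var 0), (.var 1)]) (.hyp 0)))))))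

/-- lemma `indP` -/
def l39 : List Tp × Ex × Pf :=
  ([(.k .B' .c), (.k .X .c)],
    (.imp (.cst 20 .c (.var 0) .bot) (.imp (.cst 21 .c (.var 1) .bot) (.mem .B' .c (.var 0)
    (.cst 4 .c (.cst 5 .c (.var 1) .bot) .bot)))),
    (.impI (.cst 20 .c (.var 0) .bot) (.impI (.cst 21 .c (.var 1) .bot) (.impE (.allE (.foldE
    (.hyp 1)) (.cst 5 .c (.var 1) .bot)) (.allI .X' (.impI (.cst 18 .c (.cst 4 .c (.var 0)
    .bot) (.cst 4 .c (.cst 5 .c (.var 2) .bot) .bot)) (.impE (.allE (.impE (.allE (.foldE (.hyp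
    1)) (.var 1)) (.hyp 2)) (.var 0)) (.impE (.impE (.use 19 [(.cst 4 .c (.var 0) .bot), (.cst
    4 .c (.cst 5 .c (.var 2) .bot) .bot), (.var 2)]) (.hyp 0)) (.use 16 [(.var 2)])))))))))

/-- lemma `irr` -/
def l40 : List Tp × Ex × Pf :=
  ([(.k .X .c)],
    (.imp (.cst 21 .c (.var 0) .bot) (.imp (.cst 18 .c (.var 0) (.var 0)) (.cst 0 .c .bot
    .bot))),
    (.impI (.cst 21 .c (.var 0) .bot) (.impI (.cst 18 .c (.var 0) (.var 0)) (.impE (.foldE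
    (.impE (.impE (.use 39 [(.compr .B' .c (.imp (.cst 18 .c (.var 0) (.var 0)) (.cst 0 .c .bot
    .bot))), (.var 0)]) (.foldI (.cst 20 .c (.compr .B' .c (.imp (.cst 18 .c (.var 0) (.var 0))
    (.cst 0 .c .bot .bot))) .bot) (.allI .X' (.impI (.all .X' .c (.imp (.cst 18 .c (.cst 4 .c
    (.var 0) .bot) (.cst 4 .c (.var 1) .bot)) (.mem .B' .c (.compr .B' .c (.imp (.cst 18 .c
    (.var 0) (.var 0)) (.cst 0 .c .bot .bot))) (.cst 4 .c (.var 0) .bot)))) (.foldI (.mem .B'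
    .c (.compr .B' .c (.imp (.cst 18 .c (.var 0) (.var 0)) (.cst 0 .c .bot .bot))) (.cst 4 .c
    (.var 0) .bot)) (.impI (.cst 18 .c (.cst 4 .c (.var 0) .bot) (.cst 4 .c (.var 0) .bot))
    (.impE (.foldE (.impE (.allE (.hyp 1) (.var 0)) (.hyp 0))) (.hyp 0)))))))) (.hyp 1)))
    (.impE (.impE (.use 19 [(.cst 4 .c (.cst 5 .c (.var 0) .bot) .bot), (.var 0), (.cst 4 .c
    (.cst 5 .c (.var 0) .bot) .bot)]) (.impE (.impE (.use 18 [(.var 0), (.var 0), (.cst 4 .c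
    (.cst 5 .c (.var 0) .bot) .bot)]) (.hyp 0)) (.use 17 [(.var 0)]))) (.use 17 [(.var 0)]))))))

/-- lemma `L0` -/
def l41 : List Tp × Ex × Pf :=
  ([(.k .Z .c)],
    (.cst 22 .c (.cst 14 .c (.var 0) .bot) .bot),
    (.foldI (.cst 22 .c (.cst 14 .c (.var 0) .bot) .bot) (.allI .X' (.allI .X' (.impI (.cst 18
    .c (.cst 4 .c (.var 0) .bot) (.cst 4 .c (.var 1) .bot)) (.impI (.cst 18 .c (.cst 4 .c (.var
    1) .bot) (.cst 14 .c (.var 2) .bot)) (.foldE (.impE (.allE (.impE (.use 33 [(.cst 4 .c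
    (.var 1) .bot), (.var 2)]) (.hyp 0)) (.compr .B' .c (.cst 18 .c (.cst 4 .c (.var 1) .bot)
    (.cst 14 .c (.var 3) .bot)))) (.allI .B' (.impI (.cst 1 .c (.mem .Z .c (.var 3) (.cst 6 .c
    (.var 0) .bot)) (.cst 16 .c (.cst 4 .c (.var 2) .bot) (.cst 14 .c (.cst 13 .c (.var 3)
    (.cst 6 .c (.var 0) .bot)) .bot))) (.foldI (.mem .B' .c (.compr .B' .c (.cst 18 .c (.cst 4
    .c (.var 2) .bot) (.cst 14 .c (.var 4) .bot))) (.compr .X .c .bot)) (.foldE (.impE (.allE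
    (.impE (.use 33 [(.cst 4 .c (.var 1) .bot), (.cst 13 .c (.var 3) (.cst 6 .c (.var 0)
    .bot))]) (.impE (.impE (.use 19 [(.cst 4 .c (.var 1) .bot), (.cst 4 .c (.var 2) .bot),
    (.cst 14 .c (.cst 13 .c (.var 3) (.cst 6 .c (.var 0) .bot)) .bot)]) (.hyp 2)) (.impE (.use
    3 [(.mem .Z .c (.var 3) (.cst 6 .c (.var 0) .bot)), (.cst 16 .c (.cst 4 .c (.var 2) .bot)
    (.cst 14 .c (.cst 13 .c (.var 3) (.cst 6 .c (.var 0) .bot)) .bot))]) (.hyp 0)))) (.compr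
    .B' .c (.cst 18 .c (.cst 4 .c (.var 2) .bot) (.cst 14 .c (.var 4) .bot)))) (.allI .B'
    (.impI (.cst 1 .c (.mem .Z .c (.cst 13 .c (.var 4) (.cst 6 .c (.var 1) .bot)) (.cst 6 .c
    (.var 0) .bot)) (.cst 16 .c (.cst 4 .c (.var 2) .bot) (.cst 14 .c (.cst 13 .c (.cst 13 .c
    (.var 4) (.cst 6 .c (.var 1) .bot)) (.cst 6 .c (.var 0) .bot)) .bot))) (.foldI (.mem .B' .c
    (.compr .B' .c (.cst 18 .c (.cst 4 .c (.var 3) .bot) (.cst 14 .c (.var 5) .bot))) (.compr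
    .X .c .bot)) (.impE (.impE (.use 34 [(.cst 4 .c (.var 2) .bot), (.var 4), (.var 0)]) (.impE
    (.use 2 [(.mem .Z .c (.var 4) (.cst 6 .c (.var 0) .bot)), (.cst 11 .c (.cst 6 .c (.var 0)
    .bot) (.cst 6 .c (.var 1) .bot))]) (.foldE (.foldE (.impE (.use 2 [(.mem .Z .c (.cst 13 .c
    (.var 4) (.cst 6 .c (.var 1) .bot)) (.cst 6 .c (.var 0) .bot)), (.cst 16 .c (.cst 4 .c
    (.var 2) .bot) (.cst 14 .c (.cst 13 .c (.cst 13 .c (.var 4) (.cst 6 .c (.var 1) .bot))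
    (.cst 6 .c (.var 0) .bot)) .bot))]) (.hyp 0)))))) (.impE (.impE (.use 15 [(.cst 4 .c (.var
    2) .bot), (.cst 14 .c (.cst 13 .c (.cst 13 .c (.var 4) (.cst 6 .c (.var 1) .bot)) (.cst 6
    .c (.var 0) .bot)) .bot), (.cst 14 .c (.cst 13 .c (.var 4) (.cst 6 .c (.var 0) .bot))
    .bot)]) (.impE (.use 3 [(.mem .Z .c (.cst 13 .c (.var 4) (.cst 6 .c (.var 1) .bot)) (.cst 6
    .c (.var 0) .bot)), (.cst 16 .c (.cst 4 .c (.var 2) .bot) (.cst 14 .c (.cst 13 .c (.cst 13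
    .c (.var 4) (.cst 6 .c (.var 1) .bot)) (.cst 6 .c (.var 0) .bot)) .bot))]) (.hyp 0)))
    (.impE (.use 27 [(.cst 13 .c (.cst 13 .c (.var 4) (.cst 6 .c (.var 1) .bot)) (.cst 6 .c
    (.var 0) .bot)), (.cst 13 .c (.var 4) (.cst 6 .c (.var 0) .bot))]) (.impE (.use 32 [(.var
    4), (.cst 6 .c (.var 0) .bot), (.cst 6 .c (.var 1) .bot)]) (.impE (.use 2 [(.cst 10 .c
    (.cst 6 .c (.var 0) .bot) (.cst 6 .c (.var 1) .bot)), (.imp (.cst 10 .c (.cst 6 .c (.var 1)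
    .bot) (.cst 6 .c (.var 0) .bot)) (.cst 0 .c .bot .bot))]) (.foldE (.impE (.use 3 [(.mem .Z
    .c (.var 4) (.cst 6 .c (.var 0) .bot)), (.cst 11 .c (.cst 6 .c (.var 0) .bot) (.cst 6 .c
    (.var 1) .bot))]) (.foldE (.foldE (.impE (.use 2 [(.mem .Z .c (.cst 13 .c (.var 4) (.cst 6
    .c (.var 1) .bot)) (.cst 6 .c (.var 0) .bot)), (.cst 16 .c (.cst 4 .c (.var 2) .bot) (.cst
    14 .c (.cst 13 .c (.cst 13 .c (.var 4) (.cst 6 .c (.var 1) .bot)) (.cst 6 .c (.var 0)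
    .bot)) .bot))]) (.hyp 0)))))))))))))))))))))))))))

/-- lemma `L1` -/
def l42 : List Tp × Ex × Pf :=
  ([(.k .X .c)],
    (.imp (.cst 18 .c (.var 0) (.cst 14 .c (.cst 24 .c .bot .bot) .bot)) (.all .B' .c (.imp
    (.all .X' .c (.imp (.cst 1 .c (.cst 23 .c (.cst 4 .c (.var 0) .bot) .bot) (.cst 16 .c (.var
    2) (.cst 14 .c (.cst 13 .c (.cst 24 .c .bot .bot) (.cst 19 .c (.cst 4 .c (.var 0) .bot)
    .bot)) .bot))) (.mem .B' .c (.var 1) (.compr .X .c .bot)))) (.mem .B' .c (.var 0) (.compr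
    .X .c .bot))))),
    (.impI (.cst 18 .c (.var 0) (.cst 14 .c (.cst 24 .c .bot .bot) .bot)) (.foldE (.impE (.allE
    (.impE (.use 33 [(.var 0), (.cst 24 .c .bot .bot)]) (.hyp 0)) (.compr .B' .c (.all .B' .c
    (.imp (.all .X' .c (.imp (.cst 1 .c (.cst 23 .c (.cst 4 .c (.var 0) .bot) .bot) (.cst 16 .c
    (.var 3) (.cst 14 .c (.cst 13 .c (.cst 24 .c .bot .bot) (.cst 19 .c (.cst 4 .c (.var 0)
    .bot) .bot)) .bot))) (.mem .B' .c (.var 1) (.compr .X .c .bot)))) (.mem .B' .c (.var 0)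
    (.compr .X .c .bot)))))) (.allI .B' (.impI (.cst 1 .c (.mem .Z .c (.cst 24 .c .bot .bot)
    (.cst 6 .c (.var 0) .bot)) (.cst 16 .c (.var 1) (.cst 14 .c (.cst 13 .c (.cst 24 .c .bot
    .bot) (.cst 6 .c (.var 0) .bot)) .bot))) (.foldI (.mem .B' .c (.compr .B' .c (.all .B' .c
    (.imp (.all .X' .c (.imp (.cst 1 .c (.cst 23 .c (.cst 4 .c (.var 0) .bot) .bot) (.cst 16 .c
    (.var 4) (.cst 14 .c (.cst 13 .c (.cst 24 .c .bot .bot) (.cst 19 .c (.cst 4 .c (.var 0)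
    .bot) .bot)) .bot))) (.mem .B' .c (.var 1) (.compr .X .c .bot)))) (.mem .B' .c (.var 0)
    (.compr .X .c .bot))))) (.compr .X .c .bot)) (.foldE (.impE (.allE (.foldE (.foldE (.impE
    (.use 2 [(.mem .Z .c (.cst 24 .c .bot .bot) (.cst 6 .c (.var 0) .bot)), (.cst 16 .c (.var
    1) (.cst 14 .c (.cst 13 .c (.cst 24 .c .bot .bot) (.cst 6 .c (.var 0) .bot)) .bot))]) (.hyp
    0)))) (.compr .B' .c (.all .B' .c (.imp (.all .X' .c (.imp (.cst 1 .c (.cst 23 .c (.cst 4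
    .c (.var 0) .bot) .bot) (.cst 16 .c (.var 4) (.cst 14 .c (.cst 13 .c (.cst 24 .c .bot .bot)
    (.cst 19 .c (.cst 4 .c (.var 0) .bot) .bot)) .bot))) (.mem .B' .c (.var 1) (.compr .X .c
    .bot)))) (.mem .B' .c (.var 0) (.compr .X .c .bot)))))) (.allI .X' (.impI (.cst 1 .c (.cst
    23 .c (.cst 4 .c (.var 0) .bot) .bot) (.cst 1 .c (.cst 10 .c (.cst 6 .c (.var 1) .bot)
    (.cst 19 .c (.cst 4 .c (.var 0) .bot) .bot)) (.cst 10 .c (.cst 19 .c (.cst 4 .c (.var 0)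
    .bot) .bot) (.cst 6 .c (.var 1) .bot)))) (.foldI (.mem .B' .c (.compr .B' .c (.all .B' .c
    (.imp (.all .X' .c (.imp (.cst 1 .c (.cst 23 .c (.cst 4 .c (.var 0) .bot) .bot) (.cst 16 .c
    (.var 5) (.cst 14 .c (.cst 13 .c (.cst 24 .c .bot .bot) (.cst 19 .c (.cst 4 .c (.var 0)
    .bot) .bot)) .bot))) (.mem .B' .c (.var 1) (.compr .X .c .bot)))) (.mem .B' .c (.var 0)
    (.compr .X .c .bot))))) (.compr .X .c .bot)) (.allI .B' (.impI (.all .X' .c (.imp (.cst 1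
    .c (.cst 23 .c (.cst 4 .c (.var 0) .bot) .bot) (.cst 16 .c (.var 4) (.cst 14 .c (.cst 13 .c
    (.cst 24 .c .bot .bot) (.cst 19 .c (.cst 4 .c (.var 0) .bot) .bot)) .bot))) (.mem .B' .c
    (.var 1) (.compr .X .c .bot)))) (.impE (.allE (.hyp 0) (.var 1)) (.impE (.impE (.use 1
    [(.cst 23 .c (.cst 4 .c (.var 1) .bot) .bot), (.cst 16 .c (.var 3) (.cst 14 .c (.cst 13 .c
    (.cst 24 .c .bot .bot) (.cst 19 .c (.cst 4 .c (.var 1) .bot) .bot)) .bot))]) (.impE (.use 2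
    [(.cst 23 .c (.cst 4 .c (.var 1) .bot) .bot), (.cst 1 .c (.cst 10 .c (.cst 6 .c (.var 2)
    .bot) (.cst 19 .c (.cst 4 .c (.var 1) .bot) .bot)) (.cst 10 .c (.cst 19 .c (.cst 4 .c (.var
    1) .bot) .bot) (.cst 6 .c (.var 2) .bot)))]) (.hyp 1))) (.impE (.impE (.use 15 [(.var 3),
    (.cst 14 .c (.cst 13 .c (.cst 24 .c .bot .bot) (.cst 6 .c (.var 2) .bot)) .bot), (.cst 14
    .c (.cst 13 .c (.cst 24 .c .bot .bot) (.cst 19 .c (.cst 4 .c (.var 1) .bot) .bot)) .bot)])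
    (.impE (.use 3 [(.mem .Z .c (.cst 24 .c .bot .bot) (.cst 6 .c (.var 2) .bot)), (.cst 16 .c
    (.var 3) (.cst 14 .c (.cst 13 .c (.cst 24 .c .bot .bot) (.cst 6 .c (.var 2) .bot)) .bot))])
    (.hyp 2))) (.impE (.use 27 [(.cst 13 .c (.cst 24 .c .bot .bot) (.cst 6 .c (.var 2) .bot)),
    (.cst 13 .c (.cst 24 .c .bot .bot) (.cst 19 .c (.cst 4 .c (.var 1) .bot) .bot))]) (.impE
    (.impE (.use 31 [(.cst 24 .c .bot .bot), (.cst 6 .c (.var 2) .bot), (.cst 19 .c (.cst 4 .c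
    (.var 1) .bot) .bot)]) (.impE (.use 2 [(.cst 10 .c (.cst 6 .c (.var 2) .bot) (.cst 19 .c
    (.cst 4 .c (.var 1) .bot) .bot)), (.cst 10 .c (.cst 19 .c (.cst 4 .c (.var 1) .bot) .bot)
    (.cst 6 .c (.var 2) .bot))]) (.impE (.use 3 [(.cst 23 .c (.cst 4 .c (.var 1) .bot) .bot),
    (.cst 1 .c (.cst 10 .c (.cst 6 .c (.var 2) .bot) (.cst 19 .c (.cst 4 .c (.var 1) .bot)
    .bot)) (.cst 10 .c (.cst 19 .c (.cst 4 .c (.var 1) .bot) .bot) (.cst 6 .c (.var 2)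
    .bot)))]) (.hyp 1)))) (.impE (.use 3 [(.cst 10 .c (.cst 6 .c (.var 2) .bot) (.cst 19 .c
    (.cst 4 .c (.var 1) .bot) .bot)), (.cst 10 .c (.cst 19 .c (.cst 4 .c (.var 1) .bot) .bot)
    (.cst 6 .c (.var 2) .bot))]) (.impE (.use 3 [(.cst 23 .c (.cst 4 .c (.var 1) .bot) .bot),
    (.cst 1 .c (.cst 10 .c (.cst 6 .c (.var 2) .bot) (.cst 19 .c (.cst 4 .c (.var 1) .bot)
    .bot)) (.cst 10 .c (.cst 19 .c (.cst 4 .c (.var 1) .bot) .bot) (.cst 6 .c (.var 2)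
    .bot)))]) (.hyp 1))))))))))))))))))))))

/-- lemma `SGmem` -/
def l43 : List Tp × Ex × Pf :=
  ([(.k .X .c)],
    (.imp (.cst 23 .c (.var 0) .bot) (.mem .Z .c (.cst 24 .c .bot .bot) (.cst 6 .c (.cst 7 .c
    (.cst 19 .c (.var 0) .bot) .bot) .bot))),
    (.impI (.cst 23 .c (.var 0) .bot) (.foldI (.mem .Z .c (.cst 24 .c .bot .bot) (.cst 6 .c
    (.cst 7 .c (.cst 19 .c (.var 0) .bot) .bot) .bot)) (.foldI (.mem .Z .c (.compr .Z .c (.all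
    .B' .c (.imp (.all .X' .c (.imp (.cst 1 .c (.cst 23 .c (.cst 4 .c (.var 0) .bot) .bot)
    (.cst 1 .c (.cst 10 .c (.var 2) (.cst 19 .c (.cst 4 .c (.var 0) .bot) .bot)) (.cst 10 .c
    (.cst 19 .c (.cst 4 .c (.var 0) .bot) .bot) (.var 2)))) (.mem .B' .c (.var 1) (.compr .X .c
    .bot)))) (.mem .B' .c (.var 0) (.compr .X .c .bot))))) (.cst 6 .c (.cst 7 .c (.cst 19 .c
    (.var 0) .bot) .bot) .bot)) (.allI .B' (.impI (.all .X' .c (.imp (.cst 1 .c (.cst 23 .c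
    (.cst 4 .c (.var 0) .bot) .bot) (.cst 1 .c (.cst 10 .c (.cst 6 .c (.cst 7 .c (.cst 19 .c
    (.var 2) .bot) .bot) .bot) (.cst 19 .c (.cst 4 .c (.var 0) .bot) .bot)) (.cst 10 .c (.cst
    19 .c (.cst 4 .c (.var 0) .bot) .bot) (.cst 6 .c (.cst 7 .c (.cst 19 .c (.var 2) .bot)
    .bot) .bot)))) (.mem .B' .c (.var 1) (.compr .X .c .bot)))) (.impE (.allE (.hyp 0) (.cst 5
    .c (.var 1) .bot)) (.impE (.impE (.use 1 [(.cst 23 .c (.cst 4 .c (.cst 5 .c (.var 1) .bot)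
    .bot) .bot), (.cst 1 .c (.cst 10 .c (.cst 6 .c (.cst 7 .c (.cst 19 .c (.var 1) .bot) .bot)
    .bot) (.cst 19 .c (.cst 4 .c (.cst 5 .c (.var 1) .bot) .bot) .bot)) (.cst 10 .c (.cst 19 .c
    (.cst 4 .c (.cst 5 .c (.var 1) .bot) .bot) .bot) (.cst 6 .c (.cst 7 .c (.cst 19 .c (.var 1)
    .bot) .bot) .bot)))]) (.impE (.impE (.use 37 [(.var 1), (.cst 4 .c (.cst 5 .c (.var 1)
    .bot) .bot)]) (.use 17 [(.var 1)])) (.hyp 1))) (.impE (.impE (.use 1 [(.cst 10 .c (.cst 6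
    .c (.cst 7 .c (.cst 19 .c (.var 1) .bot) .bot) .bot) (.cst 19 .c (.cst 4 .c (.cst 5 .c
    (.var 1) .bot) .bot) .bot)), (.cst 10 .c (.cst 19 .c (.cst 4 .c (.cst 5 .c (.var 1) .bot)
    .bot) .bot) (.cst 6 .c (.cst 7 .c (.cst 19 .c (.var 1) .bot) .bot) .bot))]) (.impE (.impE
    (.use 20 [(.cst 6 .c (.cst 7 .c (.cst 19 .c (.var 1) .bot) .bot) .bot), (.cst 19 .c (.var
    1) .bot), (.cst 19 .c (.cst 4 .c (.cst 5 .c (.var 1) .bot) .bot) .bot)]) (.use 21 [(.cst 19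
    .c (.var 1) .bot)])) (.impE (.use 36 [(.var 1), (.cst 4 .c (.cst 5 .c (.var 1) .bot)
    .bot)]) (.use 17 [(.var 1)])))) (.impE (.impE (.use 20 [(.cst 19 .c (.cst 4 .c (.cst 5 .c
    (.var 1) .bot) .bot) .bot), (.cst 19 .c (.var 1) .bot), (.cst 6 .c (.cst 7 .c (.cst 19 .c
    (.var 1) .bot) .bot) .bot)]) (.impE (.use 36 [(.cst 4 .c (.cst 5 .c (.var 1) .bot) .bot),
    (.var 1)]) (.use 16 [(.var 1)]))) (.use 22 [(.cst 19 .c (.var 1) .bot)])))))))))))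

/-- lemma `L1b` -/
def l44 : List Tp × Ex × Pf :=
  ([(.k .X .c)],
    (.imp (.cst 23 .c (.var 0) .bot) (.cst 18 .c (.cst 14 .c (.cst 13 .c (.cst 24 .c .bot .bot)
    (.cst 19 .c (.var 0) .bot)) .bot) (.cst 14 .c (.cst 24 .c .bot .bot) .bot))),
    (.impI (.cst 23 .c (.var 0) .bot) (.impE (.impE (.use 34 [(.cst 14 .c (.cst 13 .c (.cst 24
    .c .bot .bot) (.cst 19 .c (.var 0) .bot)) .bot), (.cst 24 .c .bot .bot), (.cst 7 .c (.cst
    19 .c (.var 0) .bot) .bot)]) (.impE (.use 43 [(.var 0)]) (.hyp 0))) (.impE (.use 27 [(.cst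
    13 .c (.cst 24 .c .bot .bot) (.cst 19 .c (.var 0) .bot)), (.cst 13 .c (.cst 24 .c .bot
    .bot) (.cst 6 .c (.cst 7 .c (.cst 19 .c (.var 0) .bot) .bot) .bot))]) (.impE (.impE (.use
    31 [(.cst 24 .c .bot .bot), (.cst 19 .c (.var 0) .bot), (.cst 6 .c (.cst 7 .c (.cst 19 .c
    (.var 0) .bot) .bot) .bot)]) (.use 22 [(.cst 19 .c (.var 0) .bot)])) (.use 21 [(.cst 19 .c
    (.var 0) .bot)]))))))

/-- lemma `L2` -/
def l45 : List Tp × Ex × Pf :=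
  ([(.k .X .c), (.k .X .c)],
    (.imp (.cst 18 .c (.var 0) (.cst 14 .c (.cst 13 .c (.cst 24 .c .bot .bot) (.cst 19 .c (.var
    1) .bot)) .bot)) (.all .B' .c (.imp (.all .X' .c (.imp (.cst 1 .c (.cst 18 .c (.cst 4 .c
    (.var 0) .bot) (.var 3)) (.cst 16 .c (.var 2) (.cst 14 .c (.cst 13 .c (.cst 24 .c .bot
    .bot) (.cst 19 .c (.cst 4 .c (.var 0) .bot) .bot)) .bot))) (.mem .B' .c (.var 1) (.compr .X
    .c .bot)))) (.mem .B' .c (.var 0) (.compr .X .c .bot))))),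
    (.impI (.cst 18 .c (.var 0) (.cst 14 .c (.cst 13 .c (.cst 24 .c .bot .bot) (.cst 19 .c
    (.var 1) .bot)) .bot)) (.foldE (.impE (.allE (.impE (.use 33 [(.var 0), (.cst 13 .c (.cst
    24 .c .bot .bot) (.cst 19 .c (.var 1) .bot))]) (.hyp 0)) (.compr .B' .c (.all .B' .c (.imp
    (.all .X' .c (.imp (.cst 1 .c (.cst 18 .c (.cst 4 .c (.var 0) .bot) (.var 4)) (.cst 16 .c
    (.var 3) (.cst 14 .c (.cst 13 .c (.cst 24 .c .bot .bot) (.cst 19 .c (.cst 4 .c (.var 0)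
    .bot) .bot)) .bot))) (.mem .B' .c (.var 1) (.compr .X .c .bot)))) (.mem .B' .c (.var 0)
    (.compr .X .c .bot)))))) (.allI .B' (.impI (.cst 1 .c (.mem .Z .c (.cst 13 .c (.cst 24 .c
    .bot .bot) (.cst 19 .c (.var 2) .bot)) (.cst 6 .c (.var 0) .bot)) (.cst 16 .c (.var 1)
    (.cst 14 .c (.cst 13 .c (.cst 13 .c (.cst 24 .c .bot .bot) (.cst 19 .c (.var 2) .bot))
    (.cst 6 .c (.var 0) .bot)) .bot))) (.foldI (.mem .B' .c (.compr .B' .c (.all .B' .c (.imp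
    (.all .X' .c (.imp (.cst 1 .c (.cst 18 .c (.cst 4 .c (.var 0) .bot) (.var 5)) (.cst 16 .c
    (.var 4) (.cst 14 .c (.cst 13 .c (.cst 24 .c .bot .bot) (.cst 19 .c (.cst 4 .c (.var 0)
    .bot) .bot)) .bot))) (.mem .B' .c (.var 1) (.compr .X .c .bot)))) (.mem .B' .c (.var 0)
    (.compr .X .c .bot))))) (.compr .X .c .bot)) (.foldE (.impE (.allE (.foldE (.foldE (.impE
    (.use 2 [(.mem .Z .c (.cst 24 .c .bot .bot) (.cst 6 .c (.var 0) .bot)), (.cst 11 .c (.cst 6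
    .c (.var 0) .bot) (.cst 19 .c (.var 2) .bot))]) (.foldE (.foldE (.impE (.use 2 [(.mem .Z .c
    (.cst 13 .c (.cst 24 .c .bot .bot) (.cst 19 .c (.var 2) .bot)) (.cst 6 .c (.var 0) .bot)),
    (.cst 16 .c (.var 1) (.cst 14 .c (.cst 13 .c (.cst 13 .c (.cst 24 .c .bot .bot) (.cst 19 .c
    (.var 2) .bot)) (.cst 6 .c (.var 0) .bot)) .bot))]) (.hyp 0))))))) (.compr .B' .c (.all .B'
    .c (.imp (.all .X' .c (.imp (.cst 1 .c (.cst 18 .c (.cst 4 .c (.var 0) .bot) (.var 5))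
    (.cst 16 .c (.var 4) (.cst 14 .c (.cst 13 .c (.cst 24 .c .bot .bot) (.cst 19 .c (.cst 4 .c
    (.var 0) .bot) .bot)) .bot))) (.mem .B' .c (.var 1) (.compr .X .c .bot)))) (.mem .B' .c
    (.var 0) (.compr .X .c .bot)))))) (.allI .X' (.impI (.cst 1 .c (.cst 23 .c (.cst 4 .c (.var
    0) .bot) .bot) (.cst 1 .c (.cst 10 .c (.cst 6 .c (.var 1) .bot) (.cst 19 .c (.cst 4 .c
    (.var 0) .bot) .bot)) (.cst 10 .c (.cst 19 .c (.cst 4 .c (.var 0) .bot) .bot) (.cst 6 .c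
    (.var 1) .bot)))) (.foldI (.mem .B' .c (.compr .B' .c (.all .B' .c (.imp (.all .X' .c (.imp
    (.cst 1 .c (.cst 18 .c (.cst 4 .c (.var 0) .bot) (.var 6)) (.cst 16 .c (.var 5) (.cst 14 .c
    (.cst 13 .c (.cst 24 .c .bot .bot) (.cst 19 .c (.cst 4 .c (.var 0) .bot) .bot)) .bot)))
    (.mem .B' .c (.var 1) (.compr .X .c .bot)))) (.mem .B' .c (.var 0) (.compr .X .c .bot)))))
    (.compr .X .c .bot)) (.allI .B' (.impI (.all .X' .c (.imp (.cst 1 .c (.cst 18 .c (.cst 4 .c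
    (.var 0) .bot) (.var 5)) (.cst 16 .c (.var 4) (.cst 14 .c (.cst 13 .c (.cst 24 .c .bot
    .bot) (.cst 19 .c (.cst 4 .c (.var 0) .bot) .bot)) .bot))) (.mem .B' .c (.var 1) (.compr .X
    .c .bot)))) (.impE (.allE (.hyp 0) (.var 1)) (.impE (.impE (.use 1 [(.cst 18 .c (.cst 4 .c
    (.var 1) .bot) (.var 4)), (.cst 16 .c (.var 3) (.cst 14 .c (.cst 13 .c (.cst 24 .c .bot
    .bot) (.cst 19 .c (.cst 4 .c (.var 1) .bot) .bot)) .bot))]) (.impE (.impE (.impE (.use 6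
    [(.cst 18 .c (.cst 4 .c (.var 1) .bot) (.var 4)), (.cst 16 .c (.cst 4 .c (.var 1) .bot)
    (.var 4)), (.cst 18 .c (.cst 4 .c (.var 1) .bot) (.var 4))]) (.foldE (.foldE (.impE (.allE
    (.foldE (.impE (.impE (.use 20 [(.cst 19 .c (.cst 4 .c (.var 1) .bot) .bot), (.cst 6 .c
    (.var 2) .bot), (.cst 19 .c (.var 4) .bot)]) (.impE (.use 3 [(.cst 10 .c (.cst 6 .c (.var
    2) .bot) (.cst 19 .c (.cst 4 .c (.var 1) .bot) .bot)), (.cst 10 .c (.cst 19 .c (.cst 4 .c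
    (.var 1) .bot) .bot) (.cst 6 .c (.var 2) .bot))]) (.impE (.use 3 [(.cst 23 .c (.cst 4 .c
    (.var 1) .bot) .bot), (.cst 1 .c (.cst 10 .c (.cst 6 .c (.var 2) .bot) (.cst 19 .c (.cst 4
    .c (.var 1) .bot) .bot)) (.cst 10 .c (.cst 19 .c (.cst 4 .c (.var 1) .bot) .bot) (.cst 6 .c
    (.var 2) .bot)))]) (.hyp 1)))) (.impE (.use 2 [(.cst 10 .c (.cst 6 .c (.var 2) .bot) (.cst
    19 .c (.var 4) .bot)), (.imp (.cst 10 .c (.cst 19 .c (.var 4) .bot) (.cst 6 .c (.var 2)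
    .bot)) (.cst 0 .c .bot .bot))]) (.foldE (.impE (.use 3 [(.mem .Z .c (.cst 24 .c .bot .bot)
    (.cst 6 .c (.var 2) .bot)), (.cst 11 .c (.cst 6 .c (.var 2) .bot) (.cst 19 .c (.var 4)
    .bot))]) (.foldE (.foldE (.impE (.use 2 [(.mem .Z .c (.cst 13 .c (.cst 24 .c .bot .bot)
    (.cst 19 .c (.var 4) .bot)) (.cst 6 .c (.var 2) .bot)), (.cst 16 .c (.var 3) (.cst 14 .c
    (.cst 13 .c (.cst 13 .c (.cst 24 .c .bot .bot) (.cst 19 .c (.var 4) .bot)) (.cst 6 .c (.var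
    2) .bot)) .bot))]) (.hyp 2))))))))) (.var 1)) (.foldI (.mem .B .c (.cst 19 .c (.cst 4 .c
    (.var 1) .bot) .bot) (.cst 4 .c (.var 1) .bot)) (.foldI (.mem .B .c (.compr .B .c (.cst 2
    .c (.cst 18 .c (.var 0) (.cst 4 .c (.var 2) .bot)) (.cst 16 .c (.var 0) (.cst 4 .c (.var 2)
    .bot)))) (.cst 4 .c (.var 1) .bot)) (.impE (.use 5 [(.cst 18 .c (.cst 4 .c (.var 1) .bot)
    (.cst 4 .c (.var 1) .bot)), (.cst 16 .c (.cst 4 .c (.var 1) .bot) (.cst 4 .c (.var 1)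
    .bot))]) (.use 13 [(.cst 4 .c (.var 1) .bot)])))))))) (.impI (.cst 18 .c (.cst 4 .c (.var
    1) .bot) (.var 4)) (.hyp 0))) (.impI (.cst 16 .c (.cst 4 .c (.var 1) .bot) (.var 4)) (.impE
    (.use 0 [(.cst 18 .c (.cst 4 .c (.var 1) .bot) (.var 4))]) (.impE (.impE (.use 3 [(.cst 10
    .c (.cst 6 .c (.var 2) .bot) (.cst 19 .c (.var 4) .bot)), (.imp (.cst 10 .c (.cst 19 .c
    (.var 4) .bot) (.cst 6 .c (.var 2) .bot)) (.cst 0 .c .bot .bot))]) (.foldE (.impE (.use 3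
    [(.mem .Z .c (.cst 24 .c .bot .bot) (.cst 6 .c (.var 2) .bot)), (.cst 11 .c (.cst 6 .c
    (.var 2) .bot) (.cst 19 .c (.var 4) .bot))]) (.foldE (.foldE (.impE (.use 2 [(.mem .Z .c
    (.cst 13 .c (.cst 24 .c .bot .bot) (.cst 19 .c (.var 4) .bot)) (.cst 6 .c (.var 2) .bot)),
    (.cst 16 .c (.var 3) (.cst 14 .c (.cst 13 .c (.cst 13 .c (.cst 24 .c .bot .bot) (.cst 19 .c
    (.var 4) .bot)) (.cst 6 .c (.var 2) .bot)) .bot))]) (.hyp 3))))))) (.impE (.impE (.use 20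
    [(.cst 19 .c (.var 4) .bot), (.cst 19 .c (.cst 4 .c (.var 1) .bot) .bot), (.cst 6 .c (.var
    2) .bot)]) (.impE (.use 36 [(.var 4), (.cst 4 .c (.var 1) .bot)]) (.impE (.use 14 [(.cst 4
    .c (.var 1) .bot), (.var 4)]) (.hyp 0)))) (.impE (.use 3 [(.cst 10 .c (.cst 6 .c (.var 2)
    .bot) (.cst 19 .c (.cst 4 .c (.var 1) .bot) .bot)), (.cst 10 .c (.cst 19 .c (.cst 4 .c
    (.var 1) .bot) .bot) (.cst 6 .c (.var 2) .bot))]) (.impE (.use 3 [(.cst 23 .c (.cst 4 .c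
    (.var 1) .bot) .bot), (.cst 1 .c (.cst 10 .c (.cst 6 .c (.var 2) .bot) (.cst 19 .c (.cst 4
    .c (.var 1) .bot) .bot)) (.cst 10 .c (.cst 19 .c (.cst 4 .c (.var 1) .bot) .bot) (.cst 6 .c
    (.var 2) .bot)))]) (.hyp 2))))))))) (.impE (.impE (.use 15 [(.var 3), (.cst 14 .c (.cst 13
    .c (.cst 13 .c (.cst 24 .c .bot .bot) (.cst 19 .c (.var 4) .bot)) (.cst 6 .c (.var 2)
    .bot)) .bot), (.cst 14 .c (.cst 13 .c (.cst 24 .c .bot .bot) (.cst 19 .c (.cst 4 .c (.var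
    1) .bot) .bot)) .bot)]) (.impE (.use 3 [(.mem .Z .c (.cst 13 .c (.cst 24 .c .bot .bot)
    (.cst 19 .c (.var 4) .bot)) (.cst 6 .c (.var 2) .bot)), (.cst 16 .c (.var 3) (.cst 14 .c
    (.cst 13 .c (.cst 13 .c (.cst 24 .c .bot .bot) (.cst 19 .c (.var 4) .bot)) (.cst 6 .c (.var
    2) .bot)) .bot))]) (.hyp 2))) (.impE (.use 27 [(.cst 13 .c (.cst 13 .c (.cst 24 .c .bot
    .bot) (.cst 19 .c (.var 4) .bot)) (.cst 6 .c (.var 2) .bot)), (.cst 13 .c (.cst 24 .c .bot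
    .bot) (.cst 19 .c (.cst 4 .c (.var 1) .bot) .bot))]) (.impE (.impE (.use 24 [(.cst 13 .c
    (.cst 13 .c (.cst 24 .c .bot .bot) (.cst 19 .c (.var 4) .bot)) (.cst 6 .c (.var 2) .bot)),
    (.cst 13 .c (.cst 24 .c .bot .bot) (.cst 6 .c (.var 2) .bot)), (.cst 13 .c (.cst 24 .c .bot
    .bot) (.cst 19 .c (.cst 4 .c (.var 1) .bot) .bot))]) (.impE (.use 32 [(.cst 24 .c .bot
    .bot), (.cst 6 .c (.var 2) .bot), (.cst 19 .c (.var 4) .bot)]) (.impE (.use 2 [(.cst 10 .c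
    (.cst 6 .c (.var 2) .bot) (.cst 19 .c (.var 4) .bot)), (.imp (.cst 10 .c (.cst 19 .c (.var
    4) .bot) (.cst 6 .c (.var 2) .bot)) (.cst 0 .c .bot .bot))]) (.foldE (.impE (.use 3 [(.mem
    .Z .c (.cst 24 .c .bot .bot) (.cst 6 .c (.var 2) .bot)), (.cst 11 .c (.cst 6 .c (.var 2)
    .bot) (.cst 19 .c (.var 4) .bot))]) (.foldE (.foldE (.impE (.use 2 [(.mem .Z .c (.cst 13 .c
    (.cst 24 .c .bot .bot) (.cst 19 .c (.var 4) .bot)) (.cst 6 .c (.var 2) .bot)), (.cst 16 .c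
    (.var 3) (.cst 14 .c (.cst 13 .c (.cst 13 .c (.cst 24 .c .bot .bot) (.cst 19 .c (.var 4)
    .bot)) (.cst 6 .c (.var 2) .bot)) .bot))]) (.hyp 2))))))))) (.impE (.impE (.use 31 [(.cst
    24 .c .bot .bot), (.cst 6 .c (.var 2) .bot), (.cst 19 .c (.cst 4 .c (.var 1) .bot) .bot)])
    (.impE (.use 2 [(.cst 10 .c (.cst 6 .c (.var 2) .bot) (.cst 19 .c (.cst 4 .c (.var 1) .bot)
    .bot)), (.cst 10 .c (.cst 19 .c (.cst 4 .c (.var 1) .bot) .bot) (.cst 6 .c (.var 2)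
    .bot))]) (.impE (.use 3 [(.cst 23 .c (.cst 4 .c (.var 1) .bot) .bot), (.cst 1 .c (.cst 10
    .c (.cst 6 .c (.var 2) .bot) (.cst 19 .c (.cst 4 .c (.var 1) .bot) .bot)) (.cst 10 .c (.cst
    19 .c (.cst 4 .c (.var 1) .bot) .bot) (.cst 6 .c (.var 2) .bot)))]) (.hyp 1)))) (.impE
    (.use 3 [(.cst 10 .c (.cst 6 .c (.var 2) .bot) (.cst 19 .c (.cst 4 .c (.var 1) .bot)
    .bot)), (.cst 10 .c (.cst 19 .c (.cst 4 .c (.var 1) .bot) .bot) (.cst 6 .c (.var 2)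
    .bot))]) (.impE (.use 3 [(.cst 23 .c (.cst 4 .c (.var 1) .bot) .bot), (.cst 1 .c (.cst 10
    .c (.cst 6 .c (.var 2) .bot) (.cst 19 .c (.cst 4 .c (.var 1) .bot) .bot)) (.cst 10 .c (.cst
    19 .c (.cst 4 .c (.var 1) .bot) .bot) (.cst 6 .c (.var 2) .bot)))]) (.hyp
    1)))))))))))))))))))))))

/-- lemma `downLt` -/
def l46 : List Tp × Ex × Pf :=
  ([(.k .X .c), (.k .X .c)],
    (.imp (.cst 22 .c (.var 1) .bot) (.imp (.cst 18 .c (.var 0) (.var 1)) (.cst 10 .c (.cst 19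
    .c (.var 0) .bot) (.cst 19 .c (.var 1) .bot)))),
    (.impI (.cst 22 .c (.var 1) .bot) (.impI (.cst 18 .c (.var 0) (.var 1)) (.foldI (.cst 10 .c
    (.cst 19 .c (.var 0) .bot) (.cst 19 .c (.var 1) .bot)) (.allI .X' (.impI (.mem .B .c (.cst
    19 .c (.var 1) .bot) (.cst 4 .c (.var 0) .bot)) (.foldI (.mem .B .c (.cst 19 .c (.var 2)
    .bot) (.cst 4 .c (.var 0) .bot)) (.foldI (.mem .B .c (.compr .B .c (.cst 2 .c (.cst 18 .c
    (.var 0) (.var 3)) (.cst 16 .c (.var 0) (.var 3)))) (.cst 4 .c (.var 0) .bot)) (.impE (.use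
    4 [(.cst 18 .c (.cst 4 .c (.var 0) .bot) (.var 2)), (.cst 16 .c (.cst 4 .c (.var 0) .bot)
    (.var 2))]) (.impE (.impE (.impE (.use 6 [(.cst 18 .c (.cst 4 .c (.var 0) .bot) (.var 1)),
    (.cst 16 .c (.cst 4 .c (.var 0) .bot) (.var 1)), (.cst 18 .c (.cst 4 .c (.var 0) .bot)
    (.var 2))]) (.foldE (.foldE (.hyp 0)))) (.impI (.cst 18 .c (.cst 4 .c (.var 0) .bot) (.var
    1)) (.impE (.impE (.impE (.use 35 [(.var 2), (.var 1), (.cst 4 .c (.var 0) .bot)]) (.hyp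
    3)) (.hyp 0)) (.hyp 2)))) (.impI (.cst 16 .c (.cst 4 .c (.var 0) .bot) (.var 1)) (.impE
    (.impE (.use 18 [(.var 1), (.var 2), (.cst 4 .c (.var 0) .bot)]) (.hyp 2)) (.impE (.use 14
    [(.cst 4 .c (.var 0) .bot), (.var 1)]) (.hyp 0))))))))))))))

/-- lemma `L2b` -/
def l47 : List Tp × Ex × Pf :=
  ([(.k .X .c), (.k .X .c)],
    (.imp (.cst 23 .c (.var 0) .bot) (.imp (.cst 23 .c (.var 1) .bot) (.imp (.cst 18 .c (.var
    0) (.var 1)) (.cst 18 .c (.cst 14 .c (.cst 13 .c (.cst 24 .c .bot .bot) (.cst 19 .c (.var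
    0) .bot)) .bot) (.cst 14 .c (.cst 13 .c (.cst 24 .c .bot .bot) (.cst 19 .c (.var 1) .bot))
    .bot))))),
    (.impI (.cst 23 .c (.var 0) .bot) (.impI (.cst 23 .c (.var 1) .bot) (.impI (.cst 18 .c
    (.var 0) (.var 1)) (.impE (.impE (.use 34 [(.cst 14 .c (.cst 13 .c (.cst 24 .c .bot .bot)
    (.cst 19 .c (.var 0) .bot)) .bot), (.cst 13 .c (.cst 24 .c .bot .bot) (.cst 19 .c (.var 1)
    .bot)), (.cst 7 .c (.cst 19 .c (.var 0) .bot) .bot)]) (.foldI (.mem .Z .c (.cst 13 .c (.cst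
    24 .c .bot .bot) (.cst 19 .c (.var 1) .bot)) (.cst 6 .c (.cst 7 .c (.cst 19 .c (.var 0)
    .bot) .bot) .bot)) (.foldI (.mem .Z .c (.compr .Z .c (.cst 1 .c (.mem .Z .c (.cst 24 .c
    .bot .bot) (.var 0)) (.cst 11 .c (.var 0) (.cst 19 .c (.var 2) .bot)))) (.cst 6 .c (.cst 7
    .c (.cst 19 .c (.var 0) .bot) .bot) .bot)) (.impE (.impE (.use 1 [(.mem .Z .c (.cst 24 .c
    .bot .bot) (.cst 6 .c (.cst 7 .c (.cst 19 .c (.var 0) .bot) .bot) .bot)), (.cst 11 .c (.cst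
    6 .c (.cst 7 .c (.cst 19 .c (.var 0) .bot) .bot) .bot) (.cst 19 .c (.var 1) .bot))]) (.impE
    (.use 43 [(.var 0)]) (.hyp 2))) (.foldI (.cst 11 .c (.cst 6 .c (.cst 7 .c (.cst 19 .c (.var
    0) .bot) .bot) .bot) (.cst 19 .c (.var 1) .bot)) (.impE (.impE (.use 1 [(.cst 10 .c (.cst 6
    .c (.cst 7 .c (.cst 19 .c (.var 0) .bot) .bot) .bot) (.cst 19 .c (.var 1) .bot)), (.imp
    (.cst 10 .c (.cst 19 .c (.var 1) .bot) (.cst 6 .c (.cst 7 .c (.cst 19 .c (.var 0) .bot)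
    .bot) .bot)) (.cst 0 .c .bot .bot))]) (.impE (.impE (.use 20 [(.cst 6 .c (.cst 7 .c (.cst
    19 .c (.var 0) .bot) .bot) .bot), (.cst 19 .c (.var 0) .bot), (.cst 19 .c (.var 1) .bot)])
    (.use 21 [(.cst 19 .c (.var 0) .bot)])) (.impE (.impE (.use 46 [(.var 0), (.var 1)]) (.impE
    (.use 3 [(.cst 21 .c (.var 1) .bot), (.cst 22 .c (.var 1) .bot)]) (.foldE (.hyp 1)))) (.hyp
    0)))) (.impI (.cst 10 .c (.cst 19 .c (.var 1) .bot) (.cst 6 .c (.cst 7 .c (.cst 19 .c (.var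
    0) .bot) .bot) .bot)) (.impE (.impE (.use 40 [(.var 1)]) (.impE (.use 2 [(.cst 21 .c (.var
    1) .bot), (.cst 22 .c (.var 1) .bot)]) (.foldE (.hyp 2)))) (.impE (.impE (.impE (.use 6
    [(.cst 18 .c (.cst 4 .c (.cst 5 .c (.var 1) .bot) .bot) (.var 0)), (.cst 16 .c (.cst 4 .c
    (.cst 5 .c (.var 1) .bot) .bot) (.var 0)), (.cst 18 .c (.var 1) (.var 1))]) (.foldE (.foldE
    (.impE (.allE (.foldE (.impE (.impE (.use 20 [(.cst 19 .c (.var 1) .bot), (.cst 6 .c (.cst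
    7 .c (.cst 19 .c (.var 0) .bot) .bot) .bot), (.cst 19 .c (.var 0) .bot)]) (.hyp 0)) (.use
    21 [(.cst 19 .c (.var 0) .bot)]))) (.cst 5 .c (.var 1) .bot)) (.foldI (.mem .B .c (.cst 19
    .c (.var 1) .bot) (.cst 4 .c (.cst 5 .c (.var 1) .bot) .bot)) (.foldI (.mem .B .c (.compr
    .B .c (.cst 2 .c (.cst 18 .c (.var 0) (.var 2)) (.cst 16 .c (.var 0) (.var 2)))) (.cst 4 .c
    (.cst 5 .c (.var 1) .bot) .bot)) (.impE (.use 5 [(.cst 18 .c (.cst 4 .c (.cst 5 .c (.var 1)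
    .bot) .bot) (.var 1)), (.cst 16 .c (.cst 4 .c (.cst 5 .c (.var 1) .bot) .bot) (.var 1))])
    (.use 16 [(.var 1)])))))))) (.impI (.cst 18 .c (.cst 4 .c (.cst 5 .c (.var 1) .bot) .bot)
    (.var 0)) (.impE (.impE (.impE (.use 35 [(.var 1), (.var 0), (.var 1)]) (.impE (.use 3
    [(.cst 21 .c (.var 1) .bot), (.cst 22 .c (.var 1) .bot)]) (.foldE (.hyp 3)))) (.impE (.impE
    (.use 18 [(.cst 4 .c (.cst 5 .c (.var 1) .bot) .bot), (.var 0), (.var 1)]) (.hyp 0)) (.use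
    16 [(.var 1)]))) (.hyp 2)))) (.impI (.cst 16 .c (.cst 4 .c (.cst 5 .c (.var 1) .bot) .bot)
    (.var 0)) (.impE (.impE (.use 18 [(.var 0), (.var 1), (.var 1)]) (.hyp 2)) (.impE (.impE
    (.use 15 [(.var 0), (.cst 4 .c (.cst 5 .c (.var 1) .bot) .bot), (.var 1)]) (.impE (.use 14
    [(.cst 4 .c (.cst 5 .c (.var 1) .bot) .bot), (.var 0)]) (.hyp 0))) (.use 16 [(.var
    1)]))))))))))))) (.impE (.use 14 [(.cst 14 .c (.cst 13 .c (.cst 13 .c (.cst 24 .c .bot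
    .bot) (.cst 19 .c (.var 1) .bot)) (.cst 6 .c (.cst 7 .c (.cst 19 .c (.var 0) .bot) .bot)
    .bot)) .bot), (.cst 14 .c (.cst 13 .c (.cst 24 .c .bot .bot) (.cst 19 .c (.var 0) .bot))
    .bot)]) (.impE (.use 27 [(.cst 13 .c (.cst 13 .c (.cst 24 .c .bot .bot) (.cst 19 .c (.var
    1) .bot)) (.cst 6 .c (.cst 7 .c (.cst 19 .c (.var 0) .bot) .bot) .bot)), (.cst 13 .c (.cst
    24 .c .bot .bot) (.cst 19 .c (.var 0) .bot))]) (.impE (.impE (.use 24 [(.cst 13 .c (.cst 13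
    .c (.cst 24 .c .bot .bot) (.cst 19 .c (.var 1) .bot)) (.cst 6 .c (.cst 7 .c (.cst 19 .c
    (.var 0) .bot) .bot) .bot)), (.cst 13 .c (.cst 24 .c .bot .bot) (.cst 6 .c (.cst 7 .c (.cst
    19 .c (.var 0) .bot) .bot) .bot)), (.cst 13 .c (.cst 24 .c .bot .bot) (.cst 19 .c (.var 0)
    .bot))]) (.impE (.use 32 [(.cst 24 .c .bot .bot), (.cst 6 .c (.cst 7 .c (.cst 19 .c (.var
    0) .bot) .bot) .bot), (.cst 19 .c (.var 1) .bot)]) (.impE (.impE (.use 20 [(.cst 6 .c (.cst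
    7 .c (.cst 19 .c (.var 0) .bot) .bot) .bot), (.cst 19 .c (.var 0) .bot), (.cst 19 .c (.var
    1) .bot)]) (.use 21 [(.cst 19 .c (.var 0) .bot)])) (.impE (.impE (.use 46 [(.var 0), (.var
    1)]) (.impE (.use 3 [(.cst 21 .c (.var 1) .bot), (.cst 22 .c (.var 1) .bot)]) (.foldE (.hyp
    1)))) (.hyp 0))))) (.impE (.impE (.use 31 [(.cst 24 .c .bot .bot), (.cst 6 .c (.cst 7 .c
    (.cst 19 .c (.var 0) .bot) .bot) .bot), (.cst 19 .c (.var 0) .bot)]) (.use 21 [(.cst 19 .c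
    (.var 0) .bot)])) (.use 22 [(.cst 19 .c (.var 0) .bot)]))))))))))

/-- lemma `L3` -/
def l48 : List Tp × Ex × Pf :=
  ([(.k .X .c)],
    (.imp (.cst 21 .c (.var 0) .bot) (.cst 21 .c (.cst 14 .c (.cst 13 .c (.cst 24 .c .bot .bot)
    (.cst 19 .c (.var 0) .bot)) .bot) .bot)),
    (.impI (.cst 21 .c (.var 0) .bot) (.foldI (.cst 21 .c (.cst 14 .c (.cst 13 .c (.cst 24 .c
    .bot .bot) (.cst 19 .c (.var 0) .bot)) .bot) .bot) (.allI .B' (.impI (.cst 20 .c (.var 0)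
    .bot) (.allI .X' (.impI (.cst 18 .c (.cst 4 .c (.var 0) .bot) (.cst 14 .c (.cst 13 .c (.cst
    24 .c .bot .bot) (.cst 19 .c (.var 2) .bot)) .bot)) (.impE (.allE (.foldE (.impE (.impE
    (.use 39 [(.compr .B' .c (.all .X' .c (.imp (.cst 18 .c (.cst 4 .c (.var 0) .bot) (.cst 14
    .c (.cst 13 .c (.cst 24 .c .bot .bot) (.cst 19 .c (.var 1) .bot)) .bot)) (.mem .B' .c (.var
    3) (.cst 4 .c (.var 0) .bot))))), (.var 2)]) (.foldI (.cst 20 .c (.compr .B' .c (.all .X'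
    .c (.imp (.cst 18 .c (.cst 4 .c (.var 0) .bot) (.cst 14 .c (.cst 13 .c (.cst 24 .c .bot
    .bot) (.cst 19 .c (.var 1) .bot)) .bot)) (.mem .B' .c (.var 3) (.cst 4 .c (.var 0)
    .bot))))) .bot) (.allI .X' (.impI (.all .X' .c (.imp (.cst 18 .c (.cst 4 .c (.var 0) .bot)
    (.cst 4 .c (.var 1) .bot)) (.mem .B' .c (.compr .B' .c (.all .X' .c (.imp (.cst 18 .c (.cst
    4 .c (.var 0) .bot) (.cst 14 .c (.cst 13 .c (.cst 24 .c .bot .bot) (.cst 19 .c (.var 1)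
    .bot)) .bot)) (.mem .B' .c (.var 5) (.cst 4 .c (.var 0) .bot))))) (.cst 4 .c (.var 0)
    .bot)))) (.foldI (.mem .B' .c (.compr .B' .c (.all .X' .c (.imp (.cst 18 .c (.cst 4 .c
    (.var 0) .bot) (.cst 14 .c (.cst 13 .c (.cst 24 .c .bot .bot) (.cst 19 .c (.var 1) .bot))
    .bot)) (.mem .B' .c (.var 4) (.cst 4 .c (.var 0) .bot))))) (.cst 4 .c (.var 0) .bot))
    (.allI .X' (.impI (.cst 18 .c (.cst 4 .c (.var 0) .bot) (.cst 14 .c (.cst 13 .c (.cst 24 .c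
    .bot .bot) (.cst 19 .c (.cst 4 .c (.var 1) .bot) .bot)) .bot)) (.foldE (.impE (.allE (.impE
    (.use 45 [(.cst 4 .c (.var 0) .bot), (.cst 4 .c (.var 1) .bot)]) (.hyp 0)) (.compr .B' .c
    (.mem .B' .c (.var 4) (.cst 4 .c (.var 1) .bot)))) (.allI .X' (.impI (.cst 1 .c (.cst 18 .c
    (.cst 4 .c (.var 0) .bot) (.cst 4 .c (.var 2) .bot)) (.cst 16 .c (.cst 4 .c (.var 1) .bot)
    (.cst 14 .c (.cst 13 .c (.cst 24 .c .bot .bot) (.cst 19 .c (.cst 4 .c (.var 0) .bot) .bot))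
    .bot))) (.foldI (.mem .B' .c (.compr .B' .c (.mem .B' .c (.var 5) (.cst 4 .c (.var 2)
    .bot))) (.compr .X .c .bot)) (.impE (.allE (.foldE (.hyp 4)) (.var 1)) (.allI .X' (.impI
    (.cst 18 .c (.cst 4 .c (.var 0) .bot) (.cst 4 .c (.var 2) .bot)) (.impE (.allE (.foldE
    (.impE (.allE (.hyp 3) (.var 1)) (.impE (.use 2 [(.cst 18 .c (.cst 4 .c (.var 1) .bot)
    (.cst 4 .c (.var 3) .bot)), (.cst 16 .c (.cst 4 .c (.var 2) .bot) (.cst 14 .c (.cst 13 .c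
    (.cst 24 .c .bot .bot) (.cst 19 .c (.cst 4 .c (.var 1) .bot) .bot)) .bot))]) (.hyp 1))))
    (.var 0)) (.impE (.impE (.use 19 [(.cst 4 .c (.var 0) .bot), (.cst 4 .c (.var 2) .bot),
    (.cst 14 .c (.cst 13 .c (.cst 24 .c .bot .bot) (.cst 19 .c (.cst 4 .c (.var 1) .bot) .bot))
    .bot)]) (.hyp 0)) (.impE (.use 3 [(.cst 18 .c (.cst 4 .c (.var 1) .bot) (.cst 4 .c (.var 3)
    .bot)), (.cst 16 .c (.cst 4 .c (.var 2) .bot) (.cst 14 .c (.cst 13 .c (.cst 24 .c .bot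
    .bot) (.cst 19 .c (.cst 4 .c (.var 1) .bot) .bot)) .bot))]) (.hyp 1)))))))))))))))))))
    (.hyp 2))) (.var 0)) (.impE (.impE (.use 19 [(.cst 4 .c (.var 0) .bot), (.cst 14 .c (.cst
    13 .c (.cst 24 .c .bot .bot) (.cst 19 .c (.var 2) .bot)) .bot), (.cst 14 .c (.cst 13 .c
    (.cst 24 .c .bot .bot) (.cst 19 .c (.cst 4 .c (.cst 5 .c (.var 2) .bot) .bot) .bot))
    .bot)]) (.hyp 0)) (.impE (.use 38 [(.var 2), (.cst 4 .c (.cst 5 .c (.var 2) .bot) .bot)])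
    (.use 17 [(.var 2)])))))))))))

/-- lemma `L4` -/
def l49 : List Tp × Ex × Pf :=
  ([],
    (.cst 21 .c (.cst 14 .c (.cst 24 .c .bot .bot) .bot) .bot),
    (.foldI (.cst 21 .c (.cst 14 .c (.cst 24 .c .bot .bot) .bot) .bot) (.allI .B' (.impI (.cst
    20 .c (.var 0) .bot) (.allI .X' (.impI (.cst 18 .c (.cst 4 .c (.var 0) .bot) (.cst 14 .c
    (.cst 24 .c .bot .bot) .bot)) (.foldE (.impE (.allE (.impE (.use 42 [(.cst 4 .c (.var 0)
    .bot)]) (.hyp 0)) (.compr .B' .c (.mem .B' .c (.var 2) (.cst 4 .c (.var 1) .bot)))) (.allI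
    .X' (.impI (.cst 1 .c (.cst 23 .c (.cst 4 .c (.var 0) .bot) .bot) (.cst 16 .c (.cst 4 .c
    (.var 1) .bot) (.cst 14 .c (.cst 13 .c (.cst 24 .c .bot .bot) (.cst 19 .c (.cst 4 .c (.var
    0) .bot) .bot)) .bot))) (.foldI (.mem .B' .c (.compr .B' .c (.mem .B' .c (.var 3) (.cst 4
    .c (.var 2) .bot))) (.compr .X .c .bot)) (.impE (.allE (.foldE (.hyp 2)) (.var 1)) (.allI
    .X' (.impI (.cst 18 .c (.cst 4 .c (.var 0) .bot) (.cst 4 .c (.var 2) .bot)) (.impE (.allE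
    (.impE (.allE (.foldE (.impE (.use 48 [(.cst 4 .c (.var 1) .bot)]) (.impE (.use 2 [(.cst 21
    .c (.cst 4 .c (.var 1) .bot) .bot), (.cst 22 .c (.cst 4 .c (.var 1) .bot) .bot)]) (.foldE
    (.impE (.use 2 [(.cst 23 .c (.cst 4 .c (.var 1) .bot) .bot), (.cst 16 .c (.cst 4 .c (.var
    2) .bot) (.cst 14 .c (.cst 13 .c (.cst 24 .c .bot .bot) (.cst 19 .c (.cst 4 .c (.var 1)
    .bot) .bot)) .bot))]) (.hyp 1)))))) (.var 3)) (.hyp 3)) (.var 0)) (.impE (.impE (.use 19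
    [(.cst 4 .c (.var 0) .bot), (.cst 4 .c (.var 2) .bot), (.cst 14 .c (.cst 13 .c (.cst 24 .c
    .bot .bot) (.cst 19 .c (.cst 4 .c (.var 1) .bot) .bot)) .bot)]) (.hyp 0)) (.impE (.use 3
    [(.cst 23 .c (.cst 4 .c (.var 1) .bot) .bot), (.cst 16 .c (.cst 4 .c (.var 2) .bot) (.cst
    14 .c (.cst 13 .c (.cst 24 .c .bot .bot) (.cst 19 .c (.cst 4 .c (.var 1) .bot) .bot))
    .bot))]) (.hyp 1))))))))))))))))))

/-- lemma `L5` -/
def l50 : List Tp × Ex × Pf :=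
  ([(.k .X .c)],
    (.imp (.cst 23 .c (.var 0) .bot) (.imp (.cst 18 .c (.cst 14 .c (.cst 13 .c (.cst 24 .c .bot
    .bot) (.cst 19 .c (.var 0) .bot)) .bot) (.var 0)) (.cst 0 .c .bot .bot))),
    (.impI (.cst 23 .c (.var 0) .bot) (.impI (.cst 18 .c (.cst 14 .c (.cst 13 .c (.cst 24 .c
    .bot .bot) (.cst 19 .c (.var 0) .bot)) .bot) (.var 0)) (.impE (.impE (.foldE (.impE (.impE
    (.use 39 [(.compr .B' .c (.imp (.cst 23 .c (.var 0) .bot) (.imp (.cst 18 .c (.cst 14 .c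
    (.cst 13 .c (.cst 24 .c .bot .bot) (.cst 19 .c (.var 0) .bot)) .bot) (.var 0)) (.cst 0 .c
    .bot .bot)))), (.var 0)]) (.foldI (.cst 20 .c (.compr .B' .c (.imp (.cst 23 .c (.var 0)
    .bot) (.imp (.cst 18 .c (.cst 14 .c (.cst 13 .c (.cst 24 .c .bot .bot) (.cst 19 .c (.var 0)
    .bot)) .bot) (.var 0)) (.cst 0 .c .bot .bot)))) .bot) (.allI .X' (.impI (.all .X' .c (.imp
    (.cst 18 .c (.cst 4 .c (.var 0) .bot) (.cst 4 .c (.var 1) .bot)) (.mem .B' .c (.compr .B'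
    .c (.imp (.cst 23 .c (.var 0) .bot) (.imp (.cst 18 .c (.cst 14 .c (.cst 13 .c (.cst 24 .c
    .bot .bot) (.cst 19 .c (.var 0) .bot)) .bot) (.var 0)) (.cst 0 .c .bot .bot)))) (.cst 4 .c
    (.var 0) .bot)))) (.foldI (.mem .B' .c (.compr .B' .c (.imp (.cst 23 .c (.var 0) .bot)
    (.imp (.cst 18 .c (.cst 14 .c (.cst 13 .c (.cst 24 .c .bot .bot) (.cst 19 .c (.var 0)
    .bot)) .bot) (.var 0)) (.cst 0 .c .bot .bot)))) (.cst 4 .c (.var 0) .bot)) (.impI (.cst 23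
    .c (.cst 4 .c (.var 0) .bot) .bot) (.impI (.cst 18 .c (.cst 14 .c (.cst 13 .c (.cst 24 .c
    .bot .bot) (.cst 19 .c (.cst 4 .c (.var 0) .bot) .bot)) .bot) (.cst 4 .c (.var 0) .bot))
    (.impE (.impE (.foldE (.impE (.allE (.hyp 2) (.cst 5 .c (.cst 14 .c (.cst 13 .c (.cst 24 .c
    .bot .bot) (.cst 19 .c (.cst 4 .c (.var 0) .bot) .bot)) .bot) .bot)) (.impE (.impE (.use 18
    [(.cst 14 .c (.cst 13 .c (.cst 24 .c .bot .bot) (.cst 19 .c (.cst 4 .c (.var 0) .bot)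
    .bot)) .bot), (.cst 4 .c (.var 0) .bot), (.cst 4 .c (.cst 5 .c (.cst 14 .c (.cst 13 .c
    (.cst 24 .c .bot .bot) (.cst 19 .c (.cst 4 .c (.var 0) .bot) .bot)) .bot) .bot) .bot)])
    (.hyp 0)) (.use 17 [(.cst 14 .c (.cst 13 .c (.cst 24 .c .bot .bot) (.cst 19 .c (.cst 4 .c
    (.var 0) .bot) .bot)) .bot)])))) (.impE (.impE (.use 37 [(.cst 14 .c (.cst 13 .c (.cst 24
    .c .bot .bot) (.cst 19 .c (.cst 4 .c (.var 0) .bot) .bot)) .bot), (.cst 4 .c (.cst 5 .c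
    (.cst 14 .c (.cst 13 .c (.cst 24 .c .bot .bot) (.cst 19 .c (.cst 4 .c (.var 0) .bot) .bot))
    .bot) .bot) .bot)]) (.use 17 [(.cst 14 .c (.cst 13 .c (.cst 24 .c .bot .bot) (.cst 19 .c
    (.cst 4 .c (.var 0) .bot) .bot)) .bot)])) (.foldI (.cst 23 .c (.cst 14 .c (.cst 13 .c (.cst
    24 .c .bot .bot) (.cst 19 .c (.cst 4 .c (.var 0) .bot) .bot)) .bot) .bot) (.impE (.impE
    (.use 1 [(.cst 21 .c (.cst 14 .c (.cst 13 .c (.cst 24 .c .bot .bot) (.cst 19 .c (.cst 4 .c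
    (.var 0) .bot) .bot)) .bot) .bot), (.cst 22 .c (.cst 14 .c (.cst 13 .c (.cst 24 .c .bot
    .bot) (.cst 19 .c (.cst 4 .c (.var 0) .bot) .bot)) .bot) .bot)]) (.impE (.use 48 [(.cst 4
    .c (.var 0) .bot)]) (.impE (.use 2 [(.cst 21 .c (.cst 4 .c (.var 0) .bot) .bot), (.cst 22
    .c (.cst 4 .c (.var 0) .bot) .bot)]) (.foldE (.hyp 1))))) (.use 41 [(.cst 13 .c (.cst 24 .c
    .bot .bot) (.cst 19 .c (.cst 4 .c (.var 0) .bot) .bot))]))))) (.impE (.impE (.use 19 [(.cst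
    14 .c (.cst 13 .c (.cst 24 .c .bot .bot) (.cst 19 .c (.cst 4 .c (.cst 5 .c (.cst 14 .c
    (.cst 13 .c (.cst 24 .c .bot .bot) (.cst 19 .c (.cst 4 .c (.var 0) .bot) .bot)) .bot) .bot)
    .bot) .bot)) .bot), (.cst 14 .c (.cst 13 .c (.cst 24 .c .bot .bot) (.cst 19 .c (.cst 4 .c
    (.var 0) .bot) .bot)) .bot), (.cst 4 .c (.cst 5 .c (.cst 14 .c (.cst 13 .c (.cst 24 .c .bot
    .bot) (.cst 19 .c (.cst 4 .c (.var 0) .bot) .bot)) .bot) .bot) .bot)]) (.impE (.impE (.impE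
    (.use 47 [(.cst 4 .c (.cst 5 .c (.cst 14 .c (.cst 13 .c (.cst 24 .c .bot .bot) (.cst 19 .c
    (.cst 4 .c (.var 0) .bot) .bot)) .bot) .bot) .bot), (.cst 4 .c (.var 0) .bot)]) (.impE
    (.impE (.use 37 [(.cst 14 .c (.cst 13 .c (.cst 24 .c .bot .bot) (.cst 19 .c (.cst 4 .c
    (.var 0) .bot) .bot)) .bot), (.cst 4 .c (.cst 5 .c (.cst 14 .c (.cst 13 .c (.cst 24 .c .bot
    .bot) (.cst 19 .c (.cst 4 .c (.var 0) .bot) .bot)) .bot) .bot) .bot)]) (.use 17 [(.cst 14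
    .c (.cst 13 .c (.cst 24 .c .bot .bot) (.cst 19 .c (.cst 4 .c (.var 0) .bot) .bot)) .bot)]))
    (.foldI (.cst 23 .c (.cst 14 .c (.cst 13 .c (.cst 24 .c .bot .bot) (.cst 19 .c (.cst 4 .c
    (.var 0) .bot) .bot)) .bot) .bot) (.impE (.impE (.use 1 [(.cst 21 .c (.cst 14 .c (.cst 13
    .c (.cst 24 .c .bot .bot) (.cst 19 .c (.cst 4 .c (.var 0) .bot) .bot)) .bot) .bot), (.cst
    22 .c (.cst 14 .c (.cst 13 .c (.cst 24 .c .bot .bot) (.cst 19 .c (.cst 4 .c (.var 0) .bot)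
    .bot)) .bot) .bot)]) (.impE (.use 48 [(.cst 4 .c (.var 0) .bot)]) (.impE (.use 2 [(.cst 21
    .c (.cst 4 .c (.var 0) .bot) .bot), (.cst 22 .c (.cst 4 .c (.var 0) .bot) .bot)]) (.foldE
    (.hyp 1))))) (.use 41 [(.cst 13 .c (.cst 24 .c .bot .bot) (.cst 19 .c (.cst 4 .c (.var 0)
    .bot) .bot))]))))) (.hyp 1)) (.impE (.impE (.use 18 [(.cst 14 .c (.cst 13 .c (.cst 24 .c
    .bot .bot) (.cst 19 .c (.cst 4 .c (.var 0) .bot) .bot)) .bot), (.cst 4 .c (.var 0) .bot),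
    (.cst 4 .c (.cst 5 .c (.cst 14 .c (.cst 13 .c (.cst 24 .c .bot .bot) (.cst 19 .c (.cst 4 .c
    (.var 0) .bot) .bot)) .bot) .bot) .bot)]) (.hyp 0)) (.use 17 [(.cst 14 .c (.cst 13 .c (.cst
    24 .c .bot .bot) (.cst 19 .c (.cst 4 .c (.var 0) .bot) .bot)) .bot)])))) (.use 17 [(.cst 14
    .c (.cst 13 .c (.cst 24 .c .bot .bot) (.cst 19 .c (.cst 4 .c (.var 0) .bot) .bot))
    .bot)])))))))))) (.impE (.use 2 [(.cst 21 .c (.var 0) .bot), (.cst 22 .c (.var 0) .bot)])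
    (.foldE (.hyp 1))))) (.impE (.impE (.use 37 [(.var 0), (.cst 4 .c (.cst 5 .c (.var 0) .bot)
    .bot)]) (.use 17 [(.var 0)])) (.hyp 1))) (.impE (.impE (.use 19 [(.cst 14 .c (.cst 13 .c
    (.cst 24 .c .bot .bot) (.cst 19 .c (.cst 4 .c (.cst 5 .c (.var 0) .bot) .bot) .bot)) .bot),
    (.var 0), (.cst 4 .c (.cst 5 .c (.var 0) .bot) .bot)]) (.impE (.impE (.use 18 [(.cst 14 .c
    (.cst 13 .c (.cst 24 .c .bot .bot) (.cst 19 .c (.var 0) .bot)) .bot), (.var 0), (.cst 14 .c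
    (.cst 13 .c (.cst 24 .c .bot .bot) (.cst 19 .c (.cst 4 .c (.cst 5 .c (.var 0) .bot) .bot)
    .bot)) .bot)]) (.hyp 0)) (.impE (.use 38 [(.var 0), (.cst 4 .c (.cst 5 .c (.var 0) .bot)
    .bot)]) (.use 17 [(.var 0)])))) (.use 17 [(.var 0)]))))))

/-- lemma `GOm` -/
def l51 : List Tp × Ex × Pf :=
  ([],
    (.cst 23 .c (.cst 14 .c (.cst 24 .c .bot .bot) .bot) .bot),
    (.foldI (.cst 23 .c (.cst 14 .c (.cst 24 .c .bot .bot) .bot) .bot) (.impE (.impE (.use 1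
    [(.cst 21 .c (.cst 14 .c (.cst 24 .c .bot .bot) .bot) .bot), (.cst 22 .c (.cst 14 .c (.cst
    24 .c .bot .bot) .bot) .bot)]) (.use 49 [])) (.use 41 [(.cst 24 .c .bot .bot)]))))

/-- lemma `fin` -/
def l52 : List Tp × Ex × Pf :=
  ([],
    .bot,
    (.impE (.use 0 [.bot]) (.impE (.impE (.use 50 [(.cst 14 .c (.cst 24 .c .bot .bot) .bot)])
    (.use 51 [])) (.impE (.use 44 [(.cst 14 .c (.cst 24 .c .bot .bot) .bot)]) (.use 51 [])))))

/-- the lemmas -/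
def ls : List (List Tp × Ex × Pf) :=
  [l0, l1, l2, l3, l4, l5, l6, l7, l8, l9, l10, l11, l12, l13, l14, l15, l16, l17, l18, l19,
  l20, l21, l22, l23, l24, l25, l26, l27, l28, l29, l30, l31, l32, l33, l34, l35, l36, l37,
  l38, l39, l40, l41, l42, l43, l44, l45, l46, l47, l48, l49, l50, l51, l52]

theorem defs_ok : checkDefs [] ds = true := by decide +kernel

theorem lems_ok : checkLems ds [] ls = true := by decide +kernel

end Par

theorem exists_paradox : ∃ (ds : Defs) (ls : List (List Tp × Ex × Pf)),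
    checkDefs [] ds = true ∧ checkLems ds [] ls = true :=
  ⟨Par.ds, Par.ls, Par.defs_ok, Par.lems_ok⟩

end Crest.Agent.R298.Src
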