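import Crest.Agent.R298.Good

/-! Row 298: existence of a universal context for a finite sub-specification. -/

set_option autoImplicit false

namespace Crest.Agent.R298
open Crest.LogicCS.PTS Crest.LogicCS.PTS.Term

universe u
variable {S : Type u}

namespace UnivEx

/-! ### Sub-specifications -/

/-- `Q` is a sub-specification of `P`. -/
def SpecLe (Q P : Spec S) : Prop :=
  (∀ a b, Q.ax a b → P.ax a b) ∧ ∀ a b c, Q.rule a b c → P.rule a b c

/-- `Q` has finitely many axioms and rules. -/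
def SpecFin (Q : Spec S) : Prop :=
  {p : S × S | Q.ax p.1 p.2}.Finite ∧ {r : S × S × S | Q.rule r.1 r.2.1 r.2.2}.Finite

/-- Union of two specifications. -/
def specSup (Q R : Spec S) : Spec S :=
  ⟨fun a b => Q.ax a b ∨ R.ax a b, fun a b c => Q.rule a b c ∨ R.rule a b c⟩

theorem le_sup_left (Q R : Spec S) : SpecLe Q (specSup Q R) :=
  ⟨fun _ _ h => Or.inl h, fun _ _ _ h => Or.inl h⟩

theorem le_sup_right (Q R : Spec S) : SpecLe R (specSup Q R) :=
  ⟨fun _ _ h => Or.inr h, fun _ _ _ h => Or.inr h⟩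

theorem sup_le {Q R P : Spec S} (h : SpecLe Q P) (h' : SpecLe R P) : SpecLe (specSup Q R) P :=
  ⟨fun a b hab => hab.elim (h.1 a b) (h'.1 a b), fun a b c hab => hab.elim (h.2 a b c) (h'.2 a b c)⟩

theorem fin_sup {Q R : Spec S} (h : SpecFin Q) (h' : SpecFin R) : SpecFin (specSup Q R) :=
  ⟨(h.1.union h'.1).subset (fun _ hp => hp), (h.2.union h'.2).subset (fun _ hp => hp)⟩

theorem typed_mono {Q P : Spec S} (hle : SpecLe Q P) {Γ : List (Term S)} {M A : Term S}
    (h : Typed Q Γ M A) : Typed P Γ M A := by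
  induction h with
  | ax h => exact Typed.ax (hle.1 _ _ h)
  | start _ ih => exact Typed.start ih
  | weak _ _ ih1 ih2 => exact Typed.weak ih1 ih2
  | prod _ _ hr ih1 ih2 => exact Typed.prod ih1 ih2 (hle.2 _ _ _ hr)
  | abs _ _ ih1 ih2 => exact Typed.abs ih1 ih2
  | appl _ _ ih1 ih2 => exact Typed.appl ih1 ih2
  | conv _ _ hb ih1 ih2 => exact Typed.conv ih1 ih2 hb

theorem exists_fin_spec {P : Spec S} {Γ : List (Term S)} {M A : Term S} (h : Typed P Γ M A) :
    ∃ Q : Spec S, SpecLe Q P ∧ SpecFin Q ∧ Typed Q Γ M A := by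
  induction h with
  | @ax s₁ s₂ h =>
    refine ⟨⟨fun a b => a = s₁ ∧ b = s₂, fun _ _ _ => False⟩, ⟨?_, ?_⟩, ⟨?_, ?_⟩,
      Typed.ax ⟨rfl, rfl⟩⟩
    · rintro a b ⟨rfl, rfl⟩; exact h
    · intro a b c hf; exact hf.elim
    · refine (Set.finite_singleton (s₁, s₂)).subset ?_
      rintro ⟨a, b⟩ ⟨h1, h2⟩
      exact Prod.ext h1 h2
    · exact Set.finite_empty.subset (fun _ hf => hf)
  | start _ ih =>
    obtain ⟨Q, h1, h2, h3⟩ := ih
    exact ⟨Q, h1, h2, Typed.start h3⟩
  | weak _ _ ih1 ih2 =>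
    obtain ⟨Q, h1, h2, h3⟩ := ih1
    obtain ⟨R, k1, k2, k3⟩ := ih2
    exact ⟨specSup Q R, sup_le h1 k1, fin_sup h2 k2,
      Typed.weak (typed_mono (le_sup_left Q R) h3) (typed_mono (le_sup_right Q R) k3)⟩
  | @prod Γ A B s₁ s₂ s₃ _ _ hr ih1 ih2 =>
    obtain ⟨Q, h1, h2, h3⟩ := ih1
    obtain ⟨R, k1, k2, k3⟩ := ih2
    let T : Spec S := ⟨fun _ _ => False, fun a b c => a = s₁ ∧ b = s₂ ∧ c = s₃⟩
    have hT1 : SpecLe T P := by
      refine ⟨fun _ _ hf => hf.elim, ?_⟩
      rintro a b c ⟨rfl, rfl, rfl⟩; exact hr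
    have hT2 : SpecFin T := by
      refine ⟨Set.finite_empty.subset (fun _ hf => hf), ?_⟩
      refine (Set.finite_singleton (s₁, s₂, s₃)).subset ?_
      rintro ⟨a, b, c⟩ ⟨h1, h2, h3⟩
      exact Prod.ext h1 (Prod.ext h2 h3)
    refine ⟨specSup (specSup Q R) T, sup_le (sup_le h1 k1) hT1, fin_sup (fin_sup h2 k2) hT2, ?_⟩
    exact Typed.prod (typed_mono (le_sup_left _ T) (typed_mono (le_sup_left Q R) h3))
      (typed_mono (le_sup_left _ T) (typed_mono (le_sup_right Q R) k3)) (Or.inr ⟨rfl, rfl, rfl⟩)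
  | abs _ _ ih1 ih2 =>
    obtain ⟨Q, h1, h2, h3⟩ := ih1
    obtain ⟨R, k1, k2, k3⟩ := ih2
    exact ⟨specSup Q R, sup_le h1 k1, fin_sup h2 k2,
      Typed.abs (typed_mono (le_sup_left Q R) h3) (typed_mono (le_sup_right Q R) k3)⟩
  | appl _ _ ih1 ih2 =>
    obtain ⟨Q, h1, h2, h3⟩ := ih1
    obtain ⟨R, k1, k2, k3⟩ := ih2
    exact ⟨specSup Q R, sup_le h1 k1, fin_sup h2 k2,
      Typed.appl (typed_mono (le_sup_left Q R) h3) (typed_mono (le_sup_right Q R) k3)⟩
  | conv _ _ hb ih1 ih2 =>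
    obtain ⟨Q, h1, h2, h3⟩ := ih1
    obtain ⟨R, k1, k2, k3⟩ := ih2
    exact ⟨specSup Q R, sup_le h1 k1, fin_sup h2 k2,
      Typed.conv (typed_mono (le_sup_left Q R) h3) (typed_mono (le_sup_right Q R) k3) hb⟩

/-- The sort `s` has an inhabitant in some context. -/
def Inh (Q : Spec S) (s : S) : Prop := ∃ (G : List (Term S)) (A : Term S), Typed Q G A (sort s)

/-- Drop the rules whose first two sorts are not inhabited. -/
def prune (Q : Spec S) : Spec S :=
  ⟨Q.ax, fun a b c => Q.rule a b c ∧ Inh Q a ∧ Inh Q b⟩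

theorem prune_le (Q : Spec S) : SpecLe (prune Q) Q :=
  ⟨fun _ _ h => h, fun _ _ _ h => h.1⟩

theorem typed_prune {Q : Spec S} {Γ : List (Term S)} {M A : Term S} (h : Typed Q Γ M A) :
    Typed (prune Q) Γ M A := by
  induction h with
  | ax h => exact Typed.ax h
  | start _ ih => exact Typed.start ih
  | weak _ _ ih1 ih2 => exact Typed.weak ih1 ih2
  | prod h1 h2 hr ih1 ih2 => exact Typed.prod ih1 ih2 ⟨hr, ⟨_, _, h1⟩, ⟨_, _, h2⟩⟩
  | abs _ _ ih1 ih2 => exact Typed.abs ih1 ih2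
  | appl _ _ ih1 ih2 => exact Typed.appl ih1 ih2
  | conv _ _ hb ih1 ih2 => exact Typed.conv ih1 ih2 hb

theorem exists_ax {Q : Spec S} {Γ : List (Term S)} {M A : Term S} (h : Typed Q Γ M A) :
    ∃ s s', Q.ax s s' := by
  induction h with
  | ax h => exact ⟨_, _, h⟩
  | start _ ih => exact ih
  | weak _ _ ih1 _ => exact ih1
  | prod _ _ _ ih1 _ => exact ih1
  | abs _ _ ih1 _ => exact ih1
  | appl _ _ ih1 _ => exact ih1
  | conv _ _ _ ih1 _ => exact ih1

/-! ### Countability of the terms with sorts in a finite set -/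

/-- All sorts occurring in the term belong to `F`. -/
inductive FT (F : Set S) : Term S → Prop
  | var (i : ℕ) : FT F (var i)
  | sort {s : S} : s ∈ F → FT F (sort s)
  | app {M N : Term S} : FT F M → FT F N → FT F (app M N)
  | lam {M N : Term S} : FT F M → FT F N → FT F (lam M N)
  | pi {M N : Term S} : FT F M → FT F N → FT F (pi M N)

theorem ft_of_ty {Q : Spec S} {T : Ctx S} {M A : Term S} (h : Ty Q T M A) :
    FT {s | ∃ s', Q.ax s s'} M := by
  induction h with
  | ax h => exact FT.sort ⟨_, h⟩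
  | var i => exact FT.var i
  | pi _ _ _ ih1 ih2 => exact FT.pi ih1 ih2
  | lam _ _ ih1 ih2 =>
    cases ih2 with
    | pi hA _ => exact FT.lam hA ih1
  | app _ _ ih1 ih2 => exact FT.app ih1 ih2
  | conv _ _ _ ih1 _ => exact ih1

/-- A numerical code of a term, given a code of the sorts. -/
def enc (c : S → ℕ) : Term S → ℕ
  | var i => Nat.pair 0 i
  | sort s => Nat.pair 1 (c s)
  | app M N => Nat.pair 2 (Nat.pair (enc c M) (enc c N))
  | lam M N => Nat.pair 3 (Nat.pair (enc c M) (enc c N))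
  | pi M N => Nat.pair 4 (Nat.pair (enc c M) (enc c N))

theorem enc_anchor : type_of% @enc.eq_def := @enc.eq_def

theorem enc_inj {F : Set S} {c : S → ℕ} (hc : Set.InjOn c F) {M : Term S} (hM : FT F M) :
    ∀ {N : Term S}, FT F N → enc c M = enc c N → M = N := by
  induction hM with
  | var i =>
    intro N hN h
    cases hN <;> simp [enc, Nat.pair_eq_pair] at h
    rw [h]
  | sort hs =>
    intro N hN h
    cases hN with
    | sort ht =>
      simp only [enc, Nat.pair_eq_pair, true_and] at h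
      rw [hc hs ht h]
    | _ => simp [enc, Nat.pair_eq_pair] at h
  | app _ _ ih1 ih2 =>
    intro N hN h
    cases hN with
    | app h1 h2 =>
      simp only [enc, Nat.pair_eq_pair, true_and] at h
      rw [ih1 h1 h.1, ih2 h2 h.2]
    | _ => simp [enc, Nat.pair_eq_pair] at h
  | lam _ _ ih1 ih2 =>
    intro N hN h
    cases hN with
    | lam h1 h2 =>
      simp only [enc, Nat.pair_eq_pair, true_and] at h
      rw [ih1 h1 h.1, ih2 h2 h.2]
    | _ => simp [enc, Nat.pair_eq_pair] at h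
  | pi _ _ ih1 ih2 =>
    intro N hN h
    cases hN with
    | pi h1 h2 =>
      simp only [enc, Nat.pair_eq_pair, true_and] at h
      rw [ih1 h1 h.1, ih2 h2 h.2]
    | _ => simp [enc, Nat.pair_eq_pair] at h

theorem exists_enum {F : Set S} (hF : F.Countable) :
    ∃ e : ℕ → Term S, ∀ M, FT F M → ∀ n, ∃ i, n ≤ i ∧ e i = M := by
  classical
  obtain ⟨c, hc⟩ := Set.countable_iff_exists_injOn.1 hF
  refine ⟨fun i => if h : ∃ M, FT F M ∧ enc c M = (Nat.unpair i).1 then Classical.choose h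
    else var 0, ?_⟩
  intro M hM n
  refine ⟨Nat.pair (enc c M) n, Nat.right_le_pair _ _, ?_⟩
  have h : ∃ M', FT F M' ∧ enc c M' = (Nat.unpair (Nat.pair (enc c M) n)).1 :=
    ⟨M, hM, by simp⟩
  simp only [dif_pos h]
  have hs := Classical.choose_spec h
  exact enc_inj hc hs.1 hM (by simpa using hs.2)

/-! ### Finite support -/

/-- All free variables of `A` are below `n`. -/
def Bdd (n : ℕ) (A : Term S) : Prop :=
  ∀ ξ ζ : ℕ → ℕ, (∀ i < n, ξ i = ζ i) → ren ξ A = ren ζ A

theorem Bdd.mono {n m : ℕ} {A : Term S} (h : Bdd n A) (hnm : n ≤ m) : Bdd m A :=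
  fun ξ ζ hh => h ξ ζ (fun i hi => hh i (lt_of_lt_of_le hi hnm))

theorem bdd_sort (n : ℕ) (s : S) : Bdd n (sort s : Term S) := fun _ _ _ => rfl

theorem upr_agree {n : ℕ} {ξ ζ : ℕ → ℕ} (h : ∀ i < n, ξ i = ζ i) :
    ∀ i < n, upr ξ i = upr ζ i := by
  intro i hi
  cases i with
  | zero => rfl
  | succ i => simp [h i (by omega)]

theorem exists_bdd (A : Term S) : ∃ n, Bdd n A := by
  induction A with
  | var i => exact ⟨i + 1, fun ξ ζ h => by simp [h i (by omega)]⟩
  | sort s => exact ⟨0, bdd_sort 0 s⟩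
  | app M N ihM ihN =>
    obtain ⟨n, hn⟩ := ihM
    obtain ⟨m, hm⟩ := ihN
    refine ⟨max n m, fun ξ ζ h => ?_⟩
    simp only [ren_app]
    rw [hn.mono (le_max_left n m) ξ ζ h, hm.mono (le_max_right n m) ξ ζ h]
  | lam M N ihM ihN =>
    obtain ⟨n, hn⟩ := ihM
    obtain ⟨m, hm⟩ := ihN
    refine ⟨max n m, fun ξ ζ h => ?_⟩
    simp only [ren_lam]
    rw [hn.mono (le_max_left n m) ξ ζ h, hm.mono (le_max_right n m) _ _ (upr_agree h)]
  | pi M N ihM ihN =>
    obtain ⟨n, hn⟩ := ihM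
    obtain ⟨m, hm⟩ := ihN
    refine ⟨max n m, fun ξ ζ h => ?_⟩
    simp only [ren_pi]
    rw [hn.mono (le_max_left n m) ξ ζ h, hm.mono (le_max_right n m) _ _ (upr_agree h)]

/-- The judgement holds in every context that agrees with `T` below `n`. -/
def Stable (Q : Spec S) (T : Ctx S) (n : ℕ) (M A : Term S) : Prop :=
  ∀ T' : Ctx S, (∀ i < n, T' i = T i) → Ty Q T' M A

theorem Stable.mono {Q : Spec S} {T : Ctx S} {n m : ℕ} {M A : Term S} (h : Stable Q T n M A)
    (hnm : n ≤ m) : Stable Q T m M A :=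
  fun T' hh => h T' (fun i hi => hh i (lt_of_lt_of_le hi hnm))

theorem Stable.congr {Q : Spec S} {T T' : Ctx S} {n : ℕ} {M A : Term S} (h : Stable Q T n M A)
    (hT : ∀ i < n, T' i = T i) : Stable Q T' n M A :=
  fun T'' hh => h T'' (fun i hi => (hh i hi).trans (hT i hi))

theorem ext_agree {n : ℕ} {T T' : Ctx S} (h : ∀ i < n, T' i = T i) (A : Term S) :
    ∀ i < n, ext T' A i = ext T A i := by
  intro i hi
  cases i with
  | zero => rfl
  | succ i => simp [h i (by omega)]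

theorem exists_stable {Q : Spec S} {T : Ctx S} {M A : Term S} (h : Ty Q T M A) :
    ∃ n, Stable Q T n M A := by
  induction h with
  | ax h => exact ⟨0, fun _ _ => Ty.ax h⟩
  | var i =>
    refine ⟨i + 1, fun T' hT => ?_⟩
    rw [← hT i (by omega)]
    exact Ty.var i
  | pi _ _ hr ih1 ih2 =>
    obtain ⟨n, hn⟩ := ih1
    obtain ⟨m, hm⟩ := ih2
    exact ⟨max n m, fun T' hT => Ty.pi (hn.mono (le_max_left n m) T' hT)
      (hm.mono (le_max_right n m) _ (ext_agree hT _)) hr⟩
  | lam _ _ ih1 ih2 =>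
    obtain ⟨n, hn⟩ := ih1
    obtain ⟨m, hm⟩ := ih2
    exact ⟨max n m, fun T' hT => Ty.lam (hn.mono (le_max_left n m) _ (ext_agree hT _))
      (hm.mono (le_max_right n m) T' hT)⟩
  | app _ _ ih1 ih2 =>
    obtain ⟨n, hn⟩ := ih1
    obtain ⟨m, hm⟩ := ih2
    exact ⟨max n m, fun T' hT => Ty.app (hn.mono (le_max_left n m) T' hT)
      (hm.mono (le_max_right n m) T' hT)⟩
  | conv _ _ hb ih1 ih2 =>
    obtain ⟨n, hn⟩ := ih1
    obtain ⟨m, hm⟩ := ih2
    exact ⟨max n m, fun T' hT => Ty.conv (hn.mono (le_max_left n m) T' hT)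
      (hm.mono (le_max_right n m) T' hT) hb⟩

/-! ### The universal context -/

/-- `A` may be declared at position `n` of `T`. -/
def Ok (Q : Spec S) (T : Ctx S) (n : ℕ) (A : Term S) : Prop :=
  Bdd n A ∧ ∃ s, Stable Q T n A (sort s)

theorem ok_congr {Q : Spec S} {T T' : Ctx S} {n : ℕ} {A : Term S} (hT : ∀ i < n, T' i = T i) :
    Ok Q T n A ↔ Ok Q T' n A :=
  ⟨fun ⟨h1, s, h2⟩ => ⟨h1, s, h2.congr hT⟩,
    fun ⟨h1, s, h2⟩ => ⟨h1, s, h2.congr (fun i hi => (hT i hi).symm)⟩⟩

theorem exists_theta (Q : Spec S) (s0 : S) (e : ℕ → Term S) :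
    ∃ Θ : Ctx S, ∀ n, (Ok Q Θ n (e n) → Θ n = e n) ∧ (¬ Ok Q Θ n (e n) → Θ n = sort s0) := by
  classical
  obtain ⟨C, hC0, hCs⟩ : ∃ C : ℕ → Ctx S, C 0 = (fun _ => sort s0) ∧
      ∀ n, C (n + 1) = fun i => if i = n ∧ Ok Q (C n) n (e n) then e n else C n i :=
    ⟨fun n => Nat.rec (fun _ => sort s0)
      (fun n Cn => fun i => if i = n ∧ Ok Q Cn n (e n) then e n else Cn i) n, rfl, fun _ => rfl⟩
  have h1 : ∀ n i, n ≤ i → C n i = sort s0 := by
    intro n
    induction n with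
    | zero => intro i _; rw [hC0]
    | succ n ih =>
      intro i hi
      rw [hCs]
      have : ¬ (i = n ∧ Ok Q (C n) n (e n)) := fun h => by omega
      simp only [if_neg this]
      exact ih i (by omega)
  have h2 : ∀ n i, i < n → C n i = C (i + 1) i := by
    intro n
    induction n with
    | zero => intro i hi; omega
    | succ n ih =>
      intro i hi
      rcases Nat.lt_succ_iff_lt_or_eq.1 hi with hi | rfl
      · rw [hCs n]
        have : ¬ (i = n ∧ Ok Q (C n) n (e n)) := fun h => by omega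
        simp only [if_neg this]
        exact ih i hi
      · rfl
  refine ⟨fun i => C (i + 1) i, fun n => ?_⟩
  have hiff : Ok Q (fun i => C (i + 1) i) n (e n) ↔ Ok Q (C n) n (e n) :=
    ok_congr (fun i hi => h2 n i hi)
  rw [hiff]
  constructor
  · intro h
    show C (n + 1) n = e n
    rw [hCs]
    simp [h]
  · intro h
    show C (n + 1) n = sort s0
    rw [hCs]
    simp only [h, and_false, if_false]
    exact h1 n n le_rfl

/-! ### From function contexts to list contexts -/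

theorem typed_ax_of_valid {Q : Spec S} {D : List (Term S)} {M A : Term S} (h : Typed Q D M A)
    {s s' : S} (hs : Q.ax s s') : Typed Q D (sort s) (sort s') := by
  induction h with
  | ax _ => exact Typed.ax hs
  | start h ih => exact Typed.weak ih h
  | weak _ h ih _ => exact Typed.weak ih h
  | prod _ _ _ ih _ => exact ih
  | abs _ _ _ ih => exact ih
  | appl _ _ ih _ => exact ih
  | conv _ _ _ ih _ => exact ih

theorem typed_pi_dom {Q : Spec S} {D : List (Term S)} {X T : Term S} (h : Typed Q D X T) :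
    ∀ A B, X = pi A B → ∃ s, Typed Q D A (sort s) := by
  induction h with
  | ax _ => intro A B hX; cases hX
  | start _ _ => intro A B hX; cases hX
  | @weak Γ M B C s _ h2 ih1 _ =>
    intro A' B' hX
    cases M with
    | pi A0 B0 =>
      simp only [shift, Term.pi.injEq] at hX
      obtain ⟨t, ht⟩ := ih1 A0 B0 rfl
      refine ⟨t, ?_⟩
      rw [← hX.1]
      exact Typed.weak ht h2
    | var i => simp only [shift] at hX; split at hX <;> cases hX
    | sort s => simp [shift] at hX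
    | app _ _ => simp [shift] at hX
    | lam _ _ => simp [shift] at hX
  | prod h1 _ _ _ _ =>
    intro A B hX
    cases hX
    exact ⟨_, h1⟩
  | abs _ _ _ _ => intro A B hX; cases hX
  | appl _ _ _ _ => intro A B hX; cases hX
  | conv _ _ _ ih _ => exact ih

theorem typed_start' {Q : Spec S} {D : List (Term S)} {A : Term S} {s : S}
    (h : Typed Q D A (sort s)) : Typed Q (A :: D) (var 0) (wk A) := by
  rw [← shift_zero]; exact Typed.start h

theorem typed_weak' {Q : Spec S} {D : List (Term S)} {M B A : Term S} {s : S}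
    (h : Typed Q D M B) (h' : Typed Q D A (sort s)) : Typed Q (A :: D) (wk M) (wk B) := by
  rw [← shift_zero, ← shift_zero]; exact Typed.weak h h'

theorem ren_ctx_up {Q : Spec S} {T : Ctx S} {D : List (Term S)} {r : ℕ → ℕ}
    (hr : ∀ i, Typed Q D (var (r i)) (ren r (T i))) {A : Term S} {s : S}
    (hA : Typed Q D (ren r A) (sort s)) :
    ∀ i, Typed Q (ren r A :: D) (var (upr r i)) (ren (upr r) (ext T A i)) := by
  intro i
  cases i with
  | zero =>
    simp only [upr_zero, ext_zero, ren_upr_wk]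
    exact typed_start' hA
  | succ i =>
    simp only [upr_succ, ext_succ, ren_upr_wk]
    exact typed_weak' (hr i) hA

theorem transfer {Q : Spec S} {T : Ctx S} {M A : Term S} (h : Ty Q T M A) :
    ∀ (D : List (Term S)) (r : ℕ → ℕ), (∀ i, Typed Q D (var (r i)) (ren r (T i))) →
      Typed Q D (ren r M) (ren r A) := by
  induction h with
  | ax h => intro D r hr; exact typed_ax_of_valid (hr 0) h
  | var i => intro D r hr; exact hr i
  | pi _ _ hrule ih1 ih2 =>
    intro D r hr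
    have h1 := ih1 D r hr
    exact Typed.prod h1 (ih2 _ _ (ren_ctx_up hr h1)) hrule
  | lam _ _ ih1 ih2 =>
    intro D r hr
    have h2 := ih2 D r hr
    obtain ⟨t, ht⟩ := typed_pi_dom h2 _ _ rfl
    exact Typed.abs (ih1 _ _ (ren_ctx_up hr ht)) h2
  | app _ _ ih1 ih2 =>
    intro D r hr
    rw [ren_inst, ← subst_eq_inst]
    exact Typed.appl (ih1 D r hr) (ih2 D r hr)
  | conv _ _ hb ih1 ih2 =>
    intro D r hr
    exact Typed.conv (ih1 D r hr) (ih2 D r hr) (beq_ren r hb)

theorem exists_list {Q : Spec S} {s0 s0' : S} (h0 : Q.ax s0 s0') {Θ : Ctx S}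
    (hΘ : ∀ n, Ok Q Θ n (Θ n)) (n : ℕ) :
    ∃ (D : List (Term S)) (r : ℕ → ℕ),
      ∀ i, Typed Q D (var (r i)) (ren r (if i < n then Θ i else sort s0)) := by
  induction n with
  | zero =>
    refine ⟨[sort s0], fun _ => 0, fun i => ?_⟩
    simp only [Nat.not_lt_zero, if_false, ren_sort]
    exact typed_start' (Typed.ax h0)
  | succ n ih =>
    obtain ⟨D, r, hr⟩ := ih
    obtain ⟨hb, s, hs⟩ := hΘ n
    have hn : Typed Q D (ren r (Θ n)) (sort s) :=
      transfer (hs (fun i => if i < n then Θ i else sort s0) (fun i hi => if_pos hi)) D r hr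
    have hagree : ∀ i < n, (fun i => if i = n then 0 else r i + 1) i = (fun i => (r i).succ) i := by
      intro i hi
      simp [hi.ne]
    have hw : ∀ X : Term S, Bdd n X →
        ren (fun i => if i = n then 0 else r i + 1) X = wk (ren r X) := by
      intro X hX
      rw [hX _ _ hagree, wk, ren_ren]
    refine ⟨ren r (Θ n) :: D, fun i => if i = n then 0 else r i + 1, fun i => ?_⟩
    by_cases hi : i = n
    · subst hi
      simp only [if_true, Nat.lt_succ_self]
      rw [hw _ hb]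
      exact typed_start' hn
    · have e1 : (if i < n + 1 then Θ i else sort s0) = (if i < n then Θ i else sort s0) := by
        by_cases hlt : i < n
        · rw [if_pos hlt, if_pos (by omega)]
        · rw [if_neg hlt, if_neg (by omega)]
      have hb' : Bdd n (if i < n then Θ i else sort s0) := by
        by_cases hlt : i < n
        · rw [if_pos hlt]; exact (hΘ i).1.mono hlt.le
        · rw [if_neg hlt]; exact bdd_sort _ _
      simp only [if_neg hi]
      rw [e1, hw _ hb']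
      exact typed_weak' (hr i) hn

/-! ### From list contexts to function contexts -/

/-- The function context of a list context. -/
def ctxOf (s0 : S) (G : List (Term S)) : Ctx S :=
  G.foldr (fun A T => ext T A) (fun _ => sort s0)

@[simp] theorem ctxOf_nil (s0 : S) : ctxOf s0 [] = fun _ => sort s0 := rfl
@[simp] theorem ctxOf_cons (s0 : S) (A : Term S) (G : List (Term S)) :
    ctxOf s0 (A :: G) = ext (ctxOf s0 G) A := rfl

theorem ty_of_typed {Q : Spec S} (s0 : S) {G : List (Term S)} {M A : Term S}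
    (h : Typed Q G M A) : Ty Q (ctxOf s0 G) M A := by
  induction h with
  | ax h => exact Ty.ax h
  | start _ _ => rw [shift_zero]; exact Ty.var 0
  | weak _ _ ih _ => rw [shift_zero, shift_zero]; exact ih.wk _
  | prod _ _ hr ih1 ih2 => exact Ty.pi ih1 ih2 hr
  | abs _ _ ih1 ih2 => exact Ty.lam ih1 ih2
  | appl _ _ ih1 ih2 => rw [subst_eq_inst]; exact Ty.app ih1 ih2
  | conv _ _ hb ih1 ih2 => exact Ty.conv ih1 ih2 hb

theorem embed_cons {Q : Spec S} {Θ : Ctx S}
    (huniv : ∀ {A : Term S} {s : S}, Ty Q Θ A (sort s) → ∃ i, Θ i = A) {T : Ctx S}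
    {A : Term S} {s : S} (hA : Ty Q T A (sort s)) {ξ : ℕ → ℕ}
    (hξ : ∀ i, Θ (ξ i) = ren ξ (T i)) :
    ∃ ζ : ℕ → ℕ, ∀ i, Θ (ζ i) = ren ζ (ext T A i) := by
  obtain ⟨j, hj⟩ := huniv (hA.ren hξ)
  refine ⟨scons j ξ, fun i => ?_⟩
  cases i with
  | zero => simp [hj, wk, ren_ren]
  | succ i => simp [hξ i, wk, ren_ren]

theorem exists_embed {Q : Spec S} {s0 s0' : S} (h0 : Q.ax s0 s0') {Θ : Ctx S}
    (huniv : ∀ {A : Term S} {s : S}, Ty Q Θ A (sort s) → ∃ i, Θ i = A)
    {G : List (Term S)} {M A : Term S} (h : Typed Q G M A) :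
    ∃ ξ : ℕ → ℕ, ∀ i, Θ (ξ i) = ren ξ (ctxOf s0 G i) := by
  induction h with
  | ax _ =>
    obtain ⟨j, hj⟩ := huniv (Ty.ax h0)
    exact ⟨fun _ => j, fun _ => hj⟩
  | start h ih =>
    obtain ⟨ξ, hξ⟩ := ih
    exact embed_cons huniv (ty_of_typed s0 h) hξ
  | weak _ h ih _ =>
    obtain ⟨ξ, hξ⟩ := ih
    exact embed_cons huniv (ty_of_typed s0 h) hξ
  | prod _ _ _ ih _ => exact ih
  | abs _ _ _ ih => exact ih
  | appl _ _ ih _ => exact ih
  | conv _ _ _ ih _ => exact ih

end UnivEx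

open UnivEx in
theorem exists_univ (P : Spec S)
    (h : ∀ (Γ : List (Term S)) (M : Term S), Legal P Γ M → WN M)
    {Γ : List (Term S)} {M A : Term S} (hM : Typed P Γ M A) :
    ∃ (P' : Spec S) (U : Univ P') (ξ : ℕ → ℕ), Ty P' U.Θ (ren ξ M) (ren ξ A) := by
  obtain ⟨P1, hle1, hfin1, hM1⟩ := exists_fin_spec hM
  have hM' : Typed (prune P1) Γ M A := typed_prune hM1
  obtain ⟨s0, s0', h0⟩ := exists_ax hM'
  have hF : ({s | ∃ s', (prune P1).ax s s'} : Set S).Countable := by
    refine ((hfin1.1.image Prod.fst).subset ?_).countable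
    rintro s ⟨s', hs⟩
    exact ⟨(s, s'), hs, rfl⟩
  obtain ⟨e, he⟩ := exists_enum hF
  obtain ⟨Θ, hΘ⟩ := exists_theta (prune P1) s0 e
  have hok : ∀ n, Ok (prune P1) Θ n (Θ n) := by
    intro n
    by_cases hn : Ok (prune P1) Θ n (e n)
    · rw [(hΘ n).1 hn]; exact hn
    · rw [(hΘ n).2 hn]
      exact ⟨bdd_sort _ _, s0', fun _ _ => Ty.ax h0⟩
  have huniv : ∀ {B : Term S} {s : S}, Ty (prune P1) Θ B (sort s) →
      ∀ n, ∃ i, n ≤ i ∧ Θ i = B := by
    intro B s hB n
    obtain ⟨n1, hn1⟩ := exists_bdd B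
    obtain ⟨n2, hn2⟩ := exists_stable hB
    obtain ⟨i, hi, hei⟩ := he B (ft_of_ty hB) (max n (max n1 n2))
    refine ⟨i, by omega, ?_⟩
    rw [(hΘ i).1, hei]
    rw [hei]
    exact ⟨hn1.mono (by omega), s, hn2.mono (by omega)⟩
  have huniv' : ∀ {B : Term S} {s : S}, Ty (prune P1) Θ B (sort s) → ∃ i, Θ i = B := by
    intro B s hB
    obtain ⟨i, _, hi⟩ := huniv hB 0
    exact ⟨i, hi⟩
  have hemb : ∀ {G : List (Term S)} {N B : Term S}, Typed (prune P1) G N B →
      ∃ ξ : ℕ → ℕ, Ty (prune P1) Θ (ren ξ N) (ren ξ B) := by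
    intro G N B hN
    obtain ⟨ξ, hξ⟩ := exists_embed h0 huniv' hN
    exact ⟨ξ, (ty_of_typed s0 hN).ren hξ⟩
  have hinh : ∀ s, Inh P1 s → ∃ B, Ty (prune P1) Θ B (sort s) := by
    rintro s ⟨G, B, hB⟩
    obtain ⟨ξ, hξ⟩ := hemb (typed_prune hB)
    exact ⟨_, hξ⟩
  refine ⟨prune P1, ⟨Θ, ?_, ?_, huniv, ?_, ?_⟩, hemb hM'⟩
  · intro i
    obtain ⟨_, s, hs⟩ := hok i
    exact ⟨s, hs Θ (fun _ _ => rfl)⟩
  · intro N B hN
    obtain ⟨n, hn⟩ := exists_stable hN
    obtain ⟨D, r, hr⟩ := exists_list h0 hok n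
    have h1 := transfer (hn (fun i => if i < n then Θ i else sort s0) (fun i hi => if_pos hi))
      D r hr
    have h2 : Typed P D (ren r N) (ren r B) := typed_mono hle1 (typed_mono (prune_le P1) h1)
    exact wn_ren_iff.1 (h D _ ⟨_, Or.inl h2⟩)
  · intro s₁ s₂ s₃ hr
    exact ⟨hinh _ hr.2.1, hinh _ hr.2.2⟩
  · exact hfin1.2.subset (fun _ hr => hr.1)

end Crest.Agent.R298
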