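import Crest.Agent.R298.Check
import Crest.Agent.R298.Paradox
import Crest.Agent.R298.ModelV
import Crest.Agent.R298.ModelD
import Crest.Agent.R298.UnivEx

/-! Row 298: assembly. -/

set_option autoImplicit false

namespace Crest.Agent.R298
open Crest.LogicCS.PTS Crest.LogicCS.PTS.Term

universe u
variable {S : Type u} {P : Spec S}

theorem app_all (U : Univ P) (t : S) : App U t := by
  induction t using (wf_strict (edge_targets_finite U)).induction with
  | _ s0 ih =>
    have hD : ∀ t, InD P s0 t → App U t := fun t ht => ih t ht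
    by_cases hvc : VC P s0
    · obtain ⟨m⟩ := exists_modelV U s0 hD hvc
      exact m.app
    · by_cases hc : Config P s0
      · obtain ⟨L, ⟨K⟩⟩ := exists_kinds U hvc hc
        obtain ⟨ds, ls, h, h'⟩ := Src.exists_paradox
        exact (K.false_of_check h h').elim
      · obtain ⟨m⟩ := exists_modelD U s0 hD hc
        exact m.app

theorem sn_of_wn (P : Spec S) (h : ∀ (Γ : List (Term S)) (M : Term S), Legal P Γ M → WN M)
    (Γ : List (Term S)) (M : Term S) (hM : Legal P Γ M) : SN M := by
  obtain ⟨N, hN | hN⟩ := hM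
  · obtain ⟨P', U, ξ, hT⟩ := exists_univ P h hN
    exact (sna_ren_iff.1 (sna_of_app (app_all U) hT)).sn
  · obtain ⟨P', U, ξ, hT⟩ := exists_univ P h hN
    rcases hT.correct U.sorted with ⟨s, hs⟩ | ⟨s, hs⟩
    · have : SNa (ren ξ M) := hs ▸ sna_sort s
      exact (sna_ren_iff.1 this).sn
    · exact (sna_ren_iff.1 (sna_of_app (app_all U) hs)).sn

end Crest.Agent.R298
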