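import Crest.Agent.R298.Ty

/-! Row 298: the universal context and the contexts that embed in it. -/

set_option autoImplicit false

namespace Crest.Agent.R298
open Crest.LogicCS.PTS Crest.LogicCS.PTS.Term

universe u
variable {S : Type u} {P : Spec S} {Γ Δ : Ctx S}

/-! ### The universal context -/

/-- A universal context for a finite specification all of whose typable terms are weakly
normalizing. -/
structure Univ (P : Spec S) where
  /-- the context -/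
  Θ : Ctx S
  sorted : Sorted P Θ
  wn : ∀ {M A : Term S}, Ty P Θ M A → WN M
  univ : ∀ {A : Term S} {s : S}, Ty P Θ A (sort s) → ∀ n, ∃ i, n ≤ i ∧ Θ i = A
  inh : ∀ {s₁ s₂ s₃ : S}, P.rule s₁ s₂ s₃ →
    (∃ A, Ty P Θ A (sort s₁)) ∧ ∃ B, Ty P Θ B (sort s₂)
  fin : {r : S × S × S | P.rule r.1 r.2.1 r.2.2}.Finite

/-- Contexts that embed in the universal context. -/
def Good (U : Univ P) (Γ : Ctx S) : Prop :=
  Sorted P Γ ∧ ∃ ξ : ℕ → ℕ, SubTy P U.Θ (fun i => var (ξ i)) Γ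

variable {U : Univ P}

theorem Univ.exists_var (U : Univ P) {A : Term S} {s : S} (h : Ty P U.Θ A (sort s)) :
    ∃ i, Ty P U.Θ (var i) A := by
  obtain ⟨i, -, hi⟩ := U.univ h 0
  exact ⟨i, hi ▸ Ty.var i⟩

theorem good_univ (U : Univ P) : Good U U.Θ :=
  ⟨U.sorted, fun i => i, subTy_id⟩

theorem Good.ext {A : Term S} {s : S} (h : Good U Γ) (hA : Ty P Γ A (sort s)) :
    Good U (ext Γ A) := by
  obtain ⟨hs, ξ, hξ⟩ := h
  obtain ⟨i, hi⟩ := U.exists_var (hA.sub_sort hξ)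
  refine ⟨hs.ext hA, scons i ξ, ?_⟩
  rw [scons_comp (fun j => (var j : Term S)) i ξ]
  exact hξ.cons hi

theorem Good.wn {M T : Term S} (hΓ : Good U Γ) (h : Ty P Γ M T) : WN M := by
  obtain ⟨-, ξ, hξ⟩ := hΓ
  have := U.wn (h.sub hξ)
  rw [← ren_eq_sub] at this
  exact wn_ren_iff.1 this

theorem Good.wn_type {M T : Term S} (hΓ : Good U Γ) (h : Ty P Γ M T) : WN T := by
  rcases h.correct hΓ.1 with ⟨s, rfl⟩ | ⟨s, hs⟩
  · exact ⟨sort s, Relation.ReflTransGen.refl, fun N hN => by cases hN⟩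
  · exact hΓ.wn hs

theorem Good.ty_nf {M T : Term S} (hΓ : Good U Γ) (h : Ty P Γ M T) : Ty P Γ (nf M) T :=
  h.sr_star hΓ.1 (nf_star (hΓ.wn h))

theorem Good.ty_nf_type {M T : Term S} (hΓ : Good U Γ) (h : Ty P Γ M T) :
    Ty P Γ M (nf T) :=
  h.conv_star hΓ.1 (nf_star (hΓ.wn_type h))

/-- For a sorted type `T`, membership in `T` and in `nf T` agree. -/
theorem Good.ty_nf_iff {M T : Term S} {s : S} (hΓ : Good U Γ) (hT : Ty P Γ T (sort s)) :
    Ty P Γ M (nf T) ↔ Ty P Γ M T :=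
  ⟨fun h => h.conv hT (nf_beq (hΓ.wn hT)), hΓ.ty_nf_type⟩

/-- Shape of the normal form of an instantiated product. -/
theorem Good.nf_sub_pi {σ : ℕ → Term S} {A B : Term S} {s : S} (hΔ : Good U Δ)
    (hσ : SubTy P Δ σ Γ) (h : Ty P Γ (pi A B) (sort s)) :
    nf (sub σ (pi A B)) = pi (nf (sub σ A)) (nf (sub (up σ) B)) ∧
      ∀ a, nf (inst a (nf (sub (up σ) B))) = nf (sub (scons a σ) B) := by
  have hw : WN (pi (sub σ A) (sub (up σ) B)) := hΔ.wn (h.sub_sort hσ)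
  refine ⟨nf_pi hw, fun a => ?_⟩
  rw [inst, nf_sub_nf _ (wn_pi_iff.1 hw).2, ← inst, inst_sub_up]

end Crest.Agent.R298
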