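import Crest.Agent.R298.Good

/-! Row 298: sorts along a neutral spine (generic form of `neu_res_sort`). -/

set_option autoImplicit false

namespace Crest.Agent.R298
open Crest.LogicCS.PTS Crest.LogicCS.PTS.Term

universe u
variable {S : Type u} {P : Spec S}

/-- If `R` is closed under passing from the sort of a product to the sort of its codomain and holds
for a sort of the normalized type of the head of a neutral term, it holds for a sort of the
normalized type of the term. -/
theorem neu_res_sort_gen {U : Univ P} {Γ : Ctx S} (hΓ : Good U Γ) (R : S → Prop)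
    (hR : ∀ s₁ s₂ s₃, P.rule s₁ s₂ s₃ → R s₃ → R s₂) {M T : Term S} {p : S} (h0 : R p)
    (hn : Neu M) (hT : Ty P Γ M T) (hp : Ty P Γ (nf (Γ (hd M))) (sort p)) :
    ∃ p', R p' ∧ Ty P Γ (nf T) (sort p') := by
  induction hn generalizing T with
  | var i => exact ⟨p, h0, nf_congr hT.gen_var ▸ hp⟩
  | app N _ ih =>
    obtain ⟨A, B, hM, hN, hB⟩ := hT.gen_app
    obtain ⟨p', hp', h1⟩ := ih hM hp
    have hw := hΓ.wn_type hM
    rw [nf_pi hw] at h1
    obtain ⟨s₁, s₂, hr, -, h2⟩ := h1.gen_pi_sort
    have h3 := hΓ.ty_nf (h2.inst (hΓ.ty_nf_type hN))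
    rw [inst_sort, nf_congr (beq_trans (beq_inst (beq_refl N) (nf_beq (wn_pi_iff.1 hw).2)) hB)]
      at h3
    exact ⟨s₂, hR _ _ _ hr hp', h3⟩

end Crest.Agent.R298
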