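import Crest.Agent.R298.Good

/-! Row 298: the two graphs on sorts, parities, and the obstruction configuration. -/

set_option autoImplicit false

namespace Crest.Agent.R298
open Crest.LogicCS.PTS Crest.LogicCS.PTS.Term

universe u
variable {S : Type u}

/-- Edges of the sort graph: from the sort of a product to the sort of its codomain (label
`false`) and to the sort of its domain (label `true`). -/
inductive Edge (P : Spec S) : S → Bool → S → Prop
  | res {s₁ s₂ s₃ : S} : P.rule s₁ s₂ s₃ → Edge P s₃ false s₂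
  | arg {s₁ s₂ s₃ : S} : P.rule s₁ s₂ s₃ → Edge P s₃ true s₁

/-- Walks with their parity. -/
inductive Walk (E : S → Bool → S → Prop) : S → Bool → S → Prop
  | nil (s : S) : Walk E s false s
  | cons {s t r : S} {b c : Bool} : E s b t → Walk E t c r → Walk E s (xor b c) r

/-- Reachability. -/
def Reach (E : S → Bool → S → Prop) (s t : S) : Prop := ∃ b, Walk E s b t

/-- Mutual reachability. -/
def Mut (E : S → Bool → S → Prop) (s t : S) : Prop := Reach E s t ∧ Reach E t s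

/-- Descendants of `s0`. -/
def InL (P : Spec S) (s0 t : S) : Prop := Reach (Edge P) s0 t
/-- The strongly connected component of `s0`. -/
def InC (P : Spec S) (s0 t : S) : Prop := Mut (Edge P) s0 t
/-- Strict descendants of the component of `s0`. -/
def InD (P : Spec S) (s0 t : S) : Prop := Reach (Edge P) s0 t ∧ ¬ Reach (Edge P) t s0

/-- Variance consistency of the component of `s0`. -/
def VC (P : Spec S) (s0 : S) : Prop :=
  ∀ s₁ s₂ s₃ t b, P.rule s₁ s₂ s₃ → InC P s0 s₃ → InC P s0 t →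
    Walk (Edge P) s₁ b t → Walk (Edge P) s₂ b t → False

/-- Reachability along codomain edges only. -/
inductive ResReach (P : Spec S) : S → S → Prop
  | refl (s : S) : ResReach P s s
  | step {s₁ s₂ s₃ t : S} : P.rule s₁ s₂ s₃ → ResReach P s₂ t → ResReach P s₃ t

/-- A type of sort `p` can be an iterated product ending in the sort `k`. -/
def RP (P : Spec S) (p k : S) : Prop := ∃ p', ResReach P p p' ∧ P.ax k p'

/-- Productive sorts. -/
def Pr (P : Spec S) (s0 s : S) : Prop := ∃ t, InC P s0 t ∧ RP P s t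

/-- Edges of the second graph: only rules with a productive codomain sort. -/
inductive HEdge (P : Spec S) (s0 : S) : S → Bool → S → Prop
  | res {s₁ s₂ s₃ : S} : P.rule s₁ s₂ s₃ → Pr P s0 s₂ → HEdge P s0 s₃ false s₂
  | arg {s₁ s₂ s₃ : S} : P.rule s₁ s₂ s₃ → Pr P s0 s₂ → HEdge P s0 s₃ true s₁

/-- Sorts over which the component of `s0` quantifies. -/
def InI (P : Spec S) (s0 i : S) : Prop :=
  ∃ s₂ s₃, P.rule i s₂ s₃ ∧ InC P s0 s₂ ∧ InC P s0 s₃

/-- `s` is reachable from a quantified sort with parity `b` in the second graph. -/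
def Par (P : Spec S) (s0 : S) (b : Bool) (s : S) : Prop :=
  ∃ i, InI P s0 i ∧ Walk (HEdge P s0) i b s

/-- The obstruction: a component of the second graph, reachable with both parities, with a
polymorphic rule and a contravariant edge. -/
def Config (P : Spec S) (s0 : S) : Prop :=
  ∃ p₁ p₂ p₃ k₀ q₃ q₁, P.rule p₁ p₂ p₃ ∧ Pr P s0 p₂ ∧ RP P p₁ k₀ ∧ HEdge P s0 q₃ true q₁ ∧
    Mut (HEdge P s0) p₃ p₂ ∧ Mut (HEdge P s0) p₃ k₀ ∧ Mut (HEdge P s0) p₃ q₃ ∧
    Mut (HEdge P s0) p₃ q₁ ∧ Par P s0 false p₃ ∧ Par P s0 true p₃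

section generic
variable {E : S → Bool → S → Prop}

theorem Walk.single {s t : S} {b : Bool} (h : E s b t) : Walk E s b t := by
  simpa using Walk.cons h (Walk.nil t)
theorem Walk.trans {s t r : S} {b c : Bool} (h : Walk E s b t) (h' : Walk E t c r) :
    Walk E s (xor b c) r := by
  induction h with
  | nil s => simpa using h'
  | cons e _ ih =>
    rw [Bool.xor_assoc]
    exact Walk.cons e (ih h')
theorem Walk.snoc {s t r : S} {b c : Bool} (h : Walk E s b t) (h' : E t c r) :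
    Walk E s (xor b c) r := h.trans (Walk.single h')
theorem Reach.refl (s : S) : Reach E s s := ⟨false, Walk.nil s⟩
theorem Reach.trans {s t r : S} (h : Reach E s t) (h' : Reach E t r) : Reach E s r := by
  obtain ⟨b, h⟩ := h
  obtain ⟨c, h'⟩ := h'
  exact ⟨_, h.trans h'⟩
theorem Reach.edge {s t : S} {b : Bool} (h : E s b t) : Reach E s t := ⟨b, Walk.single h⟩
theorem Mut.refl (s : S) : Mut E s s := ⟨Reach.refl s, Reach.refl s⟩
theorem Mut.symm {s t : S} (h : Mut E s t) : Mut E t s := ⟨h.2, h.1⟩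
theorem Mut.trans {s t r : S} (h : Mut E s t) (h' : Mut E t r) : Mut E s r :=
  ⟨h.1.trans h'.1, h'.2.trans h.2⟩

theorem graph_reach_finite (hfin : {t | ∃ s b, E s b t}.Finite) (s : S) :
    {r | Reach E s r}.Finite := by
  refine (hfin.insert s).subset ?_
  rintro r ⟨b, h⟩
  induction h with
  | nil s => exact Or.inl rfl
  | cons e _ ih =>
    rcases ih with h | h
    · exact Or.inr ⟨_, _, h ▸ e⟩
    · exact Or.inr h

/-- Strict reachability is well founded in a graph with finitely many edge targets. -/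
theorem wf_strict (hfin : {t | ∃ s b, E s b t}.Finite) :
    WellFounded (fun t s => Reach E s t ∧ ¬ Reach E t s) := by
  refine Subrelation.wf (r := InvImage (· < ·) (fun s => {r | Reach E s r}.ncard)) ?_
    (InvImage.wf _ Nat.lt_wfRel.wf)
  intro t s h
  refine Set.ncard_lt_ncard ⟨fun r hr => h.1.trans hr, fun hs => h.2 (hs (Reach.refl s))⟩ ?_
  exact graph_reach_finite hfin s

end generic

variable {P : Spec S} {s0 : S}

theorem edge_targets_finite (U : Univ P) : {t | ∃ s b, Edge P s b t}.Finite := by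
  refine ((U.fin.image (fun r => r.1)).union (U.fin.image (fun r => r.2.1))).subset ?_
  rintro t ⟨s, b, h⟩
  cases h with
  | res h => exact Or.inr ⟨(_, _, _), h, rfl⟩
  | arg h => exact Or.inl ⟨(_, _, _), h, rfl⟩
theorem hedge_targets_finite (U : Univ P) : {t | ∃ s b, HEdge P s0 s b t}.Finite := by
  refine (edge_targets_finite U).subset ?_
  rintro t ⟨s, b, h⟩
  cases h with
  | res h _ => exact ⟨_, _, Edge.res h⟩
  | arg h _ => exact ⟨_, _, Edge.arg h⟩
theorem inC_finite (U : Univ P) : {t | InC P s0 t}.Finite :=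
  (graph_reach_finite (edge_targets_finite U) s0).subset fun _ h => h.1

theorem inC_self : InC P s0 s0 := Mut.refl s0
theorem InC.inL {t : S} (h : InC P s0 t) : InL P s0 t := h.1
theorem InD.inL {t : S} (h : InD P s0 t) : InL P s0 t := h.1
theorem InL.cases {t : S} (h : InL P s0 t) : InC P s0 t ∨ InD P s0 t := by
  by_cases h' : Reach (Edge P) t s0
  · exact Or.inl ⟨h, h'⟩
  · exact Or.inr ⟨h, h'⟩
theorem InC.not_inD {t : S} (h : InC P s0 t) : ¬ InD P s0 t := fun h' => h'.2 h.2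
theorem InL.rule {s₁ s₂ s₃ : S} (h : InL P s0 s₃) (hr : P.rule s₁ s₂ s₃) :
    InL P s0 s₁ ∧ InL P s0 s₂ :=
  ⟨Reach.trans h (Reach.edge (Edge.arg hr)), Reach.trans h (Reach.edge (Edge.res hr))⟩
theorem InD.rule {s₁ s₂ s₃ : S} (h : InD P s0 s₃) (hr : P.rule s₁ s₂ s₃) :
    InD P s0 s₁ ∧ InD P s0 s₂ :=
  ⟨⟨h.1.trans (Reach.edge (Edge.arg hr)), fun h' => h.2 ((Reach.edge (Edge.arg hr)).trans h')⟩,
    ⟨h.1.trans (Reach.edge (Edge.res hr)), fun h' => h.2 ((Reach.edge (Edge.res hr)).trans h')⟩⟩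
theorem InL.reach {s t : S} (h : InL P s0 s) (hr : Reach (Edge P) s t) : InL P s0 t :=
  Reach.trans h hr
theorem InL.inC_of_reach {s t : S} (h : InL P s0 s) (hr : Reach (Edge P) s t)
    (ht : InC P s0 t) : InC P s0 s := ⟨h, hr.trans ht.2⟩
theorem InC.mut {s t : S} (h : InC P s0 s) (h' : InC P s0 t) : Mut (Edge P) s t :=
  (Mut.symm h).trans h'
theorem ResReach.trans {s t r : S} (h : ResReach P s t) (h' : ResReach P t r) :
    ResReach P s r := by
  induction h with
  | refl s => exact h'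
  | step hr _ ih => exact ResReach.step hr (ih h')
theorem ResReach.reach {s t : S} (h : ResReach P s t) : Reach (Edge P) s t := by
  induction h with
  | refl s => exact Reach.refl s
  | step hr _ ih => exact (Reach.edge (Edge.res hr)).trans ih
theorem RP.step {s₁ s₂ s₃ k : S} (hr : P.rule s₁ s₂ s₃) (h : RP P s₂ k) : RP P s₃ k := by
  obtain ⟨p', h, hk⟩ := h
  exact ⟨p', ResReach.step hr h, hk⟩
theorem Pr.step {s₁ s₂ s₃ : S} (hr : P.rule s₁ s₂ s₃) (h : Pr P s0 s₂) : Pr P s0 s₃ := by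
  obtain ⟨t, ht, h⟩ := h
  exact ⟨t, ht, h.step hr⟩
theorem InI.par {i : S} (h : InI P s0 i) : Par P s0 false i := ⟨i, h, Walk.nil i⟩
theorem Par.walk {s t : S} {b c : Bool} (h : Par P s0 b s) (h' : Walk (HEdge P s0) s c t) :
    Par P s0 (xor b c) t := by
  obtain ⟨i, hi, h⟩ := h
  exact ⟨i, hi, h.trans h'⟩
theorem Par.rule {s₁ s₂ s₃ : S} {b : Bool} (h : Par P s0 b s₃) (hr : P.rule s₁ s₂ s₃)
    (hp : Pr P s0 s₂) : Par P s0 (!b) s₁ ∧ Par P s0 b s₂ := by
  constructor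
  · simpa using h.walk (Walk.single (HEdge.arg hr hp))
  · simpa using h.walk (Walk.single (HEdge.res hr hp))

/-- Failure of variance consistency: a rule inside the component, and all parities available. -/
theorem not_vc_walks (h : ¬ VC P s0) :
    (∃ c₁ c₂ c₃, P.rule c₁ c₂ c₃ ∧ InC P s0 c₁ ∧ InC P s0 c₂ ∧ InC P s0 c₃) ∧
      ∀ s t b, InC P s0 s → InC P s0 t → Walk (Edge P) s b t := by
  unfold VC at h
  push Not at h
  obtain ⟨s₁, s₂, s₃, t, b, hr, h₃, ht, w₁, w₂, -⟩ := h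
  obtain ⟨c, w⟩ := (ht.mut h₃).1
  have hodd : Walk (Edge P) s₃ true s₃ := by
    have a₁ := Walk.cons (Edge.arg hr) (w₁.trans w)
    have a₂ := Walk.cons (Edge.res hr) (w₂.trans w)
    cases hbc : xor b c
    · rw [hbc] at a₁
      exact a₁
    · rw [hbc] at a₂
      exact a₂
  refine ⟨⟨s₁, s₂, s₃, hr, (h₃.inL.rule hr).1.inC_of_reach ⟨b, w₁⟩ ht,
    (h₃.inL.rule hr).2.inC_of_reach ⟨b, w₂⟩ ht, h₃⟩, fun s u d hs hu => ?_⟩
  obtain ⟨c₁, v₁⟩ := (hs.mut h₃).1
  obtain ⟨c₂, v₂⟩ := (h₃.mut hu).1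
  have a₁ := v₁.trans v₂
  have a₂ := v₁.trans (hodd.trans v₂)
  cases c₁ <;> cases c₂ <;> cases d <;> first | exact a₁ | exact a₂

/-- The walks used to code the paradox. -/
theorem config_walks (h : Config P s0) :
    ∃ p₁ p₂ p₃ k₀ ps ie io, ∃ b : Bool, P.rule p₁ p₂ p₃ ∧ Pr P s0 p₂ ∧ RP P p₁ k₀ ∧
      InI P s0 ie ∧ InI P s0 io ∧
      Walk (HEdge P s0) p₃ b k₀ ∧ Walk (HEdge P s0) k₀ b p₃ ∧
      Walk (HEdge P s0) ps true p₃ ∧ Walk (HEdge P s0) p₃ true ps ∧
      Walk (HEdge P s0) p₂ true ps ∧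
      Walk (HEdge P s0) ie false p₃ ∧ Walk (HEdge P s0) io true p₃ := by
  obtain ⟨p₁, p₂, p₃, k₀, q₃, q₁, hr, hp, hk, he, m₂, mk, m₃, m₁, ⟨ie, hie, we⟩,
    ⟨io, hio, wo⟩⟩ := h
  have ha : ∃ b, Walk (HEdge P s0) p₃ b k₀ ∧ Walk (HEdge P s0) k₀ b p₃ := by
    obtain ⟨b₁, w₁⟩ := mk.1
    obtain ⟨b₂, w₂⟩ := mk.2
    have w₃ := w₂.trans (w₁.trans w₂)
    refine ⟨b₁, w₁, ?_⟩
    cases b₁ <;> cases b₂ <;> first | exact w₂ | exact w₃
  have hb : ∃ ps, Walk (HEdge P s0) ps true p₃ ∧ Walk (HEdge P s0) p₃ true ps := by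
    obtain ⟨b₁, w₁⟩ := m₃.1
    obtain ⟨b₂, w₂⟩ := m₁.2
    have a₁ := w₁.snoc he
    have a₂ := Walk.cons he w₂
    have a₃ := w₁.trans a₂
    cases b₁ <;> cases b₂
    · exact ⟨p₃, a₃, a₃⟩
    · exact ⟨q₁, w₂, a₁⟩
    · exact ⟨q₃, a₂, w₁⟩
    · exact ⟨p₃, a₃, a₃⟩
  obtain ⟨b, wa₁, wa₂⟩ := ha
  obtain ⟨ps, wb₁, wb₂⟩ := hb
  have hc : Walk (HEdge P s0) p₂ true ps := by
    obtain ⟨c, w⟩ := m₂.2
    have a₁ := w.trans wb₂
    have a₂ := w.trans ((Walk.cons (HEdge.res hr hp) w).trans wb₂)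
    cases c
    · exact a₁
    · exact a₂
  exact ⟨p₁, p₂, p₃, k₀, ps, ie, io, b, hr, hp, hk, hie, hio, wa₁, wa₂, wb₁, wb₂, hc, we, wo⟩

/-- Sorts along a neutral spine: the type of a neutral term has a sort that is codomain-reachable
from any sort of the (normalized) type of its head. -/
theorem neu_res_sort {U : Univ P} {Γ : Ctx S} (hΓ : Good U Γ) {M T : Term S} {p : S}
    (hn : Neu M) (hT : Ty P Γ M T) (hp : Ty P Γ (nf (Γ (hd M))) (sort p)) :
    ∃ p', ResReach P p p' ∧ Ty P Γ (nf T) (sort p') := by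
  induction hn generalizing T with
  | var i =>
    refine ⟨p, ResReach.refl p, ?_⟩
    rw [← nf_congr hT.gen_var]
    exact hp
  | @app M N _ ih =>
    obtain ⟨A, B, hM, hN, hb⟩ := hT.gen_app
    obtain ⟨p', hr, h⟩ := ih hM hp
    have hw := hΓ.wn_type hM
    rw [nf_pi hw] at h
    obtain ⟨s₁, s₂, hrule, -, hB⟩ := h.gen_pi_sort
    refine ⟨s₂, hr.trans (ResReach.step hrule (ResReach.refl s₂)), ?_⟩
    have h1 : Ty P Γ (inst N (nf B)) (sort s₂) := hB.inst (hΓ.ty_nf_type hN)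
    rw [← nf_congr (beq_trans (beq_inst (beq_refl N) (nf_beq (wn_pi_iff.1 hw).2)) hb)]
    exact hΓ.ty_nf h1

end Crest.Agent.R298
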