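import Crest.Agent.R298.Machine

/-! Row 298: the kind-level walks given by the obstruction configuration. -/

set_option autoImplicit false

namespace Crest.Agent.R298
open Crest.LogicCS.PTS Crest.LogicCS.PTS.Term

universe u
variable {S : Type u} {P : Spec S} {U : Univ P} {s0 : S}

/-- Kind-level data: the answer type of all these walks is the sort of propositions. -/
structure Kinds (L : Logic U s0) where
  /-- sort of the kind variable -/
  k₀ : S
  /-- a parent of `k₀` -/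
  pk : S
  /-- domain sort of the polymorphic rule -/
  p₁ : S
  /-- codomain sort of the polymorphic rule -/
  p₂ : S
  /-- product sort of the polymorphic rule -/
  p₃ : S
  /-- a sort at odd distance from `p₃` -/
  ps : S
  /-- covariant chain ending in `k₀` -/
  χ : List (Wr S)
  /-- from `p₃` to `k₀` -/
  ωb : List (Wr S)
  /-- from `k₀` to `p₃` -/
  ω' : List (Wr S)
  /-- odd, from `ps` to `p₃` -/
  P1 : List (Wr S)
  /-- odd, from `p₃` to `ps` -/
  P0 : List (Wr S)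
  /-- odd, from `p₂` to `ps` -/
  P2 : List (Wr S)
  /-- odd, from the second quantified sort to `p₃` -/
  Q1 : List (Wr S)
  /-- even, from the first quantified sort to `p₃` -/
  E : List (Wr S)
  rule : P.rule p₁ p₂ p₃
  ax : P.ax k₀ pk
  wt_χ : WT U (sort L.c) p₁ χ pk
  cnt_χ : cnt χ = 0
  wt_ωb : WT U (sort L.c) p₃ ωb k₀
  wt_ω' : WT U (sort L.c) k₀ ω' p₃
  par_ω : par (ωb ++ ω') = false
  wt_P1 : WT U (sort L.c) ps P1 p₃
  par_P1 : par P1 = true
  wt_P0 : WT U (sort L.c) p₃ P0 ps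
  par_P0 : par P0 = true
  wt_P2 : WT U (sort L.c) p₂ P2 ps
  par_P2 : par P2 = true
  wt_Q1 : WT U (sort L.c) (L.s₁ .qo) Q1 p₃
  par_Q1 : par Q1 = true
  wt_E : WT U (sort L.c) (L.s₁ .qe) E p₃
  par_E : par E = false
  kb : ∀ θ, KB (L.md θ) θ (ωb ++ ω' ++ P1 ++ P0 ++ P2 ++ Q1 ++ E)

theorem kinds_kb_zero (md : Term S → Term S) (θ : ℕ → Term S) {ω : List (Wr S)} (h : cnt ω = 0) :
    KB md θ ω := by
  induction ω with
  | nil => exact fun _ _ _ hm => by cases hm
  | cons w ω ih =>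
    cases w with
    | res o d =>
      intro c i o' hm
      rcases List.mem_cons.1 hm with e | hm
      · cases e
      · exact ih h c i o' hm
    | arg c i o => simp at h

theorem kinds_kb_append {md : Term S → Term S} {θ : ℕ → Term S} {ω ω' : List (Wr S)}
    (h : KB md θ ω) (h' : KB md θ ω') : KB md θ (ω ++ ω') := fun c i o hm =>
  (List.mem_append.1 hm).elim (h c i o) (h' c i o)

/-- The glue of a contravariant wrapper at a productive sort. -/
theorem kinds_glue (L : Logic U s0) {s₂ : S} (h : Pr P s0 s₂) :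
    ∃ c inn out, Ty P U.Θ c (sort s₂) ∧ Ty P (ext U.Θ (sort L.c)) inn (wk c) ∧
      Ty P (ext U.Θ c) out (wk (sort L.c)) ∧
      ∀ θ φ, BetaEq (sub (scons (sub (scons φ θ) inn) θ) out) (L.md θ φ) := by
  obtain ⟨t, ht, p', hres, hax⟩ := h
  obtain ⟨χ, h0, hχ⟩ := exists_wt_res U (sort t) hres
  obtain ⟨δ₁, δ₂, e, a1, a2⟩ := L.visit t ht
  have hp := par_of_cnt_zero h0
  have hθ : SubTy P (ext U.Θ (sort L.c)) (wkS var) U.Θ := subTy_id.wkS _
  refine ⟨wrap var χ (sort t), vl (wkS var) χ (sort t)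
      (wrap (wkS var) (δ₂ ++ .res (L.tag .qe) (L.e .qe) :: L.β .qe)
        (L.core (wkS var) .qe (sub (wkS var) L.oe) (wk (var 0)))),
    wrap (wkS var) δ₁ (cv var χ (sort t) (var 0)), hχ.ty_wrap subTy_id (Ty.ax hax), ?_, ?_,
    fun θ φ => ?_⟩
  · rw [wk_wrap]
    exact hχ.ty_vl_even hθ (Ty.ax hax) hp (a2.ty_wrap hθ (L.ty_core hθ (L.ty_oe.sub_sort hθ)
      (Ty.wk_sort (Ty.var (Γ := ext U.Θ (sort L.c)) 0) _)))
  · exact a1.ty_wrap (subTy_id.wkS _) (hχ.ty_cv_even subTy_id (Ty.ax hax) hp (Ty.var 0))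
  · have e1 : ∀ M : Term S, (fun i => sub (scons M θ) (wkS var i)) = θ := fun M => sub_wkS var θ M
    rw [sub_wrap, e1, ← inst_sub_up, sub_cv, sub_vl, e1, hp, if_neg Bool.false_ne_true,
      if_neg Bool.false_ne_true, sub_wrap, e1, L.sub_core, e1, sub_sub, e1, sub_up_wk,
      Logic.md, Logic.piC, Logic.ε, e, List.append_assoc, wrap_append θ δ₁]
    refine beq_wrap θ δ₁ ?_
    have := beq_cv_vl (md := id) (fun _ _ h => h) (kinds_kb_zero id θ h0) (sort t) (sort t)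
      (wrap θ (δ₂ ++ .res (L.tag .qe) (L.e .qe) :: L.β .qe) (L.core θ .qe (sub θ L.oe) (wk φ)))
      (var 0)
    rw [h0, hp, if_neg Bool.false_ne_true] at this
    exact this

theorem kinds_realise (L : Logic U s0) {s t : S} {b : Bool} (h : Walk (HEdge P s0) s b t) :
    ∃ ω, WT U (sort L.c) s ω t ∧ par ω = b ∧ ∀ θ, KB (L.md θ) θ ω := by
  induction h with
  | nil s => exact ⟨[], WT.nil s, rfl, fun θ => kinds_kb_zero _ θ rfl⟩
  | cons e _ ih =>
    obtain ⟨ω, hω, hp, hk⟩ := ih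
    cases e with
    | res hr _ =>
      obtain ⟨o, ho⟩ := (U.inh hr).1
      obtain ⟨d, hd⟩ := U.exists_var ho
      exact ⟨.res o (var d) :: ω, WT.res hr ho hd hω, by simp [hp],
        fun θ => kinds_kb_append (ω := [.res o (var d)]) (kinds_kb_zero _ θ rfl) (hk θ)⟩
    | arg hr hP =>
      obtain ⟨c, i, o, hc, hi, ho, hb⟩ := kinds_glue L hP
      refine ⟨.arg c i o :: ω, WT.arg hr hc hi ho hω, by simp [hp], fun θ c' i' o' hm => ?_⟩
      rcases List.mem_cons.1 hm with e | hm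
      · cases e
        exact hb θ
      · exact hk θ c' i' o' hm

theorem exists_kinds (U : Univ P) {s0 : S} (hvc : ¬ VC P s0) (hc : Config P s0) :
    ∃ L : Logic U s0, Nonempty (Kinds L) := by
  obtain ⟨p₁, p₂, p₃, k₀, ps, ie, io, b, hr, hp, ⟨pk, hres, hax⟩, hie, hio, w1, w2, w3, w4, w5, w6,
    w7⟩ := config_walks hc
  obtain ⟨t, ht, p', -, hax'⟩ := hp
  obtain ⟨L, rfl, rfl⟩ := exists_logic U hvc hie hio ⟨t, p', ht, hax'⟩
  obtain ⟨χ, h0, hχ⟩ := exists_wt_res U (sort L.c) hres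
  obtain ⟨ωb, a1, b1, c1⟩ := kinds_realise L w1
  obtain ⟨ω', a2, b2, c2⟩ := kinds_realise L w2
  obtain ⟨P1, a3, b3, c3⟩ := kinds_realise L w3
  obtain ⟨P0, a4, b4, c4⟩ := kinds_realise L w4
  obtain ⟨P2, a5, b5, c5⟩ := kinds_realise L w5
  obtain ⟨E, a6, b6, c6⟩ := kinds_realise L w6
  obtain ⟨Q1, a7, b7, c7⟩ := kinds_realise L w7
  exact ⟨L, ⟨⟨k₀, pk, p₁, p₂, p₃, ps, χ, ωb, ω', P1, P0, P2, Q1, E, hr, hax, hχ, h0, a1, a2,
    by rw [par_append, b1, b2, Bool.xor_self], a3, b3, a4, b4, a5, b5, a7, b7, a6, b6, fun θ =>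
      kinds_kb_append (kinds_kb_append (kinds_kb_append (kinds_kb_append (kinds_kb_append
        (kinds_kb_append (c1 θ) (c2 θ)) (c3 θ)) (c4 θ)) (c5 θ)) (c7 θ)) (c6 θ)⟩⟩⟩

end Crest.Agent.R298
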