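import Crest.Agent.R298.Wrap

/-! Row 298: the data of the continuation-passing logic inside a component that is not
variance-consistent. -/

set_option autoImplicit false

namespace Crest.Agent.R298
open Crest.LogicCS.PTS Crest.LogicCS.PTS.Term

universe u
variable {S : Type u} {P : Spec S}

/-- The four connectives: implication, two quantifiers, and the atom without rules. -/
inductive Con : Type
  | imp | qe | qo | bot
  deriving DecidableEq

/-- The walks, tags and dummies of the logic. -/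
structure Logic (U : Univ P) (s0 : S) where
  /-- the sort of propositions -/
  c : S
  /-- the type of processes -/
  R : Term S
  /-- negation -/
  ν : List (Wr S)
  /-- common outer walk -/
  δ : List (Wr S)
  /-- walk to the rule of a connective -/
  β : Con → List (Wr S)
  /-- walk from the rule of a connective back to the sort of propositions -/
  γ : Con → List (Wr S)
  /-- tags -/
  tag : Con → Term S
  /-- inhabitants of the tags -/
  e : Con → Term S
  /-- domain sort of the rule of a connective -/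
  s₁ : Con → S
  /-- codomain sort of the rule of a connective -/
  s₂ : Con → S
  /-- sort of the product of the rule of a connective -/
  s₃ : Con → S
  /-- a dummy proposition -/
  oc : Term S
  /-- a dummy domain for the first quantifier -/
  oe : Term S
  /-- its inhabitant -/
  de : Term S
  c_mem : InC P s0 c
  rule : ∀ r, P.rule (s₁ r) (s₂ r) (s₃ r)
  s₁_imp : s₁ .imp = c
  s₁_bot : s₁ .bot = c
  wt_ν : WT U R c ν c
  par_ν : par ν = true
  ends_ν : EndsArg ν
  strict_ν : StrictW ν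
  wt_ε : ∀ r, WT U R c (δ ++ .res (tag r) (e r) :: β r) (s₃ r)
  par_ε : ∀ r, par (δ ++ .res (tag r) (e r) :: β r) = false
  strict_ε : ∀ r, StrictW (δ ++ .res (tag r) (e r) :: β r)
  wt_γ : ∀ r, WT U R (s₂ r) (γ r) c
  par_γ : ∀ r, par (γ r) = true
  ends_γ : ∀ r, EndsArg (γ r)
  strict_γ : ∀ r, StrictW (γ r)
  tag_inj : ∀ r r', BetaEq (tag r) (tag r') → r = r'
  visit : ∀ t, InC P s0 t → ∃ δ₁ δ₂, δ = δ₁ ++ δ₂ ∧ WT U R c δ₁ t ∧
    WT U R t (δ₂ ++ .res (tag .qe) (e .qe) :: β .qe) (s₃ .qe)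
  ty_oc : Ty P U.Θ oc (sort c)
  ty_oe : Ty P U.Θ oe (sort (s₁ .qe))
  ty_de : Ty P U.Θ de oe

namespace LogicAux

/-- A strict context with a hole of type `A` and result type `B`. -/
def Mv (U : Univ P) (A B : Term S) : Prop :=
  ∃ c, Ty P (ext U.Θ A) c (wk B) ∧ Strict c

variable {U : Univ P}

theorem strict_var : Strict (var 0 : Term S) := fun M => Ge.refl M

theorem sub_wkS_var (B : Term S) : sub (wkS var) B = wk B := by
  rw [← wk_sub, sub_id]

theorem Mv.refl (A : Term S) : Mv U A A := ⟨var 0, Ty.var 0, strict_var⟩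

theorem Mv.trans {A B C : Term S} (h : Mv U A B) (h' : Mv U B C) : Mv U A C := by
  obtain ⟨c₁, t₁, k₁⟩ := h
  obtain ⟨c₂, t₂, k₂⟩ := h'
  refine ⟨sub (scons c₁ (wkS var)) c₂, ?_, fun M => ?_⟩
  · have hσ : SubTy P (ext U.Θ A) (scons c₁ (wkS var)) (ext U.Θ B) :=
      (subTy_id.wkS A).cons (by rw [sub_wkS_var]; exact t₁)
    have := t₂.sub hσ
    rwa [sub_scons_wk, sub_wkS_var] at this
  · have e : inst M (sub (scons c₁ (wkS var)) c₂) = inst (inst M c₁) c₂ := by
      rw [inst, sub_sub_scons]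
      rfl
    rw [e]
    exact (k₂ _).trans (k₁ M)

theorem Mv.lam {o B : Term S} {s : S} (h : Ty P U.Θ (pi o (wk B)) (sort s)) :
    Mv U B (pi o (wk B)) := by
  refine ⟨Term.lam (wk o) (wk (var 0)), ?_, fun M => ?_⟩
  · have h' := h.wk_sort B
    rw [wk_pi, ren_upr_wk] at h' ⊢
    exact Ty.lam ((Ty.var 0).wk _) h'
  · have e : inst M (Term.lam (wk o) (wk (var 0))) = Term.lam o (wk M) := by
      rw [inst, sub_lam, sub_up_wk, sub_scons_wk, sub_id]
      rfl
    rw [e]
    exact ge_lam_wk o M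

theorem Mv.app {Y B : Term S} {s : S} (h : Ty P U.Θ (pi Y (wk B)) (sort s)) : Mv U Y B := by
  obtain ⟨g, hg⟩ := U.exists_var h
  refine ⟨Term.app (var (g + 1)) (var 0), ?_, fun M => ge_app_var g M⟩
  have h' := hg.wk Y
  rw [wk_pi, ren_upr_wk] at h'
  exact Ty.app_wk h' (Ty.var 0)

theorem ty_arr {A B : Term S} {s₁ s₂ s₃ : S} (hr : P.rule s₁ s₂ s₃) (hA : Ty P U.Θ A (sort s₁))
    (hB : Ty P U.Θ B (sort s₂)) : Ty P U.Θ (pi A (wk B)) (sort s₃) :=
  Ty.pi hA (hB.wk_sort A) hr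

theorem move_walk {s s' : S} {b : Bool} (h : Walk (Edge P) s b s') {Y' : Term S}
    (hY : Ty P U.Θ Y' (sort s')) : ∃ Y, Ty P U.Θ Y (sort s) ∧ Mv U Y' Y := by
  induction h with
  | nil s => exact ⟨Y', hY, Mv.refl _⟩
  | cons e _ ih =>
    obtain ⟨Y, hY', m⟩ := ih hY
    cases e with
    | res hr =>
      obtain ⟨o, ho⟩ := (U.inh hr).1
      exact ⟨_, ty_arr hr ho hY', m.trans (Mv.lam (ty_arr hr ho hY'))⟩
    | arg hr =>
      obtain ⟨o, ho⟩ := (U.inh hr).2
      exact ⟨_, ty_arr hr hY' ho,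
        m.trans ((Mv.app (ty_arr hr hY' ho)).trans (Mv.lam (ty_arr hr hY' ho)))⟩

theorem move {s s' : S} (h : Reach (Edge P) s s') {Y' : Term S}
    (hY : Ty P U.Θ Y' (sort s')) : ∃ Y, Ty P U.Θ Y (sort s) ∧ Mv U Y' Y := by
  obtain ⟨b, h⟩ := h
  exact move_walk h hY

theorem strictW_nil : StrictW ([] : List (Wr S)) := fun _ _ _ h => by cases h

theorem strictW_res {o d : Term S} {ω : List (Wr S)} (h : StrictW ω) :
    StrictW (.res o d :: ω) := fun c i o' hm => by
  rcases List.mem_cons.1 hm with e | hm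
  · cases e
  · exact h c i o' hm

theorem strictW_arg {c i o : Term S} {ω : List (Wr S)} (hi : Strict i) (ho : Strict o)
    (h : StrictW ω) : StrictW (.arg c i o :: ω) := fun c' i' o' hm => by
  rcases List.mem_cons.1 hm with e | hm
  · cases e
    exact ⟨hi, ho⟩
  · exact h c' i' o' hm

theorem strictW_append {ω ω' : List (Wr S)} (h : StrictW ω) (h' : StrictW ω') :
    StrictW (ω ++ ω') := fun c i o hm => by
  rcases List.mem_append.1 hm with hm | hm
  · exact h c i o hm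
  · exact h' c i o hm

section
variable {s0 c₁ c₂ c₃ : S} {R : Term S}

theorem glue (hc : P.rule c₁ c₂ c₃) (h₁ : InC P s0 c₁) (h₂ : InC P s0 c₂)
    (hR : Ty P U.Θ R (sort c₂)) {s₁ s₂ s₃ : S} (hr : P.rule s₁ s₂ s₃) (k₁ : InC P s0 s₁)
    (k₃ : InC P s0 s₃) {o : Term S} (ho : Ty P U.Θ o (sort s₂)) : Mv U R o ∧ Mv U o R := by
  constructor
  · obtain ⟨Y, hY, m⟩ := move (k₁.mut h₂).1 hR
    exact m.trans (Mv.app (ty_arr hr hY ho))
  · obtain ⟨o₁, ho₁⟩ := (U.inh hr).1
    obtain ⟨Y, hY, m⟩ := move (h₁.mut k₃).1 (ty_arr hr ho₁ ho)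
    exact (Mv.lam (ty_arr hr ho₁ ho)).trans (m.trans (Mv.app (ty_arr hc hY hR)))

theorem realise (hc : P.rule c₁ c₂ c₃) (h₁ : InC P s0 c₁) (h₂ : InC P s0 c₂)
    (hR : Ty P U.Θ R (sort c₂)) {s t : S} {b : Bool} (h : Walk (Edge P) s b t)
    (hs : InC P s0 s) (ht : InC P s0 t) : ∃ ω, WT U R s ω t ∧ par ω = b ∧ StrictW ω := by
  induction h with
  | nil s => exact ⟨[], WT.nil s, rfl, strictW_nil⟩
  | @cons s t r b c e w ih =>
    have ht' : InC P s0 t :=
      (hs.inL.reach (Reach.edge e)).inC_of_reach ⟨_, w⟩ ht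
    obtain ⟨ω, hω, hp, hst⟩ := ih ht' ht
    cases e with
    | res hr =>
      obtain ⟨o, ho⟩ := (U.inh hr).1
      obtain ⟨d, hd⟩ := U.exists_var ho
      exact ⟨.res o (var d) :: ω, WT.res hr ho hd hω, by simp [hp], strictW_res hst⟩
    | arg hr =>
      obtain ⟨o, ho⟩ := (U.inh hr).2
      obtain ⟨⟨i, hi, si⟩, ⟨j, hj, sj⟩⟩ := glue hc h₁ h₂ hR hr ht' hs ho
      exact ⟨.arg o i j :: ω, WT.arg hr ho hi hj hω, by simp [hp], strictW_arg si sj hst⟩

/-- An even walk through all the sorts of a list. -/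
theorem tour {Q : S → Prop}
    (H : ∀ s t, Q s → Q t → ∃ ω, WT U R s ω t ∧ par ω = false ∧ StrictW ω) {z : S} (hz : Q z)
    (l : List S) (hl : ∀ t ∈ l, Q t) :
    ∀ a, Q a → ∃ δ, WT U R a δ z ∧ par δ = false ∧ StrictW δ ∧
      ∀ t ∈ l, ∃ δ₁ δ₂, δ = δ₁ ++ δ₂ ∧ WT U R a δ₁ t ∧ WT U R t δ₂ z := by
  induction l with
  | nil =>
    intro a ha
    obtain ⟨ω, h1, h2, h3⟩ := H a z ha hz
    exact ⟨ω, h1, h2, h3, fun t ht => by cases ht⟩
  | cons x l ih =>
    intro a ha
    have hx := hl x List.mem_cons_self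
    obtain ⟨ω, h1, h2, h3⟩ := H a x ha hx
    obtain ⟨δ, d1, d2, d3, d4⟩ := ih (fun t ht => hl t (List.mem_cons_of_mem _ ht)) x hx
    refine ⟨ω ++ δ, h1.append d1, by rw [par_append, h2, d2]; rfl, strictW_append h3 d3,
      fun t ht => ?_⟩
    rcases List.mem_cons.1 ht with rfl | ht
    · exact ⟨ω, δ, rfl, h1, d1⟩
    · obtain ⟨δ₁, δ₂, e, a1, a2⟩ := d4 t ht
      exact ⟨ω ++ δ₁, δ₂, by rw [e, List.append_assoc], h1.append a1, a2⟩

end

/-- Four distinct variables of a given type. -/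
theorem exists_four {A : Term S} {s : S} (h : Ty P U.Θ A (sort s)) :
    ∃ i : Con → ℕ, (∀ r, Ty P U.Θ (var (i r)) A) ∧ ∀ r r', i r = i r' → r = r' := by
  obtain ⟨a, -, ha⟩ := U.univ h 0
  obtain ⟨b, hab, hb⟩ := U.univ h (a + 1)
  obtain ⟨c, hbc, hc⟩ := U.univ h (b + 1)
  obtain ⟨d, hcd, hd⟩ := U.univ h (c + 1)
  refine ⟨fun r => Con.casesOn r a b c d, fun r => ?_, fun r r' e => ?_⟩
  · cases r
    · exact ha ▸ Ty.var a
    · exact hb ▸ Ty.var b
    · exact hc ▸ Ty.var c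
    · exact hd ▸ Ty.var d
  · cases r <;> cases r' <;> first | rfl | (exfalso; dsimp only at e; omega)

end LogicAux

theorem exists_logic (U : Univ P) {s0 : S} (hvc : ¬ VC P s0) {ie io : S} (he : InI P s0 ie)
    (ho : InI P s0 io) (ht : ∃ t p, InC P s0 t ∧ P.ax t p) :
    ∃ L : Logic U s0, L.s₁ .qe = ie ∧ L.s₁ .qo = io := by
  classical
  obtain ⟨⟨c₁, c₂, c₃, hc, h₁, h₂, h₃⟩, hw⟩ := not_vc_walks hvc
  obtain ⟨R, hR⟩ := (U.inh hc).2
  have real : ∀ s t b, InC P s0 s → InC P s0 t →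
      ∃ ω, WT U R s ω t ∧ par ω = b ∧ StrictW ω := fun s t b hs ht =>
    LogicAux.realise hc h₁ h₂ hR (hw s t b hs ht) hs ht
  obtain ⟨e₂, e₃, her, he₂, he₃⟩ := he
  obtain ⟨o₂, o₃, hor, ho₂, ho₃⟩ := ho
  let s₁ : Con → S := fun r => Con.casesOn r c₁ ie io c₁
  let s₂ : Con → S := fun r => Con.casesOn r c₂ e₂ o₂ c₂
  let s₃ : Con → S := fun r => Con.casesOn r c₃ e₃ o₃ c₃
  have hrule : ∀ r, P.rule (s₁ r) (s₂ r) (s₃ r) := fun r => by
    cases r
    exacts [hc, her, hor, hc]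
  have hs₂ : ∀ r, InC P s0 (s₂ r) := fun r => by
    cases r
    exacts [h₂, he₂, ho₂, h₂]
  have hs₃ : ∀ r, InC P s0 (s₃ r) := fun r => by
    cases r
    exacts [h₃, he₃, ho₃, h₃]
  have wlast : WT U R c₃ [.arg R (var 0) (var 0)] c₁ :=
    WT.arg hc hR (Ty.var 0) (Ty.var 0) (WT.nil c₁)
  have slast : StrictW [(.arg R (var 0) (var 0) : Wr S)] :=
    LogicAux.strictW_arg LogicAux.strict_var LogicAux.strict_var LogicAux.strictW_nil
  obtain ⟨ν₀, wν, pν, sν⟩ := real c₁ c₃ false h₁ h₃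
  choose g wg pg sg using fun r => real (s₂ r) c₃ false (hs₂ r) h₃
  choose β wβ pβ sβ using fun r => real c₂ (s₃ r) false h₂ (hs₃ r)
  obtain ⟨δ, wδ, pδ, sδ, vδ⟩ := LogicAux.tour (U := U) (R := R) (Q := InC P s0)
    (fun s t hs ht => real s t false hs ht) h₃ (inC_finite (s0 := s0) U).toFinset.toList
    (fun t ht => by simpa using ht) c₁ h₁
  obtain ⟨t, p, htC, hax⟩ := ht
  obtain ⟨τ, wτ, -, -⟩ := real c₁ t false h₁ htC
  obtain ⟨i, hi, iinj⟩ := LogicAux.exists_four (U := U) (Ty.ax hax)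
  have htag : ∀ r, Ty P U.Θ (wrap var τ (var (i r))) (sort c₁) := fun r =>
    wτ.ty_wrap subTy_id (hi r)
  choose e hee using fun r => U.exists_var (htag r)
  have wres : ∀ r, WT U R c₃ (.res (wrap var τ (var (i r))) (var (e r)) :: β r) (s₃ r) :=
    fun r => WT.res hc (htag r) (hee r) (wβ r)
  obtain ⟨oc, hoc⟩ := (U.inh hc).1
  obtain ⟨oe, hoe⟩ := (U.inh her).1
  obtain ⟨de, hde⟩ := U.exists_var hoe
  refine ⟨{ c := c₁, R := R, ν := ν₀ ++ [.arg R (var 0) (var 0)], δ := δ, β := β,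
            γ := fun r => g r ++ [.arg R (var 0) (var 0)],
            tag := fun r => wrap var τ (var (i r)), e := fun r => var (e r),
            s₁ := s₁, s₂ := s₂, s₃ := s₃, oc := oc, oe := oe, de := var de,
            c_mem := h₁, rule := hrule, s₁_imp := rfl, s₁_bot := rfl,
            wt_ν := wν.append wlast,
            par_ν := by rw [par_append, pν]; rfl,
            ends_ν := ⟨_, _, _, _, rfl⟩,
            strict_ν := LogicAux.strictW_append sν slast,
            wt_ε := fun r => wδ.append (wres r),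
            par_ε := fun r => by rw [par_append, pδ, par_res, pβ]; rfl,
            strict_ε := fun r => LogicAux.strictW_append sδ (LogicAux.strictW_res (sβ r)),
            wt_γ := fun r => (wg r).append wlast,
            par_γ := fun r => by rw [par_append, pg]; rfl,
            ends_γ := fun r => ⟨_, _, _, _, rfl⟩,
            strict_γ := fun r => LogicAux.strictW_append (sg r) slast,
            tag_inj := fun r r' h => iinj r r' (beq_var_inj (beq_of_wrap h)),
            visit := fun t ht => ?_,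
            ty_oc := hoc, ty_oe := hoe, ty_de := hde }, rfl, rfl⟩
  obtain ⟨δ₁, δ₂, e, a1, a2⟩ := vδ t (by simpa using ht)
  exact ⟨δ₁, δ₂, e, a1, a2.append (wres .qe)⟩

end Crest.Agent.R298
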