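import Crest.Agent.R298.Logic

/-! Row 298: connectives, proof terms, and the abstract machine showing that a closed proof of the
atom is not weakly normalizing. -/

set_option autoImplicit false

namespace Crest.Agent.R298
open Crest.LogicCS.PTS Crest.LogicCS.PTS.Term

universe u
variable {S : Type u} {P : Spec S} {U : Univ P} {s0 : S}

namespace Logic
variable (L : Logic U s0)

/-- The outer walk of a connective. -/
def ε (r : Con) : List (Wr S) := L.δ ++ .res (L.tag r) (L.e r) :: L.β r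

/-- Negation. -/
def neg (θ : ℕ → Term S) (A : Term S) : Term S := wrap θ L.ν A

/-- The type of proofs of `A`. -/
def nn (θ : ℕ → Term S) (A : Term S) : Term S := L.neg θ (L.neg θ A)

/-- The product inside a connective (`B` binds variable 0). -/
def core (θ : ℕ → Term S) (r : Con) (D B : Term S) : Term S :=
  pi D (wrap (wkS θ) (L.γ r) (L.neg (wkS θ) B))

/-- The connective `r` with domain `D` and body `B` (binding variable 0). -/
def piC (θ : ℕ → Term S) (r : Con) (D B : Term S) : Term S :=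
  wrap θ (L.ε r) (L.core θ r D B)

/-- The process made of a proof `M` of `A` and a stack `k` against `A`. -/
def run (θ : ℕ → Term S) (A M k : Term S) : Term S :=
  inst M (cv θ L.ν (L.neg θ A) k)

/-- Canonical value of a connective (`B`, `M` bind variable 0). -/
def valC (θ : ℕ → Term S) (r : Con) (D B M : Term S) : Term S :=
  vl θ (L.ε r) (L.core θ r D B)
    (lam D (vl (wkS θ) (L.γ r) (L.neg (wkS θ) B)
      (L.run (wkS (wkS θ)) (wk B) (wk M) (var 0))))

/-- Introduction. -/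
def lamP (θ : ℕ → Term S) (r : Con) (D B M : Term S) : Term S :=
  vl θ L.ν (L.neg θ (L.piC θ r D B))
    (inst (var 0) (cv (wkS θ) L.ν (wk (L.piC θ r D B)) (wk (L.valC θ r D B M))))

/-- The stack with top argument `a` and rest `k`. -/
def consP (θ : ℕ → Term S) (r : Con) (D B a k : Term S) : Term S :=
  vl θ L.ν (L.piC θ r D B)
    (cv θ (L.ε r) (L.core θ r D B) (holeApp a (cv θ (L.γ r) (L.neg θ (inst a B)) k)))

/-- Elimination. -/
def appP (θ : ℕ → Term S) (r : Con) (D B M a : Term S) : Term S :=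
  vl θ L.ν (L.neg θ (inst a B))
    (L.run (wkS θ) (wk (L.piC θ r D B)) (wk M)
      (L.consP (wkS θ) r (wk D) (ren (upr Nat.succ) B) (wk a) (var 0)))

/-- Implication. -/
def impC (θ : ℕ → Term S) (A B : Term S) : Term S := L.piC θ .imp (L.nn θ A) (wk B)
/-- The atom. -/
def botC (θ : ℕ → Term S) : Term S := L.piC θ .bot (sub θ L.oc) (wk (sub θ L.oc))
/-- The modality: vacuous quantification. -/
def md (θ : ℕ → Term S) (φ : Term S) : Term S := L.piC θ .qe (sub θ L.oe) (wk φ)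
/-- Introduction of the iterated modality. -/
def mdI (θ : ℕ → Term S) (φ M : Term S) : ℕ → Term S
  | 0 => M
  | n + 1 => L.lamP θ .qe (sub θ L.oe) (wk ((L.md θ)^[n] φ)) (wk (mdI θ φ M n))
/-- Elimination of the iterated modality. -/
def mdE (θ : ℕ → Term S) (φ : Term S) : ℕ → Term S → Term S
  | 0, M => M
  | n + 1, M => mdE θ φ n (L.appP θ .qe (sub θ L.oe) (wk ((L.md θ)^[n] φ)) M (sub θ L.de))

theorem mdI_anchor : type_of% @mdI.eq_def := @mdI.eq_def
theorem mdE_anchor : type_of% @mdE.eq_def := @mdE.eq_def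

/-! ### Naturality -/
section nat
variable (σ θ : ℕ → Term S)

theorem par_eps (r : Con) : par (L.ε r) = false := L.par_ε r
theorem wt_eps (r : Con) : WT U L.R L.c (L.ε r) (L.s₃ r) := L.wt_ε r
theorem strict_eps (r : Con) : StrictW (L.ε r) := L.strict_ε r

theorem machine_sub_up_up_ren (B : Term S) :
    sub (up (up σ)) (ren (upr Nat.succ) B) = ren (upr Nat.succ) (sub (up σ) B) := by
  have h := sub_up_wk σ (pi (var 0) B)
  rw [wk_pi, sub_pi, sub_pi, wk_pi] at h
  exact (Term.pi.inj h).2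

theorem machine_inst_up_ren (k B : Term S) :
    sub (up (scons k var)) (ren (upr Nat.succ) B) = B := by
  have h := inst_wk k (pi (var 0) B)
  rw [wk_pi, inst, sub_pi] at h
  exact (Term.pi.inj h).2

theorem machine_inst_wkS (a : Term S) : (fun i => sub (scons a var) (wkS θ i)) = θ := by
  funext i; simp

theorem sub_neg (A : Term S) :
    sub σ (L.neg θ A) = L.neg (fun i => sub σ (θ i)) (sub σ A) := sub_wrap σ θ L.ν A
theorem sub_nn (A : Term S) :
    sub σ (L.nn θ A) = L.nn (fun i => sub σ (θ i)) (sub σ A) := by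
  rw [nn, sub_neg, sub_neg, nn]
theorem wk_neg (A : Term S) : wk (L.neg θ A) = L.neg (wkS θ) (wk A) := wk_wrap θ L.ν A
theorem wk_nn (A : Term S) : wk (L.nn θ A) = L.nn (wkS θ) (wk A) := by
  rw [nn, wk_neg, wk_neg, nn]
theorem sub_core (r : Con) (D B : Term S) :
    sub σ (L.core θ r D B) = L.core (fun i => sub σ (θ i)) r (sub σ D) (sub (up σ) B) := by
  rw [core, sub_pi, sub_wrap, sub_neg, sub_up_wkS, core]
theorem sub_piC (r : Con) (D B : Term S) :
    sub σ (L.piC θ r D B) = L.piC (fun i => sub σ (θ i)) r (sub σ D) (sub (up σ) B) := by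
  rw [piC, sub_wrap, sub_core, piC]
theorem wk_piC (r : Con) (D B : Term S) :
    wk (L.piC θ r D B) = L.piC (wkS θ) r (wk D) (ren (upr Nat.succ) B) := by
  rw [wk_eq_sub, sub_piC, up_var_comp, ← ren_eq_sub, ← ren_eq_sub]
  congr 1
  funext i
  rw [wkS_apply, wk_eq_sub]
theorem sub_run (A M k : Term S) :
    sub σ (L.run θ A M k) = L.run (fun i => sub σ (θ i)) (sub σ A) (sub σ M) (sub σ k) := by
  rw [run, sub_inst', sub_cv, sub_neg, L.par_ν, if_pos rfl, run]
theorem sub_valC (r : Con) (D B M : Term S) :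
    sub σ (L.valC θ r D B M)
      = L.valC (fun i => sub σ (θ i)) r (sub σ D) (sub (up σ) B) (sub (up σ) M) := by
  rw [valC, sub_vl, par_eps, if_neg Bool.false_ne_true, sub_core, sub_lam, sub_vl, L.par_γ,
    if_pos rfl, sub_neg, sub_run, sub_up_wkS, sub_up_wkS, sub_up_wkS, sub_up_wk, sub_up_wk,
    sub_var, up_zero, valC]
theorem sub_lamP (r : Con) (D B M : Term S) :
    sub σ (L.lamP θ r D B M)
      = L.lamP (fun i => sub σ (θ i)) r (sub σ D) (sub (up σ) B) (sub (up σ) M) := by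
  rw [lamP, sub_vl, L.par_ν, if_pos rfl, sub_neg, sub_inst', sub_cv, L.par_ν, if_pos rfl,
    sub_up_wk, sub_up_wk, sub_up_wkS, sub_piC, sub_valC, sub_var, up_zero, lamP]
theorem sub_consP (r : Con) (D B a k : Term S) :
    sub σ (L.consP θ r D B a k)
      = L.consP (fun i => sub σ (θ i)) r (sub σ D) (sub (up σ) B) (sub σ a) (sub σ k) := by
  rw [consP, sub_vl, L.par_ν, if_pos rfl, sub_cv, par_eps, if_neg Bool.false_ne_true,
    sub_up_holeApp, sub_cv, L.par_γ, if_pos rfl, sub_neg, sub_inst', sub_piC, sub_core, consP]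
theorem sub_appP (r : Con) (D B M a : Term S) :
    sub σ (L.appP θ r D B M a)
      = L.appP (fun i => sub σ (θ i)) r (sub σ D) (sub (up σ) B) (sub σ M) (sub σ a) := by
  rw [appP, sub_vl, L.par_ν, if_pos rfl, sub_neg, sub_inst', sub_run, sub_consP, sub_up_wkS,
    sub_up_wk, sub_up_wk, sub_up_wk, sub_up_wk, machine_sub_up_up_ren, sub_piC, sub_var, up_zero,
    appP]
theorem sub_impC (A B : Term S) :
    sub σ (L.impC θ A B) = L.impC (fun i => sub σ (θ i)) (sub σ A) (sub σ B) := by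
  rw [impC, sub_piC, sub_nn, sub_up_wk, impC]
theorem sub_botC : sub σ (L.botC θ) = L.botC (fun i => sub σ (θ i)) := by
  rw [botC, sub_piC, sub_up_wk, sub_sub, botC]
theorem sub_md (φ : Term S) : sub σ (L.md θ φ) = L.md (fun i => sub σ (θ i)) (sub σ φ) := by
  rw [md, sub_piC, sub_up_wk, sub_sub, md]
theorem sub_md_iter (φ : Term S) (n : ℕ) :
    sub σ ((L.md θ)^[n] φ) = (L.md (fun i => sub σ (θ i)))^[n] (sub σ φ) := by
  induction n with
  | zero => rfl
  | succ n ih => rw [Function.iterate_succ_apply', Function.iterate_succ_apply', sub_md, ih]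
theorem sub_mdI (φ M : Term S) (n : ℕ) :
    sub σ (L.mdI θ φ M n) = L.mdI (fun i => sub σ (θ i)) (sub σ φ) (sub σ M) n := by
  induction n with
  | zero => rfl
  | succ n ih =>
    rw [mdI, sub_lamP, sub_up_wk, sub_up_wk, sub_sub, sub_md_iter, ih, mdI]
theorem sub_mdE (φ M : Term S) (n : ℕ) :
    sub σ (L.mdE θ φ n M) = L.mdE (fun i => sub σ (θ i)) (sub σ φ) n (sub σ M) := by
  induction n generalizing M with
  | zero => rfl
  | succ n ih =>
    rw [mdE, ih, sub_appP, sub_up_wk, sub_sub, sub_sub, sub_md_iter, mdE]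

end nat

/-! ### Conversion -/

theorem beq_nn (θ : ℕ → Term S) {A A' : Term S} (h : BetaEq A A') :
    BetaEq (L.nn θ A) (L.nn θ A') := beq_wrap _ _ (beq_wrap _ _ h)
theorem beq_piC (θ : ℕ → Term S) (r : Con) {D D' B B' : Term S} (h : BetaEq D D')
    (h' : BetaEq B B') : BetaEq (L.piC θ r D B) (L.piC θ r D' B') :=
  beq_wrap _ _ (beq_pi h (beq_wrap _ _ (beq_wrap _ _ h')))
theorem beq_md (θ : ℕ → Term S) (φ ψ : Term S) (h : BetaEq φ ψ) :
    BetaEq (L.md θ φ) (L.md θ ψ) := L.beq_piC θ .qe (beq_refl _) (beq_wk h)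
theorem piC_inj {r r' : Con} {D D' B B' : Term S}
    (h : BetaEq (L.piC var r D B) (L.piC var r' D' B')) :
    r = r' ∧ BetaEq D D' ∧ BetaEq B B' := by
  rw [piC, piC, ε, ε, wrap_append, wrap_append] at h
  have h1 := beq_of_wrap h
  rw [wrap_res, wrap_res, sub_id, sub_id] at h1
  obtain ⟨h2, h3⟩ := beq_pi_inj h1
  have hr := L.tag_inj r r' h2
  subst hr
  obtain ⟨h4, h5⟩ := beq_pi_inj (beq_of_wrap (beq_of_wk h3))
  exact ⟨rfl, h4, beq_of_wrap (beq_of_wrap h5)⟩

/-! ### Typing -/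
section ty
variable {Γ : Ctx S} {θ : ℕ → Term S}

theorem ty_neg (hθ : SubTy P Γ θ U.Θ) {A : Term S} (hA : Ty P Γ A (sort L.c)) :
    Ty P Γ (L.neg θ A) (sort L.c) := L.wt_ν.ty_wrap hθ hA
theorem ty_nn (hθ : SubTy P Γ θ U.Θ) {A : Term S} (hA : Ty P Γ A (sort L.c)) :
    Ty P Γ (L.nn θ A) (sort L.c) := L.ty_neg hθ (L.ty_neg hθ hA)
theorem ty_piC (hθ : SubTy P Γ θ U.Θ) {r : Con} {D B : Term S}
    (hD : Ty P Γ D (sort (L.s₁ r))) (hB : Ty P (ext Γ D) B (sort L.c)) :
    Ty P Γ (L.piC θ r D B) (sort L.c) :=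
  (L.wt_eps r).ty_wrap hθ
    (Ty.pi hD ((L.wt_γ r).ty_wrap (hθ.wkS D) (L.ty_neg (hθ.wkS D) hB)) (L.rule r))
theorem ty_core (hθ : SubTy P Γ θ U.Θ) {r : Con} {D B : Term S}
    (hD : Ty P Γ D (sort (L.s₁ r))) (hB : Ty P (ext Γ D) B (sort L.c)) :
    Ty P Γ (L.core θ r D B) (sort (L.s₃ r)) :=
  Ty.pi hD ((L.wt_γ r).ty_wrap (hθ.wkS D) (L.ty_neg (hθ.wkS D) hB)) (L.rule r)
theorem ty_run (hθ : SubTy P Γ θ U.Θ) {A M k : Term S} (hA : Ty P Γ A (sort L.c))
    (hM : Ty P Γ M (L.nn θ A)) (hk : Ty P Γ k (L.neg θ A)) :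
    Ty P Γ (L.run θ A M k) (sub θ L.R) := by
  have h := (L.wt_ν.ty_cv_odd hθ (L.ty_neg hθ hA) L.par_ν hk).inst hM
  rwa [inst_wk] at h
theorem ty_valC (hθ : SubTy P Γ θ U.Θ) {r : Con} {D B M : Term S}
    (hD : Ty P Γ D (sort (L.s₁ r))) (hB : Ty P (ext Γ D) B (sort L.c))
    (hM : Ty P (ext Γ D) M (L.nn (wkS θ) B)) :
    Ty P Γ (L.valC θ r D B M) (L.piC θ r D B) := by
  refine (L.wt_eps r).ty_vl_even hθ (L.ty_core hθ hD hB) (L.par_eps r) ?_
  refine Ty.lam ?_ (L.ty_core hθ hD hB)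
  refine (L.wt_γ r).ty_vl_odd (hθ.wkS D) (L.ty_neg (hθ.wkS D) hB) (L.par_γ r) ?_
  rw [wk_sub]
  refine L.ty_run ((hθ.wkS D).wkS _) (hB.wk_sort _) ?_ ?_
  · rw [← wk_nn]; exact hM.wk _
  · rw [← wk_neg]; exact Ty.var 0
theorem ty_consP (hθ : SubTy P Γ θ U.Θ) {r : Con} {D B a k : Term S}
    (hD : Ty P Γ D (sort (L.s₁ r))) (hB : Ty P (ext Γ D) B (sort L.c))
    (ha : Ty P Γ a D) (hk : Ty P Γ k (L.neg θ (inst a B))) :
    Ty P Γ (L.consP θ r D B a k) (L.neg θ (L.piC θ r D B)) := by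
  refine L.wt_ν.ty_vl_odd hθ (L.ty_piC hθ hD hB) L.par_ν ?_
  refine (L.wt_eps r).ty_cv_even hθ (L.ty_core hθ hD hB) (L.par_eps r) ?_
  refine ty_holeApp ha ?_
  have e : inst a (wrap (wkS θ) (L.γ r) (L.neg (wkS θ) B))
      = wrap θ (L.γ r) (L.neg θ (inst a B)) := by
    rw [inst, sub_wrap, sub_neg, machine_inst_wkS, inst]
  rw [e]
  exact (L.wt_γ r).ty_cv_odd hθ (L.ty_neg hθ (hB.inst ha)) (L.par_γ r) hk
theorem ty_lamP (hθ : SubTy P Γ θ U.Θ) {r : Con} {D B M : Term S}
    (hD : Ty P Γ D (sort (L.s₁ r))) (hB : Ty P (ext Γ D) B (sort L.c))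
    (hM : Ty P (ext Γ D) M (L.nn (wkS θ) B)) :
    Ty P Γ (L.lamP θ r D B M) (L.nn θ (L.piC θ r D B)) := by
  have hC := L.ty_piC hθ hD hB
  refine L.wt_ν.ty_vl_odd hθ (L.ty_neg hθ hC) L.par_ν ?_
  have h := (L.wt_ν.ty_cv_odd (hθ.wkS (L.neg θ (L.piC θ r D B))) (hC.wk_sort _) L.par_ν
    ((L.ty_valC hθ hD hB hM).wk _)).inst (N := var 0) (by
      rw [← wk_wrap]; exact Ty.var 0)
  rwa [inst_wk, ← wk_sub] at h
theorem ty_appP (hθ : SubTy P Γ θ U.Θ) {r : Con} {D B M a : Term S}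
    (hD : Ty P Γ D (sort (L.s₁ r))) (hB : Ty P (ext Γ D) B (sort L.c))
    (hM : Ty P Γ M (L.nn θ (L.piC θ r D B))) (ha : Ty P Γ a D) :
    Ty P Γ (L.appP θ r D B M a) (L.nn θ (inst a B)) := by
  have hC := L.ty_piC hθ hD hB
  refine L.wt_ν.ty_vl_odd hθ (L.ty_neg hθ (hB.inst ha)) L.par_ν ?_
  rw [wk_sub]
  refine L.ty_run (hθ.wkS _) (hC.wk_sort _) ?_ ?_
  · rw [← wk_nn]; exact hM.wk _
  · rw [wk_piC]
    refine L.ty_consP (hθ.wkS _) (hD.wk_sort _) ?_ (ha.wk _) ?_
    · exact hB.ren (ξ := upr Nat.succ) (ext_upr (fun i => rfl) D)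
    · have e : inst (wk a) (ren (upr Nat.succ) B) = wk (inst a B) := (ren_inst _ _ _).symm
      rw [e, ← wk_neg]
      exact Ty.var 0
theorem ty_impC (hθ : SubTy P Γ θ U.Θ) {A B : Term S} (hA : Ty P Γ A (sort L.c))
    (hB : Ty P Γ B (sort L.c)) : Ty P Γ (L.impC θ A B) (sort L.c) :=
  L.ty_piC hθ (by rw [L.s₁_imp]; exact L.ty_nn hθ hA) (hB.wk_sort _)
theorem ty_botC (hθ : SubTy P Γ θ U.Θ) : Ty P Γ (L.botC θ) (sort L.c) :=
  L.ty_piC hθ (by rw [L.s₁_bot]; exact L.ty_oc.sub_sort hθ) ((L.ty_oc.sub_sort hθ).wk_sort _)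
theorem ty_md (hθ : SubTy P Γ θ U.Θ) {φ : Term S} (h : Ty P Γ φ (sort L.c)) :
    Ty P Γ (L.md θ φ) (sort L.c) :=
  L.ty_piC hθ (L.ty_oe.sub_sort hθ) (h.wk_sort _)
theorem ty_md_iter (hθ : SubTy P Γ θ U.Θ) {φ : Term S} (h : Ty P Γ φ (sort L.c)) (n : ℕ) :
    Ty P Γ ((L.md θ)^[n] φ) (sort L.c) := by
  induction n with
  | zero => exact h
  | succ n ih => rw [Function.iterate_succ_apply']; exact L.ty_md hθ ih
theorem ty_mdI (hθ : SubTy P Γ θ U.Θ) {φ M : Term S} (h : Ty P Γ φ (sort L.c))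
    (hM : Ty P Γ M (L.nn θ φ)) (n : ℕ) :
    Ty P Γ (L.mdI θ φ M n) (L.nn θ ((L.md θ)^[n] φ)) := by
  induction n with
  | zero => exact hM
  | succ n ih =>
    rw [Function.iterate_succ_apply']
    refine L.ty_lamP hθ (L.ty_oe.sub_sort hθ) ((L.ty_md_iter hθ h n).wk_sort _) ?_
    rw [← wk_nn]; exact ih.wk _
theorem ty_mdE (hθ : SubTy P Γ θ U.Θ) {φ M : Term S} (h : Ty P Γ φ (sort L.c)) (n : ℕ)
    (hM : Ty P Γ M (L.nn θ ((L.md θ)^[n] φ))) : Ty P Γ (L.mdE θ φ n M) (L.nn θ φ) := by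
  induction n generalizing M with
  | zero => exact hM
  | succ n ih =>
    rw [Function.iterate_succ_apply'] at hM
    refine ih ?_
    have h' := L.ty_appP hθ (L.ty_oe.sub_sort hθ) ((L.ty_md_iter hθ h n).wk_sort _) hM
      (L.ty_de.sub hθ)
    rwa [inst_wk] at h'

end ty

/-- Untyped proofs from hypotheses `H` (`H M A`: the term `M` is assumed to prove `A`). -/
inductive Prf : (Term S → Term S → Prop) → Term S → Term S → Prop
  | hyp {H : Term S → Term S → Prop} {A M : Term S} : H M A → Prf H A M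
  | conv {H : Term S → Term S → Prop} {A A' M : Term S} :
      Prf H A M → BetaEq A A' → Prf H A' M
  | impI {H : Term S → Term S → Prop} {A B M : Term S} :
      (∀ h, Prf (fun N C => H N C ∨ (N = h ∧ C = A)) B (inst h M)) →
      Prf H (L.impC var A B) (L.lamP var .imp (L.nn var A) (wk B) M)
  | impE {H : Term S → Term S → Prop} {A B M N : Term S} :
      Prf H (L.impC var A B) M → Prf H A N →
      Prf H B (L.appP var .imp (L.nn var A) (wk B) M N)
  | allI {H : Term S → Term S → Prop} {r : Con} {D B M : Term S} : r = .qe ∨ r = .qo →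
      (∀ a, Prf H (inst a B) (inst a M)) → Prf H (L.piC var r D B) (L.lamP var r D B M)
  | allE {H : Term S → Term S → Prop} {r : Con} {D B M : Term S} (a : Term S) :
      r = .qe ∨ r = .qo → Prf H (L.piC var r D B) M → Prf H (inst a B) (L.appP var r D B M a)

theorem Prf.weaken {H H' : Term S → Term S → Prop} {A M : Term S} (h : L.Prf H A M)
    (hH : ∀ N C, H N C → H' N C) : L.Prf H' A M := by
  induction h generalizing H' with
  | hyp h => exact Prf.hyp (hH _ _ h)
  | conv _ hb ih => exact Prf.conv (ih hH) hb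
  | impI _ ih => exact Prf.impI fun h => ih h fun N C hN => hN.imp (hH N C) id
  | impE _ _ ih₁ ih₂ => exact Prf.impE (ih₁ hH) (ih₂ hH)
  | allI hr _ ih => exact Prf.allI hr fun a => ih a hH
  | allE a hr _ ih => exact Prf.allE a hr (ih hH)

theorem Prf.mono {H H' : Term S → Term S → Prop} {A M : Term S} (h : L.Prf H A M)
    (hH : ∀ N C, H N C → L.Prf H' C N) : L.Prf H' A M := by
  induction h generalizing H' with
  | hyp h => exact hH _ _ h
  | conv _ hb ih => exact Prf.conv (ih hH) hb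
  | impI _ ih =>
    refine Prf.impI fun h => ih h fun N C hN => ?_
    rcases hN with hN | hN
    · exact Prf.weaken L (hH N C hN) fun _ _ h' => Or.inl h'
    · exact Prf.hyp (Or.inr hN)
  | impE _ _ ih₁ ih₂ => exact Prf.impE (ih₁ hH) (ih₂ hH)
  | allI hr _ ih => exact Prf.allI hr fun a => ih a hH
  | allE a hr _ ih => exact Prf.allE a hr (ih hH)

theorem prf_mdI {H : Term S → Term S → Prop} {φ M : Term S} (h : L.Prf H φ M) (n : ℕ) :
    L.Prf H ((L.md var)^[n] φ) (L.mdI var φ M n) := by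
  induction n with
  | zero => exact h
  | succ n ih =>
    rw [Function.iterate_succ_apply']
    refine Prf.allI (Or.inl rfl) fun a => ?_
    rw [inst_wk, inst_wk]
    exact ih
theorem prf_mdE {H : Term S → Term S → Prop} {φ M : Term S} (n : ℕ)
    (h : L.Prf H ((L.md var)^[n] φ) M) : L.Prf H φ (L.mdE var φ n M) := by
  induction n generalizing M with
  | zero => exact h
  | succ n ih =>
    rw [Function.iterate_succ_apply'] at h
    refine ih ?_
    have h' := Prf.allE (sub var L.de) (Or.inl rfl) h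
    rwa [inst_wk] at h'

/-! ### The abstract machine -/

theorem gt_appP (X : Term S) (r : Con) (D B M a k : Term S) :
    Gt (L.run var X (L.appP var r D B M a) k)
      (L.run var (L.piC var r D B) M (L.consP var r D B a k)) := by
  have h := gt_odd L.par_ν L.strict_ν L.ends_ν (L.neg var (inst a B)) (L.neg var X)
    (L.run (wkS var) (wk (L.piC var r D B)) (wk M)
      (L.consP (wkS var) r (wk D) (ren (upr Nat.succ) B) (wk a) (var 0))) k
  have e : inst k (L.run (wkS var) (wk (L.piC var r D B)) (wk M)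
      (L.consP (wkS var) r (wk D) (ren (upr Nat.succ) B) (wk a) (var 0)))
      = L.run var (L.piC var r D B) M (L.consP var r D B a k) := by
    rw [inst, sub_run, sub_consP, machine_inst_wkS, machine_inst_up_ren]
    simp only [sub_scons_wk, sub_id, sub_var, scons_zero]
  rw [e] at h
  exact h

theorem gt_lamP (X : Term S) (r : Con) (D B M D' B' a k : Term S) :
    Gt (L.run var X (L.lamP var r D B M) (L.consP var r D' B' a k))
      (L.run var (inst a B) (inst a M) k) := by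
  have h1 := gt_odd L.par_ν L.strict_ν L.ends_ν (L.neg var (L.piC var r D B)) (L.neg var X)
    (inst (var 0) (cv (wkS var) L.ν (wk (L.piC var r D B)) (wk (L.valC var r D B M))))
    (L.consP var r D' B' a k)
  have e1 : inst (L.consP var r D' B' a k)
      (inst (var 0) (cv (wkS var) L.ν (wk (L.piC var r D B)) (wk (L.valC var r D B M))))
      = inst (L.consP var r D' B' a k)
        (cv var L.ν (L.piC var r D B) (L.valC var r D B M)) := by
    rw [inst, sub_inst', sub_cv, L.par_ν, if_pos rfl, machine_inst_wkS]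
    simp only [sub_scons_wk, sub_id, sub_var, scons_zero]
  rw [e1] at h1
  have h2 := gt_odd L.par_ν L.strict_ν L.ends_ν (L.piC var r D' B') (L.piC var r D B)
    (cv var (L.ε r) (L.core var r D' B')
      (holeApp a (cv var (L.γ r) (L.neg var (inst a B')) k))) (L.valC var r D B M)
  obtain ⟨l, hl, hgt⟩ := gt_odd_core (L.par_γ r) (L.strict_γ r) (L.ends_γ r)
    (L.neg var (inst a B')) k
  have h3 := ge_even (L.par_eps r) (L.strict_eps r) (hl.holeApp a) (L.core var r D B)
    (L.core var r D' B') (lam D (vl (wkS var) (L.γ r) (L.neg (wkS var) B)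
      (L.run (wkS (wkS var)) (wk B) (wk M) (var 0))))
  have h4 := gt_of_wh ((Wh.beta D (vl (wkS var) (L.γ r) (L.neg (wkS var) B)
      (L.run (wkS (wkS var)) (wk B) (wk M) (var 0))) a).apps l)
  have e4 : inst a (vl (wkS var) (L.γ r) (L.neg (wkS var) B)
      (L.run (wkS (wkS var)) (wk B) (wk M) (var 0)))
      = vl var (L.γ r) (L.neg var (inst a B))
        (L.run (wkS var) (wk (inst a B)) (wk (inst a M)) (var 0)) := by
    rw [inst, sub_vl, L.par_γ, if_pos rfl, sub_neg, sub_run, sub_up_wkS, machine_inst_wkS,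
      sub_up_wk, sub_up_wk, sub_var, up_zero, inst, inst]
  rw [e4] at h4
  have h5 := hgt (L.neg var (inst a B)) (L.run (wkS var) (wk (inst a B)) (wk (inst a M)) (var 0))
  have e5 : inst k (L.run (wkS var) (wk (inst a B)) (wk (inst a M)) (var 0))
      = L.run var (inst a B) (inst a M) k := by
    rw [inst, sub_run, machine_inst_wkS]
    simp only [sub_scons_wk, sub_id, sub_var, scons_zero]
  rw [e5] at h5
  exact h1.trans_ge (h2.ge.trans (h3.trans (h4.ge.trans h5.ge)))

/-- Stacks against a proposition. -/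
inductive Stk : Term S → Term S → Prop
  | base (k : Term S) : Stk (L.botC var) k
  | conv {A A' k : Term S} : Stk A k → BetaEq A A' → Stk A' k
  | impC {A B N k : Term S} : L.Prf (fun _ _ => False) A N → Stk B k →
      Stk (L.impC var A B) (L.consP var .imp (L.nn var A) (wk B) N k)
  | allC {r : Con} {D B a k : Term S} : r = .qe ∨ r = .qo → Stk (inst a B) k →
      Stk (L.piC var r D B) (L.consP var r D B a k)

theorem Stk.inv_imp {T k A B : Term S} (h : L.Stk T k) (hT : BetaEq T (L.impC var A B)) :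
    ∃ D' B' N k₀, k = L.consP var .imp D' B' N k₀ ∧ L.Prf (fun _ _ => False) A N ∧
      L.Stk B k₀ := by
  induction h with
  | base k => exact absurd (L.piC_inj hT).1 (by decide)
  | conv _ hb ih => exact ih (beq_trans hb hT)
  | impC hN hk _ =>
    obtain ⟨-, h1, h2⟩ := L.piC_inj hT
    exact ⟨_, _, _, _, rfl, Prf.conv hN (beq_of_wrap (beq_of_wrap h1)),
      Stk.conv hk (beq_of_wk h2)⟩
  | allC hr _ _ =>
    have h1 := (L.piC_inj hT).1
    subst h1
    exact absurd hr (by decide)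

theorem Stk.inv_all {T k D B : Term S} {r : Con} (hr : r = .qe ∨ r = .qo) (h : L.Stk T k)
    (hT : BetaEq T (L.piC var r D B)) :
    ∃ D' B' a k₀, k = L.consP var r D' B' a k₀ ∧ L.Stk (inst a B) k₀ := by
  induction h with
  | base k =>
    have h1 := (L.piC_inj hT).1
    subst h1
    exact absurd hr (by decide)
  | conv _ hb ih => exact ih (beq_trans hb hT)
  | impC _ _ _ =>
    have h1 := (L.piC_inj hT).1
    subst h1
    exact absurd hr (by decide)
  | allC _ hk _ =>
    obtain ⟨h1, -, h2⟩ := L.piC_inj hT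
    subst h1
    exact ⟨_, _, _, _, rfl, Stk.conv hk (beq_inst (beq_refl _) h2)⟩

theorem machine_step {H : Term S → Term S → Prop} {A M : Term S} (h : L.Prf H A M)
    (hH : ∀ N C, ¬ H N C) (X : Term S) {k : Term S} (hk : L.Stk A k) :
    ∃ X' A' M' k', L.Prf (fun _ _ => False) A' M' ∧ L.Stk A' k' ∧
      Gt (L.run var X M k) (L.run var X' M' k') := by
  induction h with
  | hyp h => exact absurd h (hH _ _)
  | conv _ hb ih => exact ih hH (Stk.conv hk (beq_symm hb))
  | impI h _ =>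
    obtain ⟨D', B', N, k₀, rfl, hN, hk₀⟩ := Stk.inv_imp L hk (beq_refl _)
    refine ⟨_, _, _, _, Prf.mono L (h N) fun N' C hN' => ?_, hk₀,
      L.gt_lamP X _ _ _ _ _ _ _ _⟩
    rcases hN' with hN' | ⟨rfl, rfl⟩
    · exact absurd hN' (hH _ _)
    · exact hN
  | impE h₁ h₂ _ _ =>
    exact ⟨_, _, _, _, Prf.weaken L h₁ hH, Stk.impC (Prf.weaken L h₂ hH) hk,
      L.gt_appP X _ _ _ _ _ _⟩
  | allI hr h _ =>
    obtain ⟨D', B', a, k₀, rfl, hk₀⟩ := Stk.inv_all L hr hk (beq_refl _)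
    exact ⟨_, _, _, _, Prf.weaken L (h a) hH, hk₀, L.gt_lamP X _ _ _ _ _ _ _ _⟩
  | allE a hr h _ =>
    exact ⟨_, _, _, _, Prf.weaken L h hH, Stk.allC hr hk, L.gt_appP X _ _ _ _ _ _⟩

/-- There is no typed closed proof of the atom. -/
theorem no_proof {M : Term S} (h : L.Prf (fun _ _ => False) (L.botC var) M)
    (hM : Ty P U.Θ M (L.nn var (L.botC var))) : False := by
  have hb := L.ty_botC (Γ := U.Θ) subTy_id
  obtain ⟨i, hi⟩ := U.exists_var (L.ty_neg subTy_id hb)
  refine no_descent (St := fun Q => ∃ X A M k, L.Prf (fun _ _ => False) A M ∧ L.Stk A k ∧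
    Q = L.run var X M k) ?_ ⟨_, _, M, var i, h, Stk.base _, rfl⟩
    (U.wn (L.ty_run subTy_id hb hM hi))
  rintro Q ⟨X, A, M, k, hM, hk, rfl⟩
  obtain ⟨X', A', M', k', hM', hk', hgt⟩ := L.machine_step hM (fun _ _ h => h) X hk
  exact ⟨_, ⟨X', A', M', k', hM', hk', rfl⟩, hgt⟩

end Logic

end Crest.Agent.R298
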