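import Crest.Agent.R298.Nf

/-! Row 298: strong normalization, accessibility form and inductive characterisation. -/

set_option autoImplicit false

namespace Crest.Agent.R298
open Crest.LogicCS.PTS Crest.LogicCS.PTS.Term

universe u
variable {S : Type u}

/-- Strong normalization as accessibility. -/
def SNa (M : Term S) : Prop := Acc (fun N M : Term S => Beta M N) M

/-- Inductive characterisation of strong normalization. -/
inductive SNi : Term S → Prop
  | var (i : ℕ) : SNi (var i)
  | sort (s : S) : SNi (sort s)
  | lam {A b : Term S} : SNi A → SNi b → SNi (lam A b)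
  | pi {A B : Term S} : SNi A → SNi B → SNi (pi A B)
  | app {M N : Term S} : Stuck M → SNi M → SNi N → SNi (app M N)
  | red {A b N : Term S} {l : List (Term S)} :
      SNi A → SNi N → SNi (apps (inst N b) l) → SNi (apps (app (lam A b) N) l)

theorem SNa.sn {M : Term S} (h : SNa M) : SN M := by
  unfold SNa at h
  induction h with
  | intro M _ ih =>
    rintro ⟨f, h0, hf⟩
    exact ih (f 1) (h0 ▸ hf 0) ⟨fun n => f (n + 1), rfl, fun n => hf (n + 1)⟩

theorem SNa.beta {M N : Term S} (h : SNa M) (hb : Beta M N) : SNa N := Acc.inv h hb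

theorem SNa.star {M N : Term S} (h : SNa M) (hb : Star M N) : SNa N := by
  induction hb with
  | refl => exact h
  | tail _ hb ih => exact ih.beta hb

theorem sna_intro {M : Term S} (h : ∀ N, Beta M N → SNa N) : SNa M := Acc.intro M h

theorem sna_var (i : ℕ) : SNa (var i : Term S) := sna_intro fun _ h => by cases h

theorem sna_sort (s : S) : SNa (sort s : Term S) := sna_intro fun _ h => by cases h

/-- Strong normalization is reflected by maps that preserve steps. -/
theorem sna_of_map (φ : Term S → Term S) (hφ : ∀ M N, Beta M N → Beta (φ M) (φ N)) {M : Term S}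
    (h : SNa (φ M)) : SNa M := by
  generalize hX : φ M = X at h
  unfold SNa at h
  induction h generalizing M with
  | intro X _ ih => exact sna_intro fun N hN => ih (φ N) (hX ▸ hφ _ _ hN) rfl

theorem sna_lam_iff {A b : Term S} : SNa (lam A b) ↔ SNa A ∧ SNa b := by
  refine ⟨fun h => ⟨sna_of_map (fun X => lam X b) (fun _ _ => Beta.lamA b) h,
    sna_of_map (fun X => lam A X) (fun _ _ => Beta.lamM A) h⟩, ?_⟩
  rintro ⟨hA, hb⟩
  unfold SNa at hA hb
  induction hA generalizing b with
  | intro A hA ihA =>
    induction hb with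
    | intro b hb ihb =>
      refine sna_intro fun T hT => ?_
      cases hT with
      | lamA _ h => exact ihA _ h (Acc.intro b hb)
      | lamM _ h => exact ihb _ h

theorem sna_pi_iff {A b : Term S} : SNa (pi A b) ↔ SNa A ∧ SNa b := by
  refine ⟨fun h => ⟨sna_of_map (fun X => pi X b) (fun _ _ => Beta.piA b) h,
    sna_of_map (fun X => pi A X) (fun _ _ => Beta.piB A) h⟩, ?_⟩
  rintro ⟨hA, hb⟩
  unfold SNa at hA hb
  induction hA generalizing b with
  | intro A hA ihA =>
    induction hb with
    | intro b hb ihb =>
      refine sna_intro fun T hT => ?_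
      cases hT with
      | piA _ h => exact ihA _ h (Acc.intro b hb)
      | piB _ h => exact ihb _ h

theorem SNa.app_left {M N : Term S} (h : SNa (app M N)) : SNa M :=
  sna_of_map (fun X => app X N) (fun _ _ => Beta.appL N) h

theorem SNa.app_right {M N : Term S} (h : SNa (app M N)) : SNa N :=
  sna_of_map (fun X => app M X) (fun _ _ => Beta.appR M) h

theorem sna_app_stuck {M N : Term S} (hs : Stuck M) (hM : SNa M) (hN : SNa N) :
    SNa (app M N) := by
  unfold SNa at hM hN
  induction hM generalizing N with
  | intro M hM ihM =>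
    induction hN with
    | intro N hN ihN =>
      refine sna_intro fun T hT => ?_
      cases hT with
      | redex A b _ => cases hs
      | appL _ h => exact ihM _ h (hs.beta h) (Acc.intro N hN)
      | appR _ h => exact ihN _ h

theorem sna_of_sub {M : Term S} (σ : ℕ → Term S) (h : SNa (sub σ M)) : SNa M :=
  sna_of_map (sub σ) (fun _ _ => beta_sub σ) h

theorem sna_ren_iff {M : Term S} {ξ : ℕ → ℕ} : SNa (ren ξ M) ↔ SNa M := by
  refine ⟨sna_of_map (ren ξ) (fun _ _ => beta_ren ξ), fun h => ?_⟩
  unfold SNa at h
  induction h with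
  | intro M _ ih =>
    refine sna_intro fun T hT => ?_
    obtain ⟨M', h1, rfl⟩ := beta_of_ren hT
    exact ih M' h1

theorem sn_beta_apps {M M' : Term S} (l : List (Term S)) (h : Beta M M') :
    Beta (apps M l) (apps M' l) := by
  induction l generalizing M M' with
  | nil => exact h
  | cons N l ih => exact ih (Beta.appL N h)

theorem sn_apps_app_ne_lam (M N A b : Term S) (l : List (Term S)) :
    apps (app M N) l ≠ lam A b := by
  induction l generalizing M N with
  | nil => intro h; cases h
  | cons X l ih => exact ih _ _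

/-- The steps of a head redex with arguments. -/
theorem sn_beta_spine {A b N T : Term S} {l : List (Term S)}
    (h : Beta (apps (app (lam A b) N) l) T) :
    T = apps (inst N b) l ∨ (∃ A', Beta A A' ∧ T = apps (app (lam A' b) N) l) ∨
      (∃ b', Beta b b' ∧ T = apps (app (lam A b') N) l) ∨
      (∃ N', Beta N N' ∧ T = apps (app (lam A b) N') l) ∨
      ∃ l', (∀ H, Beta (apps H l) (apps H l')) ∧ T = apps (app (lam A b) N) l' := by
  induction l using List.reverseRecOn generalizing T with
  | nil =>
    rw [apps_nil] at h
    cases h with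
    | redex => exact Or.inl (subst_eq_inst _ _)
    | appL _ h =>
      cases h with
      | lamA _ h => exact Or.inr (Or.inl ⟨_, h, rfl⟩)
      | lamM _ h => exact Or.inr (Or.inr (Or.inl ⟨_, h, rfl⟩))
    | appR _ h => exact Or.inr (Or.inr (Or.inr (Or.inl ⟨_, h, rfl⟩)))
  | append_singleton l a ih =>
    rw [apps_concat] at h
    generalize hX : apps (app (lam A b) N) l = X at h ih
    cases h with
    | redex => exact absurd hX (sn_apps_app_ne_lam _ _ _ _ _)
    | appL _ h =>
      rcases ih h with rfl | ⟨A', h1, rfl⟩ | ⟨b', h1, rfl⟩ | ⟨N', h1, rfl⟩ | ⟨l', h1, rfl⟩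
      · exact Or.inl (apps_concat _ _ _).symm
      · exact Or.inr (Or.inl ⟨_, h1, (apps_concat _ _ _).symm⟩)
      · exact Or.inr (Or.inr (Or.inl ⟨_, h1, (apps_concat _ _ _).symm⟩))
      · exact Or.inr (Or.inr (Or.inr (Or.inl ⟨_, h1, (apps_concat _ _ _).symm⟩)))
      · refine Or.inr (Or.inr (Or.inr (Or.inr ⟨l' ++ [a], fun H => ?_,
          (apps_concat _ _ _).symm⟩)))
        rw [apps_concat, apps_concat]
        exact Beta.appL _ (h1 H)
    | @appR _ _ a' h =>
      refine Or.inr (Or.inr (Or.inr (Or.inr ⟨l ++ [a'], fun H => ?_, ?_⟩)))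
      · rw [apps_concat, apps_concat]
        exact Beta.appR _ h
      · rw [apps_concat, hX]

theorem sn_star_inst_left {N N' : Term S} (b : Term S) (h : Beta N N') :
    Star (inst N b) (inst N' b) :=
  star_sub_right (fun i => by
    cases i with
    | zero => exact Relation.ReflTransGen.single h
    | succ i => exact Relation.ReflTransGen.refl) b

/-- Head expansion. -/
theorem sna_red {A b N : Term S} {l : List (Term S)} (hA : SNa A) (hN : SNa N)
    (h : SNa (apps (inst N b) l)) : SNa (apps (app (lam A b) N) l) := by
  unfold SNa at hA hN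
  induction hN generalizing A b l with
  | intro N hN ihN =>
    induction hA generalizing b l with
    | intro A hA ihA =>
      generalize hX : apps (inst N b) l = X at h
      unfold SNa at h
      induction h generalizing b l with
      | intro X hXa ihX =>
        have hs : SNa (apps (inst N b) l) := hX ▸ Acc.intro X hXa
        refine sna_intro fun T hT => ?_
        rcases sn_beta_spine hT with
          rfl | ⟨A', h1, rfl⟩ | ⟨b', h1, rfl⟩ | ⟨N', h1, rfl⟩ | ⟨l', h1, rfl⟩
        · exact hs
        · exact ihA _ h1 hs
        · exact ihX _ (hX ▸ sn_beta_apps l (beta_sub _ h1)) rfl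
        · exact ihN _ h1 (Acc.intro A hA) (hs.star (Star.apps l (sn_star_inst_left b h1)))
        · exact ihX _ (hX ▸ h1 _) rfl

theorem SNa.apps_left {M : Term S} {l : List (Term S)} (h : SNa (apps M l)) : SNa M :=
  sna_of_map (fun X => apps X l) (fun _ _ => sn_beta_apps l) h

theorem sna_wh_app {f f' a : Term S} (hw : Wh f f') (hf : SNa f) (h : SNa (app f' a)) :
    SNa (app f a) := by
  obtain ⟨A, b, c, l, rfl, rfl⟩ := hw.spine
  rw [← apps_concat] at h ⊢
  exact sna_red (sna_lam_iff.1 hf.apps_left.app_left).1 hf.apps_left.app_right h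

/-- Immediate subterms. -/
inductive ISub : Term S → Term S → Prop
  | appL (M N : Term S) : ISub M (app M N)
  | appR (M N : Term S) : ISub N (app M N)
  | lamA (M N : Term S) : ISub M (lam M N)
  | lamM (M N : Term S) : ISub N (lam M N)
  | piA (M N : Term S) : ISub M (pi M N)
  | piB (M N : Term S) : ISub N (pi M N)

theorem ISub.lift {N N' M : Term S} (h : ISub N M) (hb : Beta N N') :
    ∃ M', Beta M M' ∧ ISub N' M' := by
  cases h with
  | appL => exact ⟨_, Beta.appL _ hb, ISub.appL _ _⟩
  | appR => exact ⟨_, Beta.appR _ hb, ISub.appR _ _⟩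
  | lamA => exact ⟨_, Beta.lamA _ hb, ISub.lamA _ _⟩
  | lamM => exact ⟨_, Beta.lamM _ hb, ISub.lamM _ _⟩
  | piA => exact ⟨_, Beta.piA _ hb, ISub.piA _ _⟩
  | piB => exact ⟨_, Beta.piB _ hb, ISub.piB _ _⟩

theorem isub_star_lift {N N' M : Term S} (h : Relation.ReflTransGen ISub N M) (hb : Beta N N') :
    ∃ M', Beta M M' ∧ Relation.ReflTransGen ISub N' M' := by
  induction h with
  | refl => exact ⟨N', hb, Relation.ReflTransGen.refl⟩
  | tail _ h2 ih =>
    obtain ⟨M', h3, h4⟩ := ih
    obtain ⟨M'', h5, h6⟩ := h2.lift h3
    exact ⟨M'', h5, h4.tail h6⟩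

/-- A step or an immediate subterm. -/
def BSub (N M : Term S) : Prop := Beta M N ∨ ISub N M

theorem SNa.acc_bsub {M : Term S} (h : SNa M) : Acc BSub M := by
  suffices H : ∀ N, Relation.ReflTransGen ISub N M → Acc BSub N from
    H M Relation.ReflTransGen.refl
  unfold SNa at h
  induction h with
  | intro M _ ih =>
    have step : ∀ N, Relation.ReflTransGen ISub N M → (∀ N', ISub N' N → Acc BSub N') →
        Acc BSub N := fun N hN hs => Acc.intro N fun N' h' => by
      rcases h' with h' | h'
      · obtain ⟨M', h1, h2⟩ := isub_star_lift hN h'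
        exact ih M' h1 N' h2
      · exact hs N' h'
    intro N
    induction N with
    | var i => exact fun hN => step _ hN fun _ h' => by cases h'
    | sort s => exact fun hN => step _ hN fun _ h' => by cases h'
    | app X Y ihX ihY =>
      refine fun hN => step _ hN fun _ h' => ?_
      have h2 := Relation.ReflTransGen.head h' hN
      cases h' with
      | appL => exact ihX h2
      | appR => exact ihY h2
    | lam X Y ihX ihY =>
      refine fun hN => step _ hN fun _ h' => ?_
      have h2 := Relation.ReflTransGen.head h' hN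
      cases h' with
      | lamA => exact ihX h2
      | lamM => exact ihY h2
    | pi X Y ihX ihY =>
      refine fun hN => step _ hN fun _ h' => ?_
      have h2 := Relation.ReflTransGen.head h' hN
      cases h' with
      | piA => exact ihX h2
      | piB => exact ihY h2

theorem bsub_apps (M : Term S) (l : List (Term S)) :
    Relation.ReflTransGen BSub M (apps M l) := by
  induction l generalizing M with
  | nil => exact Relation.ReflTransGen.refl
  | cons N l ih => exact Relation.ReflTransGen.head (Or.inr (ISub.appL M N)) (ih _)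

theorem SNa.sni {M : Term S} (h : SNa M) : SNi M := by
  have h1 := h.acc_bsub.transGen
  clear h
  induction h1 with
  | intro M _ ih =>
    have ih1 : ∀ N, ISub N M → SNi N := fun N hN => ih N (Relation.TransGen.single (Or.inr hN))
    rcases stuck_or_lam_or_wh M with hs | ⟨A, b, rfl⟩ | ⟨M', hw⟩
    · cases hs with
      | var i => exact SNi.var i
      | sort s => exact SNi.sort s
      | pi A B => exact SNi.pi (ih1 _ (ISub.piA _ _)) (ih1 _ (ISub.piB _ _))
      | app N hs => exact SNi.app hs (ih1 _ (ISub.appL _ _)) (ih1 _ (ISub.appR _ _))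
    · exact SNi.lam (ih1 _ (ISub.lamA _ _)) (ih1 _ (ISub.lamM _ _))
    · have hb := hw.toBeta
      obtain ⟨A, b, a, l, rfl, rfl⟩ := hw.spine
      refine SNi.red (ih _ ?_) (ih _ ?_) (ih _ (Relation.TransGen.single (Or.inl hb)))
      · exact Relation.TransGen.head' (Or.inr (ISub.lamA A b))
          (Relation.ReflTransGen.head (Or.inr (ISub.appL _ a)) (bsub_apps _ l))
      · exact Relation.TransGen.head' (Or.inr (ISub.appR _ a)) (bsub_apps _ l)

end Crest.Agent.R298
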