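import Crest.Agent.R298.Graph
import Crest.Agent.R298.SN

/-! Row 298: candidates, the abstract model interface and the main reducibility lemma. -/

set_option autoImplicit false

namespace Crest.Agent.R298
open Crest.LogicCS.PTS Crest.LogicCS.PTS.Term

universe u v
variable {S : Type u} {P : Spec S}

/-- Application preserves strong normalization at products whose normal form has sort `t`. -/
def App (U : Univ P) (t : S) : Prop :=
  ∀ f a A B : Term S, Ty P U.Θ f (pi A B) → Ty P U.Θ (nf (pi A B)) (sort t) → Ty P U.Θ a A →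
    SNa f → SNa a → SNa (app f a)

/-- The largest candidate. -/
def Top (U : Univ P) (T : Term S) : Set (Term S) := {M | Ty P U.Θ M T ∧ SNa M}

/-- Reducibility candidates for the type `T` of the universal context. -/
structure IsCand (U : Univ P) (T : Term S) (X : Set (Term S)) : Prop where
  sub : X ⊆ Top U T
  neu : ∀ M ∈ Top U T, Neu M → M ∈ X
  exp : ∀ M ∈ Top U T, ∀ M', Wh M M' → M' ∈ X → M ∈ X

variable {U : Univ P}

theorem isCand_top (T : Term S) : IsCand U T (Top U T) :=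
  ⟨fun _ h => h, fun _ h _ => h, fun _ h _ _ _ => h⟩

/-- A candidate for a sorted type contains a variable. -/
theorem IsCand.exists_var {T : Term S} {s : S} {X : Set (Term S)} (h : IsCand U T X)
    (hT : Ty P U.Θ T (sort s)) : ∃ i, var i ∈ X := by
  obtain ⟨i, hi⟩ := U.exists_var hT
  exact ⟨i, h.neu _ ⟨hi, sna_var i⟩ (Neu.var i)⟩

/-- Application at normalized types. -/
theorem ty_app_nf {Γ : Ctx S} (hΓ : Good U Γ) {A B f a : Term S} {s : S}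
    (h : Ty P Γ (pi A B) (sort s)) (hf : Ty P Γ f (nf (pi A B))) (ha : Ty P Γ a (nf A)) :
    Ty P Γ (app f a) (nf (inst a B)) := by
  obtain ⟨s₁, _, _, hA, _⟩ := h.gen_pi_sort
  exact hΓ.ty_nf_type (Ty.app ((hΓ.ty_nf_iff h).1 hf) ((hΓ.ty_nf_iff hA).1 ha))

/-- The function-space candidate. -/
theorem isCand_pi {A B : Term S} {s : S} (h : Ty P U.Θ (pi A B) (sort s))
    {XA : Set (Term S)} (hA : IsCand U (nf A) XA) {ι : Sort v} [Nonempty ι]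
    {XB : Term S → ι → Set (Term S)}
    (hB : ∀ a ∈ XA, ∀ i, IsCand U (nf (inst a B)) (XB a i)) :
    IsCand U (nf (pi A B))
      {f | Ty P U.Θ f (nf (pi A B)) ∧ ∀ a ∈ XA, ∀ i, app f a ∈ XB a i} := by
  have hU := good_univ U
  obtain ⟨s₁, _, _, hA1, _⟩ := h.gen_pi_sort
  refine ⟨fun f hf => ⟨hf.1, ?_⟩, fun M hM hn => ⟨hM.1, fun a ha i => ?_⟩,
    fun M hM M' hw hM' => ⟨hM.1, fun a ha i => ?_⟩⟩
  · obtain ⟨j, hj⟩ := hA.exists_var (hU.ty_nf hA1)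
    obtain ⟨i⟩ := ‹Nonempty ι›
    exact ((hB _ hj i).sub (hf.2 _ hj i)).2.app_left
  · exact (hB a ha i).neu _ ⟨ty_app_nf hU h hM.1 (hA.sub ha).1,
      sna_app_stuck hn.stuck hM.2 (hA.sub ha).2⟩ (Neu.app a hn)
  · exact (hB a ha i).exp _ ⟨ty_app_nf hU h hM.1 (hA.sub ha).1,
      sna_wh_app hw hM.2 ((hB a ha i).sub (hM'.2 a ha i)).2⟩ _ (Wh.app a hw) (hM'.2 a ha i)

/-- Under `App`, the function space of largest candidates is the largest candidate. -/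
theorem top_pi {A B : Term S} {t : S} (hApp : App U t) (h : Ty P U.Θ (pi A B) (sort t)) :
    {f | Ty P U.Θ f (nf (pi A B)) ∧ ∀ a ∈ Top U (nf A), app f a ∈ Top U (nf (inst a B))}
      = Top U (nf (pi A B)) := by
  have hU := good_univ U
  obtain ⟨s₁, _, _, hA1, _⟩ := h.gen_pi_sort
  refine Set.Subset.antisymm (fun f hf => ?_) fun f hf => ⟨hf.1, fun a ha => ?_⟩
  · exact (isCand_pi (ι := Unit) h (isCand_top _) fun a _ _ => isCand_top _).sub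
      ⟨hf.1, fun a ha _ => hf.2 a ha⟩
  · exact ⟨ty_app_nf hU h hf.1 ha.1, hApp f a A B ((hU.ty_nf_iff h).1 hf.1) (hU.ty_nf h)
      ((hU.ty_nf_iff hA1).1 ha.1) hf.2 ha.2⟩

/-- The interface of a reducibility model for the descendants of `s0`. -/
structure Model (U : Univ P) (s0 : S) where
  /-- semantic values of variables -/
  X : Type v
  /-- interpretation of a normal type -/
  Red : Ctx S → Term S → (ℕ → Term S) → (ℕ → X) → Set (Term S)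
  /-- invariant of semantic environments -/
  Inv : Ctx S → (ℕ → Term S) → (ℕ → X) → Prop
  init : ∃ ρ, Inv U.Θ var ρ
  cand : ∀ {Γ σ ρ T s}, Good U Γ → SubTy P U.Θ σ Γ → Inv Γ σ ρ → Normal T →
    Ty P Γ T (sort s) → IsCand U (nf (sub σ T)) (Red Γ T σ ρ)
  red_sort : ∀ Γ σ ρ s, Red Γ (sort s) σ ρ = Top U (sort s)
  weak : ∀ {Γ σ ρ T s A sA a w}, Good U Γ → Ty P Γ A (sort sA) → Normal T →
    Ty P Γ T (sort s) → Red (ext Γ A) (wk T) (scons a σ) (scons w ρ) = Red Γ T σ ρ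
  dflt : ∀ {Γ σ ρ A s a}, Good U Γ → SubTy P U.Θ σ Γ → Inv Γ σ ρ → Ty P Γ A (sort s) →
    Ty P U.Θ a (sub σ A) → ∃ w, Inv (ext Γ A) (scons a σ) (scons w ρ)
  intro : ∀ {Γ σ ρ A B s f}, Good U Γ → SubTy P U.Θ σ Γ → Inv Γ σ ρ → Normal (pi A B) →
    Ty P Γ (pi A B) (sort s) → InL P s0 s → Ty P U.Θ f (nf (sub σ (pi A B))) →
    (∀ a ∈ Red Γ A σ ρ, ∀ w, Inv (ext Γ A) (scons a σ) (scons w ρ) →
      app f a ∈ Red (ext Γ A) B (scons a σ) (scons w ρ)) →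
    f ∈ Red Γ (pi A B) σ ρ
  elim : ∀ {Γ σ ρ A B s f N}, Good U Γ → SubTy P U.Θ σ Γ → Inv Γ σ ρ → Normal (pi A B) →
    Ty P Γ (pi A B) (sort s) → InL P s0 s → f ∈ Red Γ (pi A B) σ ρ → Ty P Γ N A →
    sub σ N ∈ Red Γ A σ ρ → app f (sub σ N) ∈ Red Γ (nf (inst N B)) σ ρ

/-- Every variable is sent to a variable, or has a type with a sort below `s0` and is sent to a
reducible term. -/
def Model.EnvRed {s0 : S} (m : Model.{u, v} U s0) (Γ : Ctx S) (σ : ℕ → Term S) (ρ : ℕ → m.X) :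
    Prop :=
  ∀ i, (∃ j, σ i = var j) ∨
    ((∃ s, InL P s0 s ∧ Ty P Γ (nf (Γ i)) (sort s)) ∧ σ i ∈ m.Red Γ (nf (Γ i)) σ ρ)

section aux

variable {s0 : S} {m : Model.{u, v} U s0} {Γ : Ctx S} {σ : ℕ → Term S} {ρ : ℕ → m.X}

theorem ty_apps_head {M T : Term S} {l : List (Term S)} (h : Ty P Γ (apps M l) T) :
    ∃ T', Ty P Γ M T' := by
  induction l generalizing M with
  | nil => exact ⟨T, h⟩
  | cons N l ih =>
    obtain ⟨T', hT'⟩ := ih h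
    obtain ⟨A, B, hM, _⟩ := hT'.gen_app
    exact ⟨_, hM⟩

theorem mem_top_sub (hΓ : Good U Γ) (hσ : SubTy P U.Θ σ Γ) {M T : Term S} (h : Ty P Γ M T)
    (hs : SNa (sub σ M)) : sub σ M ∈ Top U (nf (sub σ (nf T))) :=
  ⟨(good_univ U).ty_nf_type ((hΓ.ty_nf_type h).sub hσ), hs⟩

theorem Model.EnvRed.cons (h : m.EnvRed Γ σ ρ) (hΓ : Good U Γ) {A a : Term S} {sA : S}
    (hA : Ty P Γ A (sort sA)) (w : m.X)
    (ha : (∃ j, a = var j) ∨
      ((∃ s, InL P s0 s ∧ Ty P Γ (nf A) (sort s)) ∧ a ∈ m.Red Γ (nf A) σ ρ)) :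
    m.EnvRed (ext Γ A) (scons a σ) (scons w ρ) := by
  have key : ∀ C c : Term S, WN C → ((∃ j, c = var j) ∨
      ((∃ s, InL P s0 s ∧ Ty P Γ (nf C) (sort s)) ∧ c ∈ m.Red Γ (nf C) σ ρ)) →
      ((∃ j, c = var j) ∨ ((∃ s, InL P s0 s ∧ Ty P (ext Γ A) (nf (wk C)) (sort s)) ∧
        c ∈ m.Red (ext Γ A) (nf (wk C)) (scons a σ) (scons w ρ))) := by
    rintro C c hC (hc | ⟨⟨s, hs, hT⟩, hc⟩)
    · exact Or.inl hc
    · rw [nf_wk hC, m.weak hΓ hA (nf_normal' C) hT]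
      exact Or.inr ⟨⟨s, hs, hT.wk_sort A⟩, hc⟩
  intro i
  cases i with
  | zero => exact key A a (hΓ.wn hA) ha
  | succ i => exact key (Γ i) (σ i) (hΓ.wn_type (Ty.var i)) (h i)

theorem Model.sna_body (hΓ : Good U Γ) (hσ : SubTy P U.Θ σ Γ) (hI : m.Inv Γ σ ρ)
    (hE : m.EnvRed Γ σ ρ) {A b : Term S} {sA : S} (hA : Ty P Γ A (sort sA))
    (ih : ∀ (σ' : ℕ → Term S) (ρ' : ℕ → m.X), SubTy P U.Θ σ' (ext Γ A) →
      m.Inv (ext Γ A) σ' ρ' → m.EnvRed (ext Γ A) σ' ρ' → SNa (sub σ' b)) :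
    SNa (sub (up σ) b) := by
  obtain ⟨j, hj⟩ := U.exists_var (hA.sub_sort hσ)
  obtain ⟨w, hw⟩ := m.dflt hΓ hσ hI hA hj
  have h := ih _ _ (hσ.cons hj) hw (hE.cons hΓ hA w (Or.inl ⟨j, rfl⟩))
  rw [← inst_sub_up] at h
  exact sna_of_sub _ h

theorem Model.app_mem (hΓ : Good U Γ) (hσ : SubTy P U.Θ σ Γ) (hI : m.Inv Γ σ ρ)
    {M N A B : Term S} (hM : Ty P Γ M (pi A B)) (hN : Ty P Γ N A) {p : S} (hp : InL P s0 p)
    (hs : Ty P Γ (nf (pi A B)) (sort p)) {f : Term S} (hf : f ∈ m.Red Γ (nf (pi A B)) σ ρ)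
    (ha : ∀ s, InL P s0 s → Ty P Γ (nf A) (sort s) → sub σ N ∈ m.Red Γ (nf A) σ ρ) :
    SNa (app f (sub σ N)) ∧ app f (sub σ N) ∈ m.Red Γ (nf (inst N B)) σ ρ := by
  have hw := hΓ.wn_type hM
  have hn := nf_normal' (pi A B)
  rw [nf_pi hw] at hs hf hn
  obtain ⟨t₁, t₂, hr, hA, hB⟩ := hs.gen_pi_sort
  have hN0 := hΓ.ty_nf_type hN
  have h := m.elim hΓ hσ hI hn hs hp hf hN0 (ha t₁ (hp.rule hr).1 hA)
  have hT : Ty P Γ (inst N (nf B)) (sort t₂) := hB.inst hN0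
  refine ⟨((m.cand hΓ hσ hI (nf_normal' _) (hΓ.ty_nf hT)).sub h).2, ?_⟩
  rwa [nf_congr (beq_inst (beq_refl N) (nf_beq (wn_pi_iff.1 hw).2))] at h

end aux

/-- The main lemma. -/
theorem Model.main {s0 : S} (m : Model.{u, v} U s0) {M : Term S} (hM : SNi M) :
    ∀ {Γ : Ctx S} {σ : ℕ → Term S} {ρ : ℕ → m.X} {T : Term S}, Good U Γ → SubTy P U.Θ σ Γ →
      m.Inv Γ σ ρ → m.EnvRed Γ σ ρ → Ty P Γ M T →
      SNa (sub σ M) ∧
        ∀ s, InL P s0 s → Ty P Γ (nf T) (sort s) → sub σ M ∈ m.Red Γ (nf T) σ ρ := by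
  induction hM with
  | var i =>
    intro Γ σ ρ T hΓ hσ hI hE h
    rcases hE i with ⟨j, hj⟩ | ⟨⟨p, _, hp⟩, hi⟩
    · have h1 : SNa (sub σ (var i)) := by rw [sub_var, hj]; exact sna_var j
      refine ⟨h1, fun s _ hs => (m.cand hΓ hσ hI (nf_normal' T) hs).neu _
        (mem_top_sub hΓ hσ h h1) ?_⟩
      rw [sub_var, hj]; exact Neu.var j
    · refine ⟨((m.cand hΓ hσ hI (nf_normal' _) hp).sub hi).2, fun s _ _ => ?_⟩
      rw [← nf_congr h.gen_var]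
      exact hi
  | sort t =>
    intro Γ σ ρ T _ _ _ _ h
    obtain ⟨t', hax, hT⟩ := h.gen_sort
    refine ⟨sna_sort t, fun s _ _ => ?_⟩
    rw [← nf_congr hT, nf_sort, m.red_sort]
    exact ⟨Ty.ax hax, sna_sort t⟩
  | @pi A B _ _ ihA ihB =>
    intro Γ σ ρ T hΓ hσ hI hE h
    obtain ⟨s₁, s₂, s₃, hr, hA, hB, hT⟩ := h.gen_pi
    have h1 : SNa (sub σ (pi A B)) := sna_pi_iff.2 ⟨(ihA hΓ hσ hI hE hA).1,
      Model.sna_body hΓ hσ hI hE hA fun σ' ρ' h1 h2 h3 => (ihB (hΓ.ext hA) h1 h2 h3 hB).1⟩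
    refine ⟨h1, fun s _ _ => ?_⟩
    rw [← nf_congr hT, nf_sort, m.red_sort]
    exact ⟨(Ty.pi hA hB hr).sub_sort hσ, h1⟩
  | @lam A b _ _ ihA ihb =>
    intro Γ σ ρ T hΓ hσ hI hE h
    obtain ⟨B, s', hb, hP, hT⟩ := h.gen_lam
    obtain ⟨s₁, _, _, hA, _⟩ := hP.gen_pi_sort
    have hsA := (ihA hΓ hσ hI hE hA).1
    have h1 : SNa (sub σ (lam A b)) := sna_lam_iff.2 ⟨hsA,
      Model.sna_body hΓ hσ hI hE hA fun σ' ρ' h1 h2 h3 => (ihb (hΓ.ext hA) h1 h2 h3 hb).1⟩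
    refine ⟨h1, fun s hL hs => ?_⟩
    have hf := (mem_top_sub hΓ hσ h h1).1
    have hn := nf_normal' T
    rw [← nf_congr hT, nf_pi (hΓ.wn hP)] at hs hf hn ⊢
    obtain ⟨t₁, t₂, hr, hA0, hB0⟩ := hs.gen_pi_sort
    have hb0 : Ty P (ext Γ (nf A)) b B := hb.ctx_conv hA (beq_symm (nf_beq (hΓ.wn hA)))
    refine m.intro hΓ hσ hI hn hs hL hf fun a ha w hw => ?_
    have haT := (m.cand hΓ hσ hI (nf_normal' A) hA0).sub ha
    have hσ' := hσ.cons (((good_univ U).ty_nf_iff (hA0.sub_sort hσ)).1 haT.1)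
    have hE' : m.EnvRed (ext Γ (nf A)) (scons a σ) (scons w ρ) :=
      hE.cons hΓ hA0 w (Or.inr (by rw [nf_nf]; exact ⟨⟨t₁, (hL.rule hr).1, hA0⟩, ha⟩))
    obtain ⟨h2, h3⟩ := ihb (hΓ.ext hA0) hσ' hw hE' hb0
    have h4 := h3 t₂ (hL.rule hr).2 hB0
    rw [← inst_sub_up] at h2 h4
    refine (m.cand (hΓ.ext hA0) hσ' hw (nf_normal' B) hB0).exp _ ⟨?_, ?_⟩ _ (Wh.beta _ _ _) h4
    · rw [← inst_sub_up]
      exact ty_app_nf (good_univ U) (hs.sub_sort hσ) hf haT.1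
    · exact sna_red (l := []) hsA haT.2 h2
  | @app M N hst _ _ ihM ihN =>
    intro Γ σ ρ T hΓ hσ hI hE h
    obtain ⟨A, B, hM, hN, hT⟩ := h.gen_app
    have hn : Neu M := hM.neu_of_stuck (beq_refl _) hst
    obtain ⟨h1, h2⟩ := ihM hΓ hσ hI hE hM
    obtain ⟨h3, h4⟩ := ihN hΓ hσ hI hE hN
    rcases hE (hd M) with ⟨j, hj⟩ | ⟨⟨p, hp, hp'⟩, _⟩
    · have h5 := (hn.sub hj).1
      have h6 : SNa (sub σ (app M N)) := sna_app_stuck h5.stuck h1 h3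
      exact ⟨h6, fun s _ hs => (m.cand hΓ hσ hI (nf_normal' T) hs).neu _
        (mem_top_sub hΓ hσ h h6) (Neu.app _ h5)⟩
    · obtain ⟨p', hr, hs⟩ := neu_res_sort hΓ hn hM hp'
      have hL := hp.reach hr.reach
      obtain ⟨h5, h6⟩ := Model.app_mem hΓ hσ hI hM hN hL hs (h2 p' hL hs) h4
      rw [nf_congr hT] at h6
      exact ⟨h5, fun _ _ _ => h6⟩
  | @red A b N l _ _ _ ihA ihN ih =>
    intro Γ σ ρ T hΓ hσ hI hE h
    have hw := Wh.apps l (Wh.beta A b N)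
    obtain ⟨T', hT'⟩ := ty_apps_head h
    obtain ⟨A', B', hl, hN, _⟩ := hT'.gen_app
    obtain ⟨B, s', _, hP, _⟩ := hl.gen_lam
    obtain ⟨s₁, _, _, hA, _⟩ := hP.gen_pi_sort
    obtain ⟨h1, h2⟩ := ih hΓ hσ hI hE (h.sr hΓ.1 hw.toBeta)
    have h3 : SNa (sub σ (apps (app (lam A b) N) l)) := by
      rw [sub_apps, sub_inst'] at h1
      rw [sub_apps]
      exact sna_red (ihA hΓ hσ hI hE hA).1 (ihN hΓ hσ hI hE hN).1 h1
    exact ⟨h3, fun s hL hs => (m.cand hΓ hσ hI (nf_normal' T) hs).exp _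
      (mem_top_sub hΓ hσ h h3) _ (hw.sub σ) (h2 s hL hs)⟩

theorem Model.app {s0 : S} (m : Model.{u, v} U s0) : App U s0 := by
  intro f a A B hf hs ha h1 h2
  obtain ⟨ρ, hI⟩ := m.init
  have hU := good_univ U
  have hE : m.EnvRed U.Θ var ρ := fun i => Or.inl ⟨i, rfl⟩
  have hL : InL P s0 s0 := Reach.refl s0
  have h := (Model.app_mem hU subTy_id hI hf ha hL hs
    ((m.main h1.sni hU subTy_id hI hE hf).2 s0 hL hs) (m.main h2.sni hU subTy_id hI hE ha).2).1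
  rwa [sub_id, sub_id] at h

theorem sna_of_app_good (h : ∀ t, App U t) (M : Term S) :
    ∀ {Γ : Ctx S} {A : Term S}, Good U Γ → Ty P Γ M A → SNa M := by
  induction M with
  | var i => exact fun _ _ => sna_var i
  | sort s => exact fun _ _ => sna_sort s
  | app M N ihM ihN =>
    intro Γ T hΓ hT
    obtain ⟨A, B, hM, hN, _⟩ := hT.gen_app
    obtain ⟨ξ, hξ⟩ := hΓ.2
    have hM' := hM.sub hξ
    obtain ⟨t, ht⟩ := hM'.correct_pi U.sorted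
    refine sna_of_sub (fun i => var (ξ i))
      (h t _ _ _ _ hM' ((good_univ U).ty_nf ht) (hN.sub hξ) ?_ ?_)
    · rw [← ren_eq_sub]; exact sna_ren_iff.2 (ihM hΓ hM)
    · rw [← ren_eq_sub]; exact sna_ren_iff.2 (ihN hΓ hN)
  | lam A b ihA ihb =>
    intro Γ T hΓ hT
    obtain ⟨B, s, hb, hP, _⟩ := hT.gen_lam
    obtain ⟨s₁, _, _, hA, _⟩ := hP.gen_pi_sort
    exact sna_lam_iff.2 ⟨ihA hΓ hA, ihb (hΓ.ext hA) hb⟩
  | pi A B ihA ihB =>
    intro Γ T hΓ hT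
    obtain ⟨s₁, s₂, _, _, hA, hB, _⟩ := hT.gen_pi
    exact sna_pi_iff.2 ⟨ihA hΓ hA, ihB (hΓ.ext hA) hB⟩

theorem sna_of_app (h : ∀ t, App U t) {M A : Term S} (hM : Ty P U.Θ M A) : SNa M :=
  sna_of_app_good h M (good_univ U) hM

end Crest.Agent.R298
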