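import Crest.Agent.R298.Red

/-! Row 298: normal terms, weak normalization and the normal form function. -/

set_option autoImplicit false

namespace Crest.Agent.R298
open Crest.LogicCS.PTS Crest.LogicCS.PTS.Term

universe u
variable {S : Type u}

/-! ### Normal terms -/

theorem normal_var (i : ℕ) : Normal (var i : Term S) := fun _ h => by cases h
theorem normal_sort (s : S) : Normal (sort s : Term S) := fun _ h => by cases h
theorem normal_pi_iff {A B : Term S} : Normal (pi A B) ↔ Normal A ∧ Normal B := by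
  refine ⟨fun h => ⟨fun _ h' => h _ (Beta.piA _ h'), fun _ h' => h _ (Beta.piB _ h')⟩, ?_⟩
  rintro ⟨hA, hB⟩ T h
  cases h with
  | piA _ h => exact hA _ h
  | piB _ h => exact hB _ h
theorem normal_lam_iff {A B : Term S} : Normal (lam A B) ↔ Normal A ∧ Normal B := by
  refine ⟨fun h => ⟨fun _ h' => h _ (Beta.lamA _ h'), fun _ h' => h _ (Beta.lamM _ h')⟩, ?_⟩
  rintro ⟨hA, hB⟩ T h
  cases h with
  | lamA _ h => exact hA _ h
  | lamM _ h => exact hB _ h
theorem normal_app_iff {M N : Term S} :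
    Normal (app M N) ↔ Stuck M ∧ Normal M ∧ Normal N := by
  constructor
  · intro h
    refine ⟨?_, fun _ h' => h _ (Beta.appL _ h'), fun _ h' => h _ (Beta.appR _ h')⟩
    rcases stuck_or_lam_or_wh M with h1 | ⟨A, b, rfl⟩ | ⟨M', h1⟩
    · exact h1
    · exact absurd (Beta.redex A b N) (h _)
    · exact absurd (Beta.appL N h1.toBeta) (h _)
  · rintro ⟨hS, hM, hN⟩ T h
    cases h with
    | redex A b N => cases hS
    | appL _ h => exact hM _ h
    | appR _ h => exact hN _ h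
theorem normal_ren_iff {ξ : ℕ → ℕ} {M : Term S} : Normal (ren ξ M) ↔ Normal M := by
  refine ⟨fun h _ h' => h _ (beta_ren ξ h'), fun h _ h' => ?_⟩
  obtain ⟨M', h1, -⟩ := beta_of_ren h'
  exact h _ h1
theorem normal_wk_iff {M : Term S} : Normal (wk M) ↔ Normal M := normal_ren_iff
theorem eq_of_star_normal {M N : Term S} (hM : Normal M) (h : Star M N) : N = M := by
  rcases Relation.ReflTransGen.cases_head h with h | ⟨_, h, -⟩
  · exact h.symm
  · exact absurd h (hM _)
theorem eq_of_beq_normal {M N : Term S} (hM : Normal M) (hN : Normal N) (h : BetaEq M N) :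
    M = N := by
  obtain ⟨Q, h1, h2⟩ := beq_iff.1 h
  exact (eq_of_star_normal hM h1).symm.trans (eq_of_star_normal hN h2)

theorem star_of_ren {ξ : ℕ → ℕ} {M N : Term S} (h : Star (ren ξ M) N) :
    ∃ M', Star M M' ∧ N = ren ξ M' := by
  induction h with
  | refl => exact ⟨M, Relation.ReflTransGen.refl, rfl⟩
  | tail _ h ih =>
    obtain ⟨M', h1, rfl⟩ := ih
    obtain ⟨M'', h2, rfl⟩ := beta_of_ren h
    exact ⟨M'', h1.tail h2, rfl⟩

/-! ### Weak normalization and the normal form -/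

theorem wn_of_normal {M : Term S} (h : Normal M) : WN M := ⟨M, Relation.ReflTransGen.refl, h⟩
theorem wn_of_beq {M N : Term S} (h : BetaEq M N) (hM : WN M) : WN N := by
  obtain ⟨Q, h1, h2⟩ := hM
  exact ⟨Q, star_of_beq_normal (beq_trans (beq_symm h) (beq_of_star h1)) h2, h2⟩
theorem wn_ren_iff {ξ : ℕ → ℕ} {M : Term S} : WN (ren ξ M) ↔ WN M := by
  constructor
  · rintro ⟨Q, h1, h2⟩
    obtain ⟨M', h3, rfl⟩ := star_of_ren h1
    exact ⟨M', h3, normal_ren_iff.1 h2⟩
  · rintro ⟨Q, h1, h2⟩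
    exact ⟨_, Star.ren ξ h1, normal_ren_iff.2 h2⟩
theorem wn_pi_iff {A B : Term S} : WN (pi A B) ↔ WN A ∧ WN B := by
  constructor
  · rintro ⟨Q, h1, h2⟩
    obtain ⟨A', B', rfl, hA, hB⟩ := star_pi_inv h1
    exact ⟨⟨_, hA, (normal_pi_iff.1 h2).1⟩, ⟨_, hB, (normal_pi_iff.1 h2).2⟩⟩
  · rintro ⟨⟨A', hA, hA'⟩, ⟨B', hB, hB'⟩⟩
    exact ⟨_, Star.pi hA hB, normal_pi_iff.2 ⟨hA', hB'⟩⟩
theorem wn_lam_iff {A B : Term S} : WN (lam A B) ↔ WN A ∧ WN B := by
  constructor
  · rintro ⟨Q, h1, h2⟩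
    obtain ⟨A', B', rfl, hA, hB⟩ := star_lam_inv h1
    exact ⟨⟨_, hA, (normal_lam_iff.1 h2).1⟩, ⟨_, hB, (normal_lam_iff.1 h2).2⟩⟩
  · rintro ⟨⟨A', hA, hA'⟩, ⟨B', hB, hB'⟩⟩
    exact ⟨_, Star.lam hA hB, normal_lam_iff.2 ⟨hA', hB'⟩⟩
theorem wn_app_stuck_iff {M N : Term S} (h : Stuck M) : WN (app M N) ↔ WN M ∧ WN N := by
  constructor
  · rintro ⟨Q, h1, h2⟩
    obtain ⟨A', B', rfl, hA, hB⟩ := star_app_stuck_inv h h1
    exact ⟨⟨_, hA, (normal_app_iff.1 h2).2.1⟩, ⟨_, hB, (normal_app_iff.1 h2).2.2⟩⟩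
  · rintro ⟨⟨A', hA, hA'⟩, ⟨B', hB, hB'⟩⟩
    exact ⟨_, Star.app hA hB, normal_app_iff.2 ⟨h.star hA, hA', hB'⟩⟩

theorem nf_star {M : Term S} (h : WN M) : Star M (nf M) := by
  rw [nf, dif_pos h]; exact (Classical.choose_spec h).1
theorem nf_normal {M : Term S} (h : WN M) : Normal (nf M) := by
  rw [nf, dif_pos h]; exact (Classical.choose_spec h).2
theorem nf_of_not_wn {M : Term S} (h : ¬ WN M) : nf M = var 0 := by rw [nf, dif_neg h]
/-- Also true for the junk value. -/
theorem nf_normal' (M : Term S) : Normal (nf M) := by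
  by_cases h : WN M
  · exact nf_normal h
  · rw [nf_of_not_wn h]; exact normal_var 0
theorem nf_beq {M : Term S} (h : WN M) : BetaEq (nf M) M := beq_symm (beq_of_star (nf_star h))
theorem nf_eq_of_beq {M N : Term S} (h : BetaEq M N) (hN : Normal N) : nf M = N :=
  eq_of_beq_normal (nf_normal' M) hN
    (beq_trans (nf_beq (wn_of_beq (beq_symm h) (wn_of_normal hN))) h)
theorem nf_of_normal {M : Term S} (h : Normal M) : nf M = M := nf_eq_of_beq (beq_refl M) h
/-- No hypothesis on weak normalization: both sides are the junk value otherwise. -/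
theorem nf_congr {M N : Term S} (h : BetaEq M N) : nf M = nf N := by
  by_cases hN : WN N
  · exact nf_eq_of_beq (beq_trans h (beq_symm (nf_beq hN))) (nf_normal hN)
  · rw [nf_of_not_wn hN, nf_of_not_wn fun hM => hN (wn_of_beq h hM)]
theorem nf_nf (M : Term S) : nf (nf M) = nf M := nf_of_normal (nf_normal' M)
@[simp] theorem nf_var (i : ℕ) : nf (var i : Term S) = var i := nf_of_normal (normal_var i)
@[simp] theorem nf_sort (s : S) : nf (sort s : Term S) = sort s := nf_of_normal (normal_sort s)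
theorem nf_pi {A B : Term S} (h : WN (pi A B)) : nf (pi A B) = pi (nf A) (nf B) :=
  nf_eq_of_beq (beq_of_star (Star.pi (nf_star (wn_pi_iff.1 h).1) (nf_star (wn_pi_iff.1 h).2)))
    (normal_pi_iff.2 ⟨nf_normal' A, nf_normal' B⟩)
theorem nf_lam {A B : Term S} (h : WN (lam A B)) : nf (lam A B) = lam (nf A) (nf B) :=
  nf_eq_of_beq (beq_of_star (Star.lam (nf_star (wn_lam_iff.1 h).1) (nf_star (wn_lam_iff.1 h).2)))
    (normal_lam_iff.2 ⟨nf_normal' A, nf_normal' B⟩)
theorem nf_app_stuck {M N : Term S} (hM : Stuck M) (h : WN (app M N)) :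
    nf (app M N) = app (nf M) (nf N) := by
  obtain ⟨h1, h2⟩ := (wn_app_stuck_iff hM).1 h
  exact nf_eq_of_beq (beq_of_star (Star.app (nf_star h1) (nf_star h2)))
    (normal_app_iff.2 ⟨hM.star (nf_star h1), nf_normal' M, nf_normal' N⟩)
theorem wn_of_apps_stuck {M : Term S} {l : List (Term S)} (hM : Stuck M) (h : WN (apps M l)) :
    WN M := by
  induction l generalizing M with
  | nil => exact h
  | cons N l ih => exact ((wn_app_stuck_iff hM).1 (ih (hM.app N) h)).1
theorem nf_apps_stuck {M : Term S} {l : List (Term S)} (hM : Stuck M) (h : WN (apps M l)) :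
    nf (apps M l) = apps (nf M) (l.map nf) := by
  induction l generalizing M with
  | nil => rfl
  | cons N l ih =>
    rw [apps_cons, ih (hM.app N) h, nf_app_stuck hM (wn_of_apps_stuck (hM.app N) h)]
    rfl
theorem nf_apps_var {i : ℕ} {l : List (Term S)} (h : WN (apps (var i) l)) :
    nf (apps (var i) l) = apps (var i) (l.map nf) := by
  rw [nf_apps_stuck (Stuck.var i) h, nf_var]
theorem nf_ren {M : Term S} (ξ : ℕ → ℕ) (h : WN M) : nf (ren ξ M) = ren ξ (nf M) :=
  nf_eq_of_beq (beq_of_star (Star.ren ξ (nf_star h))) (normal_ren_iff.2 (nf_normal h))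
theorem nf_wk {M : Term S} (h : WN M) : nf (wk M) = wk (nf M) := nf_ren _ h
theorem nf_sub_nf {M : Term S} (σ : ℕ → Term S) (h : WN M) :
    nf (sub σ (nf M)) = nf (sub σ M) := nf_congr (beq_sub σ (nf_beq h))
theorem Neu.nf {M : Term S} (h : Neu M) (hw : WN M) : Neu (nf M) ∧ hd (nf M) = hd M :=
  h.star (nf_star hw)

end Crest.Agent.R298
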