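import Crest.Agent.R298.PathAcc
import Crest.Agent.R298.Det

/-! Row 298: normalisation of semantic values along a type. -/

set_option autoImplicit false

namespace Crest.Agent.R298
open Crest.LogicCS.PTS Crest.LogicCS.PTS.Term

universe u
variable {S : Type u} {P : Spec S}

/-- The domain used by the model: labels are terms, results are sets of terms. -/
abbrev TDom (S : Type u) : Type (u + 2) := PreDom (Term S) (Set (Term S))

/-- Normalise a list of arguments along the domains of a type. -/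
noncomputable def nargs {V : Type (u + 1)} (N : Term S → V → V) :
    Term S → List (Term S × V) → List (Term S × V)
  | pi A B, p :: l => (p.1, N A p.2) :: nargs N (nf (inst p.1 B)) l
  | _, l => l

theorem nargs_anchor : type_of% @nargs.eq_def := @nargs.eq_def

@[simp] theorem nargs_pi_cons {V : Type (u + 1)} (N : Term S → V → V) (A B : Term S)
    (p : Term S × V) (l : List (Term S × V)) :
    nargs N (pi A B) (p :: l) = (p.1, N A p.2) :: nargs N (nf (inst p.1 B)) l := by
  simp [nargs]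

@[simp] theorem nargs_nil {V : Type (u + 1)} (N : Term S → V → V) (A : Term S) :
    nargs N A [] = [] := by
  cases A <;> simp [nargs]

@[simp] theorem map_fst_nargs {V : Type (u + 1)} (N : Term S → V → V) (A : Term S)
    (l : List (Term S × V)) : (nargs N A l).map Prod.fst = l.map Prod.fst := by
  induction l generalizing A with
  | nil => simp
  | cons p l ih => cases A <;> simp [nargs, ih]

theorem nargs_congr {V : Type (u + 1)} {N N' : Term S → V → V} {A : Term S}
    {l : List (Term S × V)} (h : ∀ A', Dm A (l.map Prod.fst) A' → N A' = N' A') :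
    nargs N A l = nargs N' A l := by
  induction l generalizing A with
  | nil => simp
  | cons p l ih =>
    cases A with
    | pi A B =>
      rw [nargs_pi_cons, nargs_pi_cons, h A (Dm.here _ _ _ _), ih fun A' h' => h A' (Dm.there h')]
    | var => simp [nargs]
    | sort => simp [nargs]
    | app => simp [nargs]
    | lam => simp [nargs]

theorem nargs_idem_of {V : Type (u + 1)} {N : Term S → V → V} {A : Term S}
    {l : List (Term S × V)}
    (h : ∀ A', Dm A (l.map Prod.fst) A' → ∀ v, N A' (N A' v) = N A' v) :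
    nargs N A (nargs N A l) = nargs N A l := by
  induction l generalizing A with
  | nil => simp
  | cons p l ih =>
    cases A with
    | pi A B =>
      rw [nargs_pi_cons, nargs_pi_cons, h A (Dm.here _ _ _ _), ih fun A' h' => h A' (Dm.there h')]
    | var => simp [nargs]
    | sort => simp [nargs]
    | app => simp [nargs]
    | lam => simp [nargs]

theorem forall₂_map_fst {V : Type (u + 1)} {R : V → V → Prop} {l l' : List (Term S × V)}
    (h : List.Forall₂ (fun p q => p.1 = q.1 ∧ R p.2 q.2) l l') :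
    l.map Prod.fst = l'.map Prod.fst := by
  induction h with
  | nil => rfl
  | cons h _ ih => simp [h.1, ih]

theorem nargs_congr₂ {U : Univ P} {s0 : S} {V : Type (u + 1)} {N : Term S → V → V}
    {R : V → V → Prop} {A : Term S} {l l' : List (Term S × V)}
    (hl : List.Forall₂ (fun p q => p.1 = q.1 ∧ R p.2 q.2) l l')
    (hp : Path U s0 A (l.map Prod.fst))
    (h : ∀ A', Dm A (l.map Prod.fst) A' → ∀ v w, R v w → N A' v = N A' w) :
    nargs N A l = nargs N A l' := by
  induction hl generalizing A with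
  | nil => rfl
  | cons hpq _ ih =>
    rw [List.map_cons] at hp h
    obtain ⟨A₁, B, rfl, -, hp'⟩ := hp.cons_inv
    rw [nargs_pi_cons, nargs_pi_cons, h A₁ (Dm.here _ _ _ _) _ _ hpq.2,
      ih hp' fun A' h' => h A' (Dm.there h'), hpq.1]

theorem nargs_mem {U : Univ P} {s0 : S} {V : Type (u + 1)} {N : Term S → V → V} {A : Term S}
    {l : List (Term S × V)} (hp : Path U s0 A (l.map Prod.fst)) :
    ∀ p ∈ nargs N A l, ∃ A' v, Dm A (l.map Prod.fst) A' ∧ p.2 = N A' v := by
  induction l generalizing A with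
  | nil => simp
  | cons q l ih =>
    rw [List.map_cons] at hp ⊢
    obtain ⟨A₁, B, rfl, -, hp'⟩ := hp.cons_inv
    intro p hm
    rw [nargs_pi_cons, List.mem_cons] at hm
    rcases hm with rfl | hm
    · exact ⟨A₁, q.2, Dm.here _ _ _ _, rfl⟩
    · obtain ⟨A', v, h1, h2⟩ := ih hp' p hm
      exact ⟨A', v, Dm.there h1, h2⟩

theorem exists_index_list {α V κ : Type*} (g : κ → V) {L : List (α × V)}
    (h : ∀ p ∈ L, ∃ k, p.2 = g k) :
    ∃ idx : List (α × κ), L = idx.map (fun q => (q.1, g q.2)) := by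
  induction L with
  | nil => exact ⟨[], rfl⟩
  | cons p L ih =>
    obtain ⟨k, hk⟩ := h p (by simp)
    obtain ⟨idx, hidx⟩ := ih fun q hq => h q (by simp [hq])
    exact ⟨(p.1, k) :: idx, by rw [List.map_cons, ← hidx, ← hk]⟩

open Classical in
/-- Restrict a functional to the addresses of `A`. -/
noncomputable def trunc (U : Univ P) (s0 : S) {V : Type (u + 1)} (A : Term S)
    (φ : List (Term S × V) → Set (Term S)) : List (Term S × V) → Set (Term S) :=
  fun l => if Path U s0 A (l.map Prod.fst) then φ l else ∅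

theorem trunc_pos {U : Univ P} {s0 : S} {V : Type (u + 1)} {A : Term S}
    (φ : List (Term S × V) → Set (Term S)) {l : List (Term S × V)}
    (h : Path U s0 A (l.map Prod.fst)) : trunc U s0 A φ l = φ l := if_pos h

theorem trunc_neg {U : Univ P} {s0 : S} {V : Type (u + 1)} {A : Term S}
    (φ : List (Term S × V) → Set (Term S)) {l : List (Term S × V)}
    (h : ¬ Path U s0 A (l.map Prod.fst)) : trunc U s0 A φ l = ∅ := if_neg h

theorem trunc_congr {U : Univ P} {s0 : S} {V : Type (u + 1)} {A : Term S}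
    {φ ψ : List (Term S × V) → Set (Term S)} {l l' : List (Term S × V)}
    (hl : l.map Prod.fst = l'.map Prod.fst)
    (h : Path U s0 A (l.map Prod.fst) → φ l = ψ l') : trunc U s0 A φ l = trunc U s0 A ψ l' := by
  by_cases hp : Path U s0 A (l.map Prod.fst)
  · rw [trunc_pos _ hp, trunc_pos _ (hl ▸ hp), h hp]
  · rw [trunc_neg _ hp, trunc_neg _ (hl ▸ hp)]

/-- The defining equations of the normalisation operator. -/
structure IsNorm (U : Univ P) (s0 : S) (D : TDom S) (N : Term S → D.V → D.V) : Prop where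
  acc : ∀ A v, Ac U s0 A → N A v = D.lam (trunc U s0 A (fun l => D.eval v (nargs N A l)))
  nacc : ∀ A v, ¬ Ac U s0 A → N A v = D.lam (trunc U s0 A (D.eval v))

theorem norm_wf (U : Univ P) (s0 : S) :
    WellFounded (fun A' A : Term S => Lt U s0 A' A ∧ Ac U s0 A) := by
  refine ⟨fun A => ?_⟩
  by_cases h : Ac U s0 A
  · unfold Ac at h
    induction h with
    | intro A _ ih => exact Acc.intro A fun A' h' => ih A' h'.1
  · exact Acc.intro A fun A' h' => absurd h'.2 h

theorem exists_norm (U : Univ P) (s0 : S) (D : TDom S) : ∃ N, IsNorm U s0 D N := by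
  classical
  let F : ∀ A : Term S, (∀ A', Lt U s0 A' A ∧ Ac U s0 A → D.V → D.V) → D.V → D.V :=
    fun A rec v =>
      if Ac U s0 A then
        D.lam (trunc U s0 A fun l => D.eval v
          (nargs (fun A' => if h : Lt U s0 A' A ∧ Ac U s0 A then rec A' h else id) A l))
      else D.lam (trunc U s0 A (D.eval v))
  refine ⟨(norm_wf U s0).fix F, fun A v h => ?_, fun A v h => ?_⟩
  · rw [WellFounded.fix_eq]
    simp only [F, if_pos h]
    congr 1
    funext l
    refine trunc_congr rfl fun hp => ?_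
    congr 1
    exact nargs_congr fun A' hA' => dif_pos ⟨⟨_, hp, hA'⟩, h⟩
  · rw [WellFounded.fix_eq]
    simp only [F, if_neg h]

/-- Everything the model needs: a domain and a normalisation operator. -/
structure Sem (U : Univ P) (s0 : S) : Type (u + 2) where
  /-- the domain -/
  D : TDom S
  /-- normalisation -/
  N : Term S → D.V → D.V
  dom : IsDom D
  norm : IsNorm U s0 D N

theorem exists_sem (U : Univ P) (s0 : S) : Nonempty (Sem U s0) := by
  obtain ⟨D, hD⟩ := exists_dom (Term S) (Set (Term S))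
  obtain ⟨N, hN⟩ := exists_norm U s0 D
  exact ⟨⟨D, N, hD, hN⟩⟩

namespace Sem
variable {U : Univ P} {s0 : S} (Z : Sem U s0)

/-- The functional only depends on normalised arguments. -/
def Resp (A : Term S) (φ : List (Term S × Z.D.V) → Set (Term S)) : Prop :=
  ∀ l, Path U s0 A (l.map Prod.fst) → φ (nargs Z.N A l) = φ l

/-- A value that ignores its arguments. -/
def Dummy (v : Z.D.V) : Prop := ∀ l, Z.D.eval v l = ∅

theorem exists_dummy : ∃ v, Z.Dummy v ∧ Z.D.Sm v := by
  have h : Z.D.SS (fun _ => (∅ : Set (Term S))) :=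
    ⟨PEmpty, fun i => i.elim, fun i => i.elim, fun _ _ _ => rfl⟩
  exact ⟨Z.D.lam fun _ => ∅, fun l => Z.dom.beta_ss _ h l, Z.dom.sm_lam _ h⟩

theorem small_range_of_tests {ι : Type u} (T : ι → List (Term S × Z.D.V)) (G : Z.D.V → Z.D.V)
    (h : ∀ v v', Z.D.Ag T v v' → G v = G v') :
    ∃ (κ : Type u) (r : κ → Z.D.V), ∀ v, ∃ k, G v = G (r k) :=
  Det.small_range (O := ⟨List (Term S × Z.D.V), fun t v => Z.D.eval v t⟩) ⟨ι, T, h⟩

theorem N_sm_det {A : Term S} (h : Ac U s0 A) :
    (∀ v, Z.D.Sm (Z.N A v)) ∧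
      ∃ (ι : Type u) (T : ι → List (Term S × Z.D.V)), (∀ i, Z.D.SmL (T i)) ∧
        ∀ v v', Z.D.Ag T v v' → Z.N A v = Z.N A v' := by
  unfold Ac at h
  induction h with
  | intro A hA ih =>
    have hA' : Ac U s0 A := Acc.intro A hA
    choose ι T hT hdet using fun A' : {A' // Lt U s0 A' A} => (ih A'.1 A'.2).2
    refine ⟨fun v => ?_, ?_⟩
    · rw [Z.norm.acc A v hA']
      refine Z.dom.sm_lam _ ⟨Σ A', ι A', fun i => T i.1 i.2, fun i => hT _ _, fun l l' hl => ?_⟩
      refine trunc_congr (forall₂_map_fst hl) fun hp => ?_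
      congr 1
      exact nargs_congr₂ hl hp fun A' hA'' v w hvw =>
        hdet ⟨A', _, hp, hA''⟩ v w fun i => hvw ⟨_, i⟩
    · choose κ r hr using fun A' : {A' // Lt U s0 A' A} =>
        Z.small_range_of_tests (T A') (Z.N A'.1) (hdet A')
      refine ⟨List (Term S × Σ A', κ A'),
        fun idx => idx.map fun q => (q.1, Z.N q.2.1.1 (r q.2.1 q.2.2)), fun idx p hp => ?_,
        fun v v' hv => ?_⟩
      · obtain ⟨q, -, rfl⟩ := List.mem_map.1 hp
        exact (ih _ q.2.1.2).1 _
      · rw [Z.norm.acc A v hA', Z.norm.acc A v' hA']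
        congr 1
        funext l
        refine trunc_congr rfl fun hp => ?_
        obtain ⟨idx, hidx⟩ := exists_index_list
          (fun q : Σ A', κ A' => Z.N q.1.1 (r q.1 q.2)) (L := nargs Z.N A l) fun p hm => by
            obtain ⟨A', w, h1, h2⟩ := nargs_mem hp p hm
            obtain ⟨k, hk⟩ := hr ⟨A', _, hp, h1⟩ w
            exact ⟨⟨_, k⟩, h2.trans hk⟩
        rw [hidx]
        exact hv idx

theorem N_sm_of_ac {A : Term S} (h : Ac U s0 A) (v : Z.D.V) : Z.D.Sm (Z.N A v) :=
  (Z.N_sm_det h).1 v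

theorem N_sm {A : Term S} {v : Z.D.V} (h : Z.D.Sm v) : Z.D.Sm (Z.N A v) := by
  by_cases hA : Ac U s0 A
  · exact Z.N_sm_of_ac hA v
  · rw [Z.norm.nacc A v hA]
    obtain ⟨ι, T, hT, hs⟩ := Z.dom.ss_eval v h
    exact Z.dom.sm_lam _ ⟨ι, T, hT, fun l l' hl =>
      trunc_congr (forall₂_map_fst hl) fun _ => hs l l' hl⟩

theorem smL_nargs {A : Term S} {l : List (Term S × Z.D.V)} (h : Z.D.SmL l) :
    Z.D.SmL (nargs Z.N A l) := by
  induction l generalizing A with
  | nil => simpa using h
  | cons p l ih =>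
    cases A with
    | pi A B =>
      rw [nargs_pi_cons]
      intro q hq
      rcases List.mem_cons.1 hq with rfl | hq
      · exact Z.N_sm (h p (by simp))
      · exact ih (fun x hx => h x (by simp [hx])) q hq
    | var => simpa [nargs] using h
    | sort => simpa [nargs] using h
    | app => simpa [nargs] using h
    | lam => simpa [nargs] using h

theorem smL_nargs_of_ac {A : Term S} (h : Ac U s0 A) {l : List (Term S × Z.D.V)}
    (hp : Path U s0 A (l.map Prod.fst)) : Z.D.SmL (nargs Z.N A l) := fun p hm => by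
  obtain ⟨A', v, h1, h2⟩ := nargs_mem hp p hm
  rw [h2]
  exact Z.N_sm_of_ac (Acc.inv h ⟨_, hp, h1⟩) v

theorem eval_N_ac {A : Term S} (h : Ac U s0 A) (v : Z.D.V) {t : List (Term S × Z.D.V)}
    (ht : Z.D.SmL t) :
    Z.D.eval (Z.N A v) t = trunc U s0 A (fun l => Z.D.eval v (nargs Z.N A l)) t := by
  rw [Z.norm.acc A v h, Z.dom.beta_sm _ _ ht]

theorem eval_N_nac {A : Term S} (h : ¬ Ac U s0 A) (v : Z.D.V) {t : List (Term S × Z.D.V)}
    (ht : Z.D.SmL t) : Z.D.eval (Z.N A v) t = trunc U s0 A (Z.D.eval v) t := by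
  rw [Z.norm.nacc A v h, Z.dom.beta_sm _ _ ht]

theorem N_idem (A : Term S) (v : Z.D.V) : Z.N A (Z.N A v) = Z.N A v := by
  by_cases h : Ac U s0 A
  · unfold Ac at h
    induction h generalizing v with
    | intro A hA ih =>
      have hA' : Ac U s0 A := Acc.intro A hA
      rw [Z.norm.acc A (Z.N A v) hA']
      conv_rhs => rw [Z.norm.acc A v hA']
      refine Z.dom.lam_ext _ _ fun l hl => trunc_congr rfl fun hp => ?_
      rw [Z.eval_N_ac hA' v (Z.smL_nargs hl), trunc_pos _ (by rwa [map_fst_nargs]),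
        nargs_idem_of fun A' h' w => ih A' ⟨_, hp, h'⟩ w]
  · rw [Z.norm.nacc A (Z.N A v) h]
    conv_rhs => rw [Z.norm.nacc A v h]
    refine Z.dom.lam_ext _ _ fun l hl => trunc_congr rfl fun hp => ?_
    rw [Z.eval_N_nac h v hl, trunc_pos _ hp]

theorem nargs_idem (A : Term S) (l : List (Term S × Z.D.V)) :
    nargs Z.N A (nargs Z.N A l) = nargs Z.N A l :=
  nargs_idem_of fun A' _ v => Z.N_idem A' v

/-- At an accessible type the normalised value is determined by a small family of tests. -/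
theorem N_det_of_ac {A : Term S} (h : Ac U s0 A) :
    ∃ (ι : Type u) (T : ι → List (Term S × Z.D.V)), (∀ i, Z.D.SmL (T i)) ∧
      ∀ v v', Z.D.Ag T v v' → Z.N A v = Z.N A v' := (Z.N_sm_det h).2

theorem N_lam_congr {A : Term S} {φ ψ : List (Term S × Z.D.V) → Set (Term S)}
    (h : ∀ l, Z.D.SmL l → Path U s0 A (l.map Prod.fst) → φ l = ψ l) :
    Z.N A (Z.D.lam φ) = Z.N A (Z.D.lam ψ) := by
  by_cases hA : Ac U s0 A
  · rw [Z.norm.acc A _ hA, Z.norm.acc A _ hA]
    refine Z.dom.lam_ext _ _ fun l hl => trunc_congr rfl fun hp => ?_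
    rw [Z.dom.beta_sm _ _ (Z.smL_nargs hl), Z.dom.beta_sm _ _ (Z.smL_nargs hl)]
    exact h _ (Z.smL_nargs hl) (by rwa [map_fst_nargs])
  · rw [Z.norm.nacc A _ hA, Z.norm.nacc A _ hA]
    refine Z.dom.lam_ext _ _ fun l hl => trunc_congr rfl fun hp => ?_
    rw [Z.dom.beta_sm _ _ hl, Z.dom.beta_sm _ _ hl]
    exact h _ hl hp

theorem N_lam_of_not_ac {A : Term S} (h : ¬ Ac U s0 A)
    (φ : List (Term S × Z.D.V) → Set (Term S)) :
    Z.N A (Z.D.lam φ) = Z.D.lam (trunc U s0 A φ) := by
  rw [Z.norm.nacc A _ h]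
  exact Z.dom.lam_ext _ _ fun l hl => trunc_congr rfl fun _ => Z.dom.beta_sm _ _ hl

theorem N_lam_sm {A : Term S} {φ : List (Term S × Z.D.V) → Set (Term S)}
    (h : Z.D.SS (trunc U s0 A φ)) : Z.D.Sm (Z.N A (Z.D.lam φ)) := by
  by_cases hA : Ac U s0 A
  · exact Z.N_sm_of_ac hA _
  · rw [Z.N_lam_of_not_ac hA]
    exact Z.dom.sm_lam _ h

/-- The beta law used at a variable bound to a normalised abstraction. -/
theorem eval_N_lam {A : Term S} {φ : List (Term S × Z.D.V) → Set (Term S)}
    {l : List (Term S × Z.D.V)} (hr : Z.Resp A φ) (hp : Path U s0 A (l.map Prod.fst))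
    (h : Ac U s0 A ∨ Z.D.SS (trunc U s0 A φ) ∨ Z.D.SmL (nargs Z.N A l)) :
    Z.D.eval (Z.N A (Z.D.lam φ)) (nargs Z.N A l) = φ l := by
  have hp' : Path U s0 A ((nargs Z.N A l).map Prod.fst) := by rwa [map_fst_nargs]
  by_cases hA : Ac U s0 A
  · have hs := Z.smL_nargs_of_ac hA hp
    rw [Z.eval_N_ac hA _ hs, trunc_pos _ hp', Z.nargs_idem, Z.dom.beta_sm _ _ hs, hr l hp]
  · rw [Z.N_lam_of_not_ac hA]
    rcases h with h | h | h
    · exact absurd h hA
    · rw [Z.dom.beta_ss _ h, trunc_pos _ hp', hr l hp]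
    · rw [Z.dom.beta_sm _ _ h, trunc_pos _ hp', hr l hp]

variable {Ω : Type (u + 1)} {O : Obs Ω (Set (Term S))}

theorem pw_N {A : Term S} {v : Ω → Z.D.V} (h : PW Z.D O v) :
    PW Z.D O (fun ω => Z.N A (v ω)) := fun t ht => by
  by_cases hp : Path U s0 A (t.map Prod.fst)
  · by_cases hA : Ac U s0 A
    · exact (h _ (Z.smL_nargs (A := A) ht)).congr fun ω => by
        rw [Z.eval_N_ac hA _ ht, trunc_pos _ hp]
    · exact (h _ ht).congr fun ω => by rw [Z.eval_N_nac hA _ ht, trunc_pos _ hp]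
  · refine (det_const ∅).congr fun ω => ?_
    by_cases hA : Ac U s0 A
    · rw [Z.eval_N_ac hA _ ht, trunc_neg _ hp]
    · rw [Z.eval_N_nac hA _ ht, trunc_neg _ hp]

theorem un_N_of_ac {A : Term S} (hA : Ac U s0 A) {v : Ω → Z.D.V}
    (h : PW Z.D O (fun ω => Z.N A (v ω))) : UN Z.D O (fun ω => Z.N A (v ω)) := by
  refine ⟨?_, fun ω => Z.N_sm_of_ac hA _⟩
  obtain ⟨ι, T, hT, hdet⟩ := Z.N_det_of_ac hA
  refine det_of_family (fun i => h (T i) (hT i)) fun ω ω' hω => ?_
  rw [← Z.N_idem A (v ω), ← Z.N_idem A (v ω')]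
  exact hdet _ _ hω

theorem pw_N_lam {A : Term S} {φ : Ω → List (Term S × Z.D.V) → Set (Term S)}
    (h : ∀ t, Z.D.SmL t → Path U s0 A (t.map Prod.fst) → Det O (fun ω => φ ω t)) :
    PW Z.D O (fun ω => Z.N A (Z.D.lam (φ ω))) := fun t ht => by
  by_cases hp : Path U s0 A (t.map Prod.fst)
  · by_cases hA : Ac U s0 A
    · have hs := Z.smL_nargs (A := A) ht
      exact (h _ hs (by rwa [map_fst_nargs])).congr fun ω => by
        rw [Z.eval_N_ac hA _ ht, trunc_pos _ hp, Z.dom.beta_sm _ _ hs]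
    · exact (h _ ht hp).congr fun ω => by
        rw [Z.eval_N_nac hA _ ht, trunc_pos _ hp, Z.dom.beta_sm _ _ ht]
  · refine (det_const ∅).congr fun ω => ?_
    by_cases hA : Ac U s0 A
    · rw [Z.eval_N_ac hA _ ht, trunc_neg _ hp]
    · rw [Z.eval_N_nac hA _ ht, trunc_neg _ hp]

end Sem

end Crest.Agent.R298
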