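import Crest.Agent.R298.Graph

/-! Row 298: syntactic addresses of types, the live-domain relation and its accessibility. -/

set_option autoImplicit false

namespace Crest.Agent.R298
open Crest.LogicCS.PTS Crest.LogicCS.PTS.Term

universe u
variable {S : Type u} {P : Spec S}

/-- `Path U s0 A l`: instantiating the (normal) type `A` along the arguments `l` ends in a sort
of the component of `s0`. -/
inductive Path (U : Univ P) (s0 : S) : Term S → List (Term S) → Prop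
  | nil {t : S} : InC P s0 t → Path U s0 (sort t) []
  | cons {A B a : Term S} {l : List (Term S)} : Ty P U.Θ a A →
      Path U s0 (nf (inst a B)) l → Path U s0 (pi A B) (a :: l)

/-- `Dm A l A'`: `A'` is one of the domains met when instantiating `A` along `l`. -/
inductive Dm : Term S → List (Term S) → Term S → Prop
  | here (A B a : Term S) (l : List (Term S)) : Dm (pi A B) (a :: l) A
  | there {A B a A' : Term S} {l : List (Term S)} :
      Dm (nf (inst a B)) l A' → Dm (pi A B) (a :: l) A'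

/-- The live-domain relation. -/
def Lt (U : Univ P) (s0 : S) (A' A : Term S) : Prop := ∃ l, Path U s0 A l ∧ Dm A l A'

/-- Accessible types. -/
def Ac (U : Univ P) (s0 : S) (A : Term S) : Prop := Acc (Lt U s0) A

/-- The type `A` of the universal context has a sort of parity `b`. -/
def ParT (U : Univ P) (s0 : S) (b : Bool) (A : Term S) : Prop :=
  ∃ s, Par P s0 b s ∧ Ty P U.Θ A (sort s)

/-- Needed types. -/
def Nd (U : Univ P) (s0 : S) (A : Term S) : Prop := ParT U s0 false A ∨ ParT U s0 true A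

variable {U : Univ P} {s0 : S}

theorem path_pi_cons_iff {A B a : Term S} {l : List (Term S)} :
    Path U s0 (pi A B) (a :: l) ↔ Ty P U.Θ a A ∧ Path U s0 (nf (inst a B)) l :=
  ⟨fun h => by cases h with | cons h1 h2 => exact ⟨h1, h2⟩, fun h => Path.cons h.1 h.2⟩
theorem path_sort_iff {t : S} {l : List (Term S)} :
    Path U s0 (sort t) l ↔ l = [] ∧ InC P s0 t :=
  ⟨fun h => by cases h with | nil h1 => exact ⟨rfl, h1⟩, fun h => h.1 ▸ Path.nil h.2⟩
theorem path_nil_iff {A : Term S} : Path U s0 A [] ↔ ∃ t, A = sort t ∧ InC P s0 t :=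
  ⟨fun h => by cases h with | nil h1 => exact ⟨_, rfl, h1⟩,
    fun ⟨_, h1, h2⟩ => h1 ▸ Path.nil h2⟩
theorem Path.cons_inv {T a : Term S} {l : List (Term S)} (h : Path U s0 T (a :: l)) :
    ∃ A B, T = pi A B ∧ Ty P U.Θ a A ∧ Path U s0 (nf (inst a B)) l := by
  cases h with
  | cons h1 h2 => exact ⟨_, _, rfl, h1, h2⟩
theorem Neu.not_path {A : Term S} (h : Neu A) (l : List (Term S)) : ¬ Path U s0 A l := by
  intro hp
  cases hp <;> cases h

theorem ac_of_no_path {A : Term S} (h : ∀ l, ¬ Path U s0 A l) : Ac U s0 A :=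
  Acc.intro _ fun _ ⟨l, hp, _⟩ => absurd hp (h l)
theorem ac_sort (t : S) : Ac U s0 (sort t) :=
  Acc.intro _ fun _ ⟨_, _, hd⟩ => by cases hd
theorem ac_pi {A B : Term S}
    (h : ∀ a l, Path U s0 (pi A B) (a :: l) → Ac U s0 A ∧ Ac U s0 (nf (inst a B))) :
    Ac U s0 (pi A B) := by
  refine Acc.intro _ ?_
  rintro A' ⟨l, hp, hd⟩
  cases hd with
  | here _ _ a l => exact (h a l hp).1
  | there hd => exact Acc.inv (h _ _ hp).2 ⟨_, (path_pi_cons_iff.1 hp).2, hd⟩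
theorem Ac.pi_inv {A B a : Term S} {l : List (Term S)} (h : Ac U s0 (pi A B))
    (hp : Path U s0 (pi A B) (a :: l)) : Ac U s0 A ∧ Ac U s0 (nf (inst a B)) :=
  ⟨Acc.inv h ⟨_, hp, Dm.here ..⟩, Acc.intro _ fun _ ⟨_, hp', hd⟩ =>
    Acc.inv h ⟨_, Path.cons (path_pi_cons_iff.1 hp).1 hp', Dm.there hd⟩⟩

/-- A type with an address has only productive sorts. -/
theorem Path.pr {A : Term S} {l : List (Term S)} {s : S} (hp : Path U s0 A l)
    (h : Ty P U.Θ A (sort s)) : Pr P s0 s := by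
  induction hp generalizing s with
  | nil ht => exact ⟨_, ht, s, ResReach.refl s, h.gen_sort_sort⟩
  | cons ha _ ih =>
    obtain ⟨s₁, s₂, hr, -, hB⟩ := h.gen_pi_sort
    exact (ih ((good_univ U).ty_nf (hB.inst ha))).step hr

/-- Parity along an address. -/
theorem ParT.pi {b : Bool} {A B a : Term S} {l : List (Term S)} (h : ParT U s0 b (pi A B))
    (hp : Path U s0 (pi A B) (a :: l)) :
    ParT U s0 (!b) A ∧ ParT U s0 b (nf (inst a B)) := by
  obtain ⟨s, hs, hT⟩ := h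
  obtain ⟨ha, hp⟩ := path_pi_cons_iff.1 hp
  obtain ⟨s₁, s₂, hr, hA, hB⟩ := hT.gen_pi_sort
  have hB' : Ty P U.Θ (nf (inst a B)) (sort s₂) := (good_univ U).ty_nf (hB.inst ha)
  obtain ⟨h1, h2⟩ := hs.rule hr (hp.pr hB')
  exact ⟨⟨s₁, h1, hA⟩, s₂, h2, hB'⟩

theorem Nd.pi {A B a : Term S} {l : List (Term S)} (h : Nd U s0 (pi A B))
    (hp : Path U s0 (pi A B) (a :: l)) : Nd U s0 A ∧ Nd U s0 (nf (inst a B)) := by
  rcases h with h | h
  · exact ⟨Or.inr (h.pi hp).1, Or.inl (h.pi hp).2⟩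
  · exact ⟨Or.inl (h.pi hp).1, Or.inr (h.pi hp).2⟩

namespace PathAccAux

theorem both_reach {k k' : S} (h0 : Par P s0 false k) (h1 : Par P s0 true k)
    (h : Reach (HEdge P s0) k k') : Par P s0 false k' ∧ Par P s0 true k' := by
  obtain ⟨b, w⟩ := h
  cases b
  · exact ⟨h0.walk w, h1.walk w⟩
  · exact ⟨h1.walk w, h0.walk w⟩

/-- Accessibility of an instantiated product. -/
theorem ac_sub_pi {Γ : Ctx S} {σ : ℕ → Term S} {A B : Term S} {s : S}
    (hσ : SubTy P U.Θ σ Γ) (hT : Ty P Γ (pi A B) (sort s))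
    (h : ∀ a l, SubTy P U.Θ (scons a σ) (ext Γ A) → Path U s0 (nf (sub (scons a σ) B)) l →
      Ac U s0 (nf (sub σ A)) ∧ Ac U s0 (nf (sub (scons a σ) B))) :
    Ac U s0 (nf (sub σ (pi A B))) := by
  obtain ⟨e1, e2⟩ := (good_univ U).nf_sub_pi hσ hT
  obtain ⟨s₁, -, -, hA, -⟩ := hT.gen_pi_sort
  rw [e1]
  refine ac_pi fun a l hp => ?_
  obtain ⟨ha, hp⟩ := path_pi_cons_iff.1 hp
  rw [e2] at hp ⊢
  exact h a l (hσ.cons (((good_univ U).ty_nf_iff (hA.sub_sort hσ)).1 ha)) hp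

/-- No contravariant edge inside the component of `k`. -/
theorem no_contra {k : S}
    (ih : ∀ k', Reach (HEdge P s0) k k' → ¬ Reach (HEdge P s0) k' k → ∀ A, Normal A →
      Ty P U.Θ A (sort k') → Ac U s0 A)
    (hc : ∀ q₃ q₁, Mut (HEdge P s0) k q₃ → Mut (HEdge P s0) k q₁ → ¬ HEdge P s0 q₃ true q₁)
    {A A' : Term S} {l : List (Term S)} (hd : Dm A l A') (hp : Path U s0 A l) (hn : Normal A)
    {k₁ : S} (hk : Reach (HEdge P s0) k k₁) (hA : Ty P U.Θ A (sort k₁)) : Ac U s0 A' := by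
  induction hd generalizing k₁ with
  | here A B a l =>
    obtain ⟨ha, hp⟩ := path_pi_cons_iff.1 hp
    obtain ⟨s₁, s₂, hr, hA, hB⟩ := hA.gen_pi_sort
    have he := HEdge.arg hr (hp.pr ((good_univ U).ty_nf (hB.inst ha)))
    refine ih s₁ (hk.trans (Reach.edge he)) (fun h => ?_) A (normal_pi_iff.1 hn).1 hA
    exact hc k₁ s₁ ⟨hk, (Reach.edge he).trans h⟩ ⟨hk.trans (Reach.edge he), h⟩ he
  | there _ ih' =>
    obtain ⟨ha, hp⟩ := path_pi_cons_iff.1 hp
    obtain ⟨s₁, s₂, hr, -, hB⟩ := hA.gen_pi_sort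
    have hB' := (good_univ U).ty_nf (hB.inst ha)
    exact ih' hp (nf_normal' _) (hk.trans (Reach.edge (HEdge.res hr (hp.pr hB')))) hB'

/-- The neutral case of `no_poly`. -/
theorem no_poly_neu {k : S} {T : Term S} (hN : Neu T) {Γ : Ctx S} {σ : ℕ → Term S} {k₁ : S}
    (hΓ : Good U Γ) (hσ : SubTy P U.Θ σ Γ) (hk : Mut (HEdge P s0) k k₁)
    (hT : Ty P Γ T (sort k₁))
    (hy : ∀ y, (∃ j, σ y = var j) ∨ ∃ p₁, Ty P Γ (nf (Γ y)) (sort p₁) ∧
      ∀ k₀, Mut (HEdge P s0) k k₀ → ¬ RP P p₁ k₀) :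
    Ac U s0 (nf (sub σ T)) := by
  rcases hy (hd T) with ⟨j, hj⟩ | ⟨p₁, hp, hp'⟩
  · exact ac_of_no_path ((hN.sub hj).1.nf (U.wn (hT.sub hσ))).1.not_path
  · obtain ⟨p', h1, h2⟩ := neu_res_sort hΓ hN hT hp
    rw [nf_sort] at h2
    exact absurd ⟨p', h1, h2.gen_sort_sort⟩ (hp' k₁ hk)

/-- No polymorphic rule inside the component of `k`. -/
theorem no_poly {k : S}
    (ih : ∀ k', Reach (HEdge P s0) k k' → ¬ Reach (HEdge P s0) k' k → ∀ A, Normal A →
      Ty P U.Θ A (sort k') → Ac U s0 A)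
    (hc : ∀ p₁ p₂ p₃ k₀, P.rule p₁ p₂ p₃ → Pr P s0 p₂ → Mut (HEdge P s0) k p₃ →
      Mut (HEdge P s0) k p₂ → Mut (HEdge P s0) k k₀ → ¬ RP P p₁ k₀)
    (T : Term S) (hn : Normal T) {Γ : Ctx S} {σ : ℕ → Term S} {k₁ : S} (hΓ : Good U Γ)
    (hσ : SubTy P U.Θ σ Γ) (hk : Mut (HEdge P s0) k k₁) (hT : Ty P Γ T (sort k₁))
    (hy : ∀ y, (∃ j, σ y = var j) ∨ ∃ p₁, Ty P Γ (nf (Γ y)) (sort p₁) ∧
      ∀ k₀, Mut (HEdge P s0) k k₀ → ¬ RP P p₁ k₀) :
    Ac U s0 (nf (sub σ T)) := by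
  induction T generalizing Γ σ k₁ with
  | var i => exact no_poly_neu (Neu.var i) hΓ hσ hk hT hy
  | sort t => rw [sub_sort, nf_sort]; exact ac_sort t
  | app M N =>
    rcases hT.normal_type_cases hn with h | ⟨t, h⟩ | ⟨A, B, h⟩
    · exact no_poly_neu h hΓ hσ hk hT hy
    · cases h
    · cases h
  | lam A M => exact absurd hT Ty.not_lam_sort
  | pi A B ihA ihB =>
    obtain ⟨hnA, hnB⟩ := normal_pi_iff.1 hn
    refine ac_sub_pi hσ hT fun a l hσ' hp => ?_
    obtain ⟨s₁, s₂, hr, hA, hB⟩ := hT.gen_pi_sort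
    have hA' := (good_univ U).ty_nf (hA.sub_sort hσ)
    have hB' := (good_univ U).ty_nf (hB.sub_sort hσ')
    have hpr := hp.pr hB'
    have r1 := hk.1.trans (Reach.edge (HEdge.arg hr hpr))
    have r2 := hk.1.trans (Reach.edge (HEdge.res hr hpr))
    constructor
    · by_cases h1 : Reach (HEdge P s0) s₁ k
      · exact ihA hnA hΓ hσ ⟨r1, h1⟩ hA hy
      · exact ih s₁ r1 h1 _ (nf_normal' _) hA'
    · by_cases h2 : Reach (HEdge P s0) s₂ k
      · refine ihB hnB (hΓ.ext hA) hσ' ⟨r2, h2⟩ hB fun y => ?_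
        cases y with
        | zero =>
          exact Or.inr ⟨s₁, (hΓ.ext hA).ty_nf (hA.wk_sort A),
            fun k₀ hk₀ => hc s₁ s₂ k₁ k₀ hr hpr hk ⟨r2, h2⟩ hk₀⟩
        | succ y =>
          rcases hy y with h | ⟨p₁, h, h'⟩
          · exact Or.inl h
          · obtain ⟨t, ht⟩ := hΓ.1 y
            refine Or.inr ⟨p₁, ?_, h'⟩
            rw [ext_succ, nf_wk (hΓ.wn ht)]
            exact h.wk_sort A
      · exact ih s₂ r2 h2 _ (nf_normal' _) hB'

end PathAccAux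

open PathAccAux in
/-- Without the obstruction, types whose sort is reachable with both parities are accessible. -/
theorem ac_of_sort_both (hc : ¬ Config P s0) {k : S} (h0 : Par P s0 false k)
    (h1 : Par P s0 true k) {A : Term S} (hn : Normal A) (hA : Ty P U.Θ A (sort k)) :
    Ac U s0 A := by
  induction k using (wf_strict (hedge_targets_finite (s0 := s0) U)).induction generalizing A with
  | _ k ih0 =>
  have ih : ∀ k', Reach (HEdge P s0) k k' → ¬ Reach (HEdge P s0) k' k → ∀ A, Normal A →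
      Ty P U.Θ A (sort k') → Ac U s0 A := fun k' r r' A hn hA =>
    ih0 k' ⟨r, r'⟩ (both_reach h0 h1 r).1 (both_reach h0 h1 r).2 hn hA
  by_cases hcon : ∃ q₃ q₁, Mut (HEdge P s0) k q₃ ∧ Mut (HEdge P s0) k q₁ ∧ HEdge P s0 q₃ true q₁
  · obtain ⟨q₃, q₁, m₃, m₁, he⟩ := hcon
    have := no_poly ih (fun p₁ p₂ p₃ k₀ hr hp n₃ n₂ n₀ hrp => hc ⟨p₁, p₂, p₃, k₀, q₃, q₁, hr, hp,
      hrp, he, n₃.symm.trans n₂, n₃.symm.trans n₀, n₃.symm.trans m₃, n₃.symm.trans m₁,
      (both_reach h0 h1 n₃.1).1, (both_reach h0 h1 n₃.1).2⟩) A hn (good_univ U) subTy_id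
      (Mut.refl k) hA fun y => Or.inl ⟨y, rfl⟩
    rwa [sub_id, nf_of_normal hn] at this
  · refine Acc.intro _ ?_
    rintro A' ⟨l, hp, hd⟩
    exact no_contra ih (fun q₃ q₁ m₃ m₁ he => hcon ⟨q₃, q₁, m₃, m₁, he⟩) hd hp hn
      (Reach.refl k) hA

namespace PathAccAux

theorem both_aux (hc : ¬ Config P s0) (T : Term S) (hn : Normal T) {Γ : Ctx S}
    {σ : ℕ → Term S} {s s' : S} (hσ : SubTy P U.Θ σ Γ) (h0 : Par P s0 false s)
    (h1 : Par P s0 true s') (hT : Ty P Γ T (sort s)) (hT' : Ty P Γ T (sort s')) :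
    Ac U s0 (nf (sub σ T)) := by
  have hneu : ∀ {T : Term S} {Γ : Ctx S} {σ : ℕ → Term S} {s s' : S}, Neu T →
      SubTy P U.Θ σ Γ → Par P s0 false s → Par P s0 true s' → Ty P Γ T (sort s) →
      Ty P Γ T (sort s') → Ac U s0 (nf (sub σ T)) := fun hN hσ h0 h1 hT hT' => by
    obtain rfl := beq_sort_inj (Ty.neu_unique hN hT hT')
    exact ac_of_sort_both hc h0 h1 (nf_normal' _) ((good_univ U).ty_nf (hT.sub_sort hσ))
  induction T generalizing Γ σ s s' with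
  | var i => exact hneu (Neu.var i) hσ h0 h1 hT hT'
  | sort t => rw [sub_sort, nf_sort]; exact ac_sort t
  | app M N =>
    rcases hT.normal_type_cases hn with h | ⟨t, h⟩ | ⟨A, B, h⟩
    · exact hneu h hσ h0 h1 hT hT'
    · cases h
    · cases h
  | lam A M => exact absurd hT Ty.not_lam_sort
  | pi A B ihA ihB =>
    obtain ⟨hnA, hnB⟩ := normal_pi_iff.1 hn
    refine ac_sub_pi hσ hT fun a l hσ' hp => ?_
    obtain ⟨s₁, s₂, hr, hA, hB⟩ := hT.gen_pi_sort
    obtain ⟨t₁, t₂, hr', hA', hB'⟩ := hT'.gen_pi_sort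
    obtain ⟨a1, a2⟩ := h0.rule hr (hp.pr ((good_univ U).ty_nf (hB.sub_sort hσ')))
    obtain ⟨b1, b2⟩ := h1.rule hr' (hp.pr ((good_univ U).ty_nf (hB'.sub_sort hσ')))
    exact ⟨ihA hnA hσ b1 a1 hA' hA, ihB hnB hσ' a2 b2 hB hB'⟩

end PathAccAux

/-- Without the obstruction, types with an even sort and an odd sort are accessible. -/
theorem ac_of_both (hc : ¬ Config P s0) {A : Term S} (hn : Normal A)
    (h0 : ParT U s0 false A) (h1 : ParT U s0 true A) : Ac U s0 A := by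
  obtain ⟨s, hs, hT⟩ := h0
  obtain ⟨s', hs', hT'⟩ := h1
  have := PathAccAux.both_aux hc A hn subTy_id hs hs' hT hT'
  rwa [sub_id, nf_of_normal hn] at this

end Crest.Agent.R298
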