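import Crest.Agent.R298.Subst

/-! Row 298: beta reduction, confluence, conversion, normal forms. -/

set_option autoImplicit false

namespace Crest.Agent.R298
open Crest.LogicCS.PTS Crest.LogicCS.PTS.Term

universe u
variable {S : Type u}

/-- Many-step beta reduction. -/
abbrev Star (M N : Term S) : Prop := Relation.ReflTransGen Beta M N

/-- Weak head beta step. -/
inductive Wh : Term S → Term S → Prop
  | beta (A M N : Term S) : Wh (app (lam A M) N) (inst N M)
  | app {M M' : Term S} (N : Term S) : Wh M M' → Wh (app M N) (app M' N)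

/-- Neutral terms: a variable applied to arguments. -/
inductive Neu : Term S → Prop
  | var (i : ℕ) : Neu (var i)
  | app {M : Term S} (N : Term S) : Neu M → Neu (app M N)

/-- Stuck terms: a variable, a sort or a product applied to arguments. -/
inductive Stuck : Term S → Prop
  | var (i : ℕ) : Stuck (var i)
  | sort (s : S) : Stuck (sort s)
  | pi (A B : Term S) : Stuck (pi A B)
  | app {M : Term S} (N : Term S) : Stuck M → Stuck (app M N)

/-- Head variable of a neutral term. -/
def hd : Term S → ℕ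
  | var i => i
  | app M _ => hd M
  | _ => 0

theorem hd_anchor : type_of% @hd.eq_def := @hd.eq_def

@[simp] theorem hd_var (i : ℕ) : hd (var i : Term S) = i := rfl
@[simp] theorem hd_app (M N : Term S) : hd (app M N) = hd M := rfl

open Classical in
/-- The normal form of a weakly normalizing term (a constant junk value otherwise). -/
noncomputable def nf (M : Term S) : Term S :=
  if h : WN M then Classical.choose h else var 0

/-! ### One step and many steps -/

theorem RedAux.beta_sub_aux {M N : Term S} (h : Beta M N) :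
    ∀ σ : ℕ → Term S, Beta (sub σ M) (sub σ N) := by
  induction h with
  | redex A M N =>
    intro σ
    rw [subst_eq_inst, sub_inst']
    exact beta_redex _ _ _
  | appL N _ ih => exact fun σ => Beta.appL _ (ih σ)
  | appR M _ ih => exact fun σ => Beta.appR _ (ih σ)
  | lamA M _ ih => exact fun σ => Beta.lamA _ (ih σ)
  | lamM A _ ih => exact fun σ => Beta.lamM _ (ih _)
  | piA B _ ih => exact fun σ => Beta.piA _ (ih σ)
  | piB A _ ih => exact fun σ => Beta.piB _ (ih _)

open RedAux

theorem RedAux.ren_eq_lam {ξ : ℕ → ℕ} {M A b : Term S} (h : ren ξ M = lam A b) :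
    ∃ A' b', M = lam A' b' ∧ A = ren ξ A' ∧ b = ren (upr ξ) b' := by
  cases M with
  | lam A' b' =>
    simp only [ren_lam, Term.lam.injEq] at h
    exact ⟨A', b', rfl, h.1.symm, h.2.symm⟩
  | _ => simp at h

theorem RedAux.ren_eq_pi {ξ : ℕ → ℕ} {M A b : Term S} (h : ren ξ M = pi A b) :
    ∃ A' b', M = pi A' b' ∧ A = ren ξ A' ∧ b = ren (upr ξ) b' := by
  cases M with
  | pi A' b' =>
    simp only [ren_pi, Term.pi.injEq] at h
    exact ⟨A', b', rfl, h.1.symm, h.2.symm⟩
  | _ => simp at h

theorem RedAux.ren_eq_app {ξ : ℕ → ℕ} {M A b : Term S} (h : ren ξ M = app A b) :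
    ∃ A' b', M = app A' b' ∧ A = ren ξ A' ∧ b = ren ξ b' := by
  cases M with
  | app A' b' =>
    simp only [ren_app, Term.app.injEq] at h
    exact ⟨A', b', rfl, h.1.symm, h.2.symm⟩
  | _ => simp at h

theorem beta_ren {M N : Term S} (ξ : ℕ → ℕ) (h : Beta M N) : Beta (ren ξ M) (ren ξ N) := by
  rw [ren_eq_sub, ren_eq_sub]
  exact beta_sub_aux h _


theorem beta_sub {M N : Term S} (σ : ℕ → Term S) (h : Beta M N) : Beta (sub σ M) (sub σ N) := by
  exact beta_sub_aux h σ


/-- Renamings reflect steps. -/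
theorem beta_of_ren {M N : Term S} {ξ : ℕ → ℕ} (h : Beta (ren ξ M) N) :
    ∃ M', Beta M M' ∧ N = ren ξ M' := by
  generalize e : ren ξ M = L at h
  induction h generalizing M ξ with
  | redex A b N =>
    obtain ⟨M₁, N', rfl, e₁, rfl⟩ := ren_eq_app e
    obtain ⟨A', b', rfl, rfl, rfl⟩ := ren_eq_lam e₁.symm
    exact ⟨_, beta_redex A' b' N', by rw [subst_eq_inst, ren_inst]⟩
  | appL N _ ih =>
    obtain ⟨M₁, N', rfl, rfl, rfl⟩ := ren_eq_app e
    obtain ⟨M', h1, rfl⟩ := ih rfl
    exact ⟨_, Beta.appL _ h1, rfl⟩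
  | appR M _ ih =>
    obtain ⟨M₁, N', rfl, rfl, rfl⟩ := ren_eq_app e
    obtain ⟨M', h1, rfl⟩ := ih rfl
    exact ⟨_, Beta.appR _ h1, rfl⟩
  | lamA M _ ih =>
    obtain ⟨M₁, N', rfl, rfl, rfl⟩ := ren_eq_lam e
    obtain ⟨M', h1, rfl⟩ := ih rfl
    exact ⟨_, Beta.lamA _ h1, rfl⟩
  | lamM A _ ih =>
    obtain ⟨M₁, N', rfl, rfl, rfl⟩ := ren_eq_lam e
    obtain ⟨M', h1, rfl⟩ := ih rfl
    exact ⟨_, Beta.lamM _ h1, rfl⟩
  | piA B _ ih =>
    obtain ⟨M₁, N', rfl, rfl, rfl⟩ := ren_eq_pi e
    obtain ⟨M', h1, rfl⟩ := ih rfl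
    exact ⟨_, Beta.piA _ h1, rfl⟩
  | piB A _ ih =>
    obtain ⟨M₁, N', rfl, rfl, rfl⟩ := ren_eq_pi e
    obtain ⟨M', h1, rfl⟩ := ih rfl
    exact ⟨_, Beta.piB _ h1, rfl⟩


theorem Star.appL {M M' : Term S} (N : Term S) (h : Star M M') : Star (app M N) (app M' N) := by
  exact Relation.ReflTransGen.lift (fun M => Term.app M N) (fun _ _ h => Beta.appL N h) _ _ h

theorem Star.appR (M : Term S) {N N' : Term S} (h : Star N N') : Star (app M N) (app M N') := by
  exact Relation.ReflTransGen.lift (fun N => Term.app M N) (fun _ _ h => Beta.appR M h) _ _ h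

theorem Star.app {M M' N N' : Term S} (h : Star M M') (h' : Star N N') :
    Star (app M N) (app M' N') := by
  exact (Star.appL N h).trans (Star.appR M' h')

theorem Star.lam {A A' M M' : Term S} (h : Star A A') (h' : Star M M') :
    Star (lam A M) (lam A' M') := by
  exact (Relation.ReflTransGen.lift (fun A => Term.lam A M) (fun _ _ h => Beta.lamA M h) _ _ h).trans
    (Relation.ReflTransGen.lift (fun M => Term.lam A' M) (fun _ _ h => Beta.lamM A' h) _ _ h')

theorem Star.pi {A A' M M' : Term S} (h : Star A A') (h' : Star M M') :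
    Star (pi A M) (pi A' M') := by
  exact (Relation.ReflTransGen.lift (fun A => Term.pi A M) (fun _ _ h => Beta.piA M h) _ _ h).trans
    (Relation.ReflTransGen.lift (fun M => Term.pi A' M) (fun _ _ h => Beta.piB A' h) _ _ h')

theorem Star.ren {M N : Term S} (ξ : ℕ → ℕ) (h : Star M N) : Star (ren ξ M) (ren ξ N) := by
  exact Relation.ReflTransGen.lift (R298.ren ξ) (fun _ _ h => beta_ren ξ h) _ _ h

theorem Star.sub {M N : Term S} (σ : ℕ → Term S) (h : Star M N) : Star (sub σ M) (sub σ N) := by
  exact Relation.ReflTransGen.lift (R298.sub σ) (fun _ _ h => beta_sub σ h) _ _ h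

theorem star_sub_right {σ σ' : ℕ → Term S} (h : ∀ i, Star (σ i) (σ' i)) (M : Term S) :
    Star (sub σ M) (sub σ' M) := by
  have hup : ∀ {σ σ' : ℕ → Term S}, (∀ i, Star (σ i) (σ' i)) → ∀ i, Star (up σ i) (up σ' i) := by
    intro σ σ' h i
    cases i with
    | zero => exact Relation.ReflTransGen.refl
    | succ i => exact Star.ren _ (h i)
  induction M generalizing σ σ' with
  | var i => exact h i
  | sort s => exact Relation.ReflTransGen.refl
  | app M N ihM ihN => exact Star.app (ihM h) (ihN h)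
  | lam A M ihA ihM => exact Star.lam (ihA h) (ihM (hup h))
  | pi A M ihA ihM => exact Star.pi (ihA h) (ihM (hup h))

theorem Star.apps {M M' : Term S} (l : List (Term S)) (h : Star M M') :
    Star (apps M l) (apps M' l) := by
  induction l generalizing M M' with
  | nil => exact h
  | cons N l ih => exact ih (Star.appL N h)


theorem star_pi_inv {A B T : Term S} (h : Star (pi A B) T) :
    ∃ A' B', T = pi A' B' ∧ Star A A' ∧ Star B B' := by
  induction h with
  | refl => exact ⟨A, B, rfl, .refl, .refl⟩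
  | tail _ hb ih =>
    obtain ⟨A', B', rfl, h1, h2⟩ := ih
    cases hb with
    | piA _ h => exact ⟨_, _, rfl, h1.tail h, h2⟩
    | piB _ h => exact ⟨_, _, rfl, h1, h2.tail h⟩

theorem star_lam_inv {A B T : Term S} (h : Star (lam A B) T) :
    ∃ A' B', T = lam A' B' ∧ Star A A' ∧ Star B B' := by
  induction h with
  | refl => exact ⟨A, B, rfl, .refl, .refl⟩
  | tail _ hb ih =>
    obtain ⟨A', B', rfl, h1, h2⟩ := ih
    cases hb with
    | lamA _ h => exact ⟨_, _, rfl, h1.tail h, h2⟩
    | lamM _ h => exact ⟨_, _, rfl, h1, h2.tail h⟩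

theorem star_sort_inv {s : S} {T : Term S} (h : Star (sort s) T) : T = sort s := by
  induction h with
  | refl => rfl
  | tail _ hb ih => subst ih; cases hb

theorem star_var_inv {i : ℕ} {T : Term S} (h : Star (var i) T) : T = var i := by
  induction h with
  | refl => rfl
  | tail _ hb ih => subst ih; cases hb

theorem RedAux.stuck_beta_aux {M N : Term S} (h : Stuck M) (hb : Beta M N) : Stuck N := by
  induction h generalizing N with
  | var i => cases hb
  | sort s => cases hb
  | pi A B => cases hb <;> exact Stuck.pi _ _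
  | app N' hM ih =>
    cases hb with
    | redex => cases hM
    | appL _ h => exact Stuck.app _ (ih h)
    | appR _ h => exact Stuck.app _ hM

theorem RedAux.stuck_star_aux {M N : Term S} (h : Stuck M) (hb : Star M N) : Stuck N := by
  induction hb with
  | refl => exact h
  | tail _ hb ih => exact stuck_beta_aux ih hb

theorem star_app_stuck_inv {M N T : Term S} (hM : Stuck M) (h : Star (app M N) T) :
    ∃ M' N', T = app M' N' ∧ Star M M' ∧ Star N N' := by
  induction h with
  | refl => exact ⟨M, N, rfl, .refl, .refl⟩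
  | tail _ hb ih =>
    obtain ⟨A', B', rfl, h1, h2⟩ := ih
    cases hb with
    | redex => cases stuck_star_aux hM h1
    | appL _ h => exact ⟨_, _, rfl, h1.tail h, h2⟩
    | appR _ h => exact ⟨_, _, rfl, h1, h2.tail h⟩


theorem Wh.toBeta {M N : Term S} (h : Wh M N) : Beta M N := by
  induction h with
  | beta A M N => exact beta_redex A M N
  | app N _ ih => exact Beta.appL N ih

theorem Wh.sub {M N : Term S} (σ : ℕ → Term S) (h : Wh M N) : Wh (sub σ M) (sub σ N) := by
  induction h with
  | beta A M N => rw [sub_inst']; exact Wh.beta _ _ _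
  | app N _ ih => exact Wh.app _ ih

theorem Wh.ren {M N : Term S} (ξ : ℕ → ℕ) (h : Wh M N) : Wh (ren ξ M) (ren ξ N) := by
  rw [ren_eq_sub, ren_eq_sub]
  exact h.sub _

theorem Wh.apps {M N : Term S} (l : List (Term S)) (h : Wh M N) : Wh (apps M l) (apps N l) := by
  induction l generalizing M N with
  | nil => exact h
  | cons N' l ih => exact ih (Wh.app N' h)

theorem Wh.det {M N N' : Term S} (h : Wh M N) (h' : Wh M N') : N = N' := by
  induction h generalizing N' with
  | beta A M N =>
    cases h' with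
    | beta => rfl
    | app _ h => cases h
  | app N h ih =>
    cases h' with
    | beta => cases h
    | app _ h' => rw [ih h']

theorem wh_of_ren {M N : Term S} {ξ : ℕ → ℕ} (h : Wh (ren ξ M) N) :
    ∃ M', Wh M M' ∧ N = ren ξ M' := by
  generalize e : ren ξ M = L at h
  induction h generalizing M with
  | beta A b N =>
    obtain ⟨M₁, N', rfl, e₁, rfl⟩ := ren_eq_app e
    obtain ⟨A', b', rfl, rfl, rfl⟩ := ren_eq_lam e₁.symm
    exact ⟨_, Wh.beta A' b' N', by rw [ren_inst]⟩
  | app N _ ih =>
    obtain ⟨M₁, N', rfl, rfl, rfl⟩ := ren_eq_app e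
    obtain ⟨M', h1, rfl⟩ := ih rfl
    exact ⟨_, Wh.app _ h1, rfl⟩

/-- A weak head step is the contraction of a head redex. -/
theorem Wh.spine {M N : Term S} (h : Wh M N) :
    ∃ A b a l, M = R298.apps (Term.app (lam A b) a) l ∧ N = R298.apps (inst a b) l := by
  induction h with
  | beta A M N => exact ⟨A, M, N, [], rfl, rfl⟩
  | app N _ ih =>
    obtain ⟨A, b, a, l, rfl, rfl⟩ := ih
    exact ⟨A, b, a, l ++ [N], (apps_concat _ _ _).symm, (apps_concat _ _ _).symm⟩


theorem Neu.stuck {M : Term S} (h : Neu M) : Stuck M := by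
  induction h with
  | var i => exact Stuck.var i
  | app N _ ih => exact Stuck.app N ih

theorem Stuck.not_wh {M N : Term S} (h : Stuck M) : ¬ Wh M N := by
  intro hw
  induction hw with
  | beta A M N => cases h with | app _ h => cases h
  | app N _ ih => cases h with | app _ h => exact ih h

theorem Stuck.beta {M N : Term S} (h : Stuck M) (hb : Beta M N) : Stuck N := by
  exact stuck_beta_aux h hb

theorem Stuck.star {M N : Term S} (h : Stuck M) (hb : Star M N) : Stuck N := by
  exact stuck_star_aux h hb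

theorem Neu.beta {M N : Term S} (h : Neu M) (hb : Beta M N) : Neu N ∧ hd N = hd M := by
  induction h generalizing N with
  | var i => cases hb
  | app N' hM ih =>
    cases hb with
    | redex => cases hM
    | appL _ h => exact ⟨Neu.app _ (ih h).1, (ih h).2⟩
    | appR _ h => exact ⟨Neu.app _ hM, rfl⟩

theorem Neu.star {M N : Term S} (h : Neu M) (hb : Star M N) : Neu N ∧ hd N = hd M := by
  induction hb with
  | refl => exact ⟨h, rfl⟩
  | tail _ hb ih => exact ⟨(ih.1.beta hb).1, (ih.1.beta hb).2.trans ih.2⟩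

theorem Neu.apps {M : Term S} (h : Neu M) (l : List (Term S)) : Neu (apps M l) := by
  induction l generalizing M with
  | nil => exact h
  | cons N l ih => exact ih (Neu.app N h)

theorem Stuck.apps {M : Term S} (h : Stuck M) (l : List (Term S)) : Stuck (apps M l) := by
  induction l generalizing M with
  | nil => exact h
  | cons N l ih => exact ih (Stuck.app N h)

theorem hd_apps (M : Term S) (l : List (Term S)) : hd (apps M l) = hd M := by
  induction l generalizing M with
  | nil => rfl
  | cons N l ih => exact ih _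

theorem Neu.ren {M : Term S} (ξ : ℕ → ℕ) (h : Neu M) :
    Neu (ren ξ M) ∧ hd (ren ξ M) = ξ (hd M) := by
  induction h with
  | var i => exact ⟨Neu.var _, rfl⟩
  | app N _ ih => exact ⟨Neu.app _ ih.1, ih.2⟩

theorem neu_of_ren {M : Term S} {ξ : ℕ → ℕ} (h : Neu (ren ξ M)) : Neu M := by
  induction M with
  | var i => exact Neu.var i
  | app M N ih _ => cases h with | app _ h => exact Neu.app N (ih h)
  | _ => cases h

theorem Stuck.ren {M : Term S} (ξ : ℕ → ℕ) (h : Stuck M) : Stuck (ren ξ M) := by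
  induction h with
  | var i => exact Stuck.var _
  | sort s => exact Stuck.sort s
  | pi A B => exact Stuck.pi _ _
  | app N _ ih => exact Stuck.app _ ih

theorem stuck_of_ren {M : Term S} {ξ : ℕ → ℕ} (h : Stuck (ren ξ M)) : Stuck M := by
  induction M with
  | var i => exact Stuck.var i
  | sort s => exact Stuck.sort s
  | pi A B => exact Stuck.pi _ _
  | app M N ih _ => cases h with | app _ h => exact Stuck.app N (ih h)
  | lam => cases h

theorem Neu.sub {M : Term S} {σ : ℕ → Term S} {j : ℕ} (h : Neu M) (hj : σ (hd M) = Term.var j) :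
    Neu (sub σ M) ∧ hd (sub σ M) = j := by
  induction h with
  | var i =>
    rw [hd_var] at hj
    rw [sub_var, hj]
    exact ⟨Neu.var j, rfl⟩
  | app N _ ih => exact ⟨Neu.app _ (ih hj).1, (ih hj).2⟩

/-- Every term is stuck, an abstraction, or has a weak head step. -/
theorem stuck_or_lam_or_wh (M : Term S) :
    Stuck M ∨ (∃ A b, M = lam A b) ∨ ∃ M', Wh M M' := by
  induction M with
  | var i => exact .inl (Stuck.var i)
  | sort s => exact .inl (Stuck.sort s)
  | pi A B => exact .inl (Stuck.pi _ _)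
  | lam A b => exact .inr (.inl ⟨A, b, rfl⟩)
  | app M N ih _ =>
    rcases ih with h | ⟨A, b, rfl⟩ | ⟨M', h⟩
    · exact .inl (Stuck.app N h)
    · exact .inr (.inr ⟨_, Wh.beta A b N⟩)
    · exact .inr (.inr ⟨_, Wh.app N h⟩)


/-! ### Confluence and conversion -/

/-- Parallel reduction. -/
inductive RedAux.PRed : Term S → Term S → Prop
  | var (i : ℕ) : PRed (var i) (var i)
  | sort (s : S) : PRed (sort s) (sort s)
  | app {M M' N N' : Term S} : PRed M M' → PRed N N' → PRed (app M N) (app M' N')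
  | lam {M M' N N' : Term S} : PRed M M' → PRed N N' → PRed (lam M N) (lam M' N')
  | pi {M M' N N' : Term S} : PRed M M' → PRed N N' → PRed (pi M N) (pi M' N')
  | beta (A : Term S) {M M' N N' : Term S} :
      PRed M M' → PRed N N' → PRed (app (lam A M) N) (inst N' M')

theorem RedAux.par_refl (M : Term S) : PRed M M := by
  induction M with
  | var i => exact PRed.var i
  | sort s => exact PRed.sort s
  | app M N ihM ihN => exact PRed.app ihM ihN
  | lam M N ihM ihN => exact PRed.lam ihM ihN
  | pi M N ihM ihN => exact PRed.pi ihM ihN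

theorem RedAux.par_of_beta {M N : Term S} (h : Beta M N) : PRed M N := by
  induction h with
  | redex A M N => rw [subst_eq_inst]; exact PRed.beta A (par_refl M) (par_refl N)
  | appL N _ ih => exact PRed.app ih (par_refl _)
  | appR M _ ih => exact PRed.app (par_refl _) ih
  | lamA M _ ih => exact PRed.lam ih (par_refl _)
  | lamM A _ ih => exact PRed.lam (par_refl _) ih
  | piA B _ ih => exact PRed.pi ih (par_refl _)
  | piB A _ ih => exact PRed.pi (par_refl _) ih

theorem RedAux.star_inst {N N' M M' : Term S} (h : Star N N') (h' : Star M M') :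
    Star (inst N M) (inst N' M') := by
  refine (Star.sub _ h').trans (star_sub_right (fun i => ?_) M')
  cases i with
  | zero => exact h
  | succ i => exact Relation.ReflTransGen.refl

theorem RedAux.star_of_par {M N : Term S} (h : PRed M N) : Star M N := by
  induction h with
  | var i => exact .refl
  | sort s => exact .refl
  | app _ _ ih ih' => exact Star.app ih ih'
  | lam _ _ ih ih' => exact Star.lam ih ih'
  | pi _ _ ih ih' => exact Star.pi ih ih'
  | beta A _ _ ih ih' => exact Relation.ReflTransGen.head (beta_redex _ _ _) (star_inst ih' ih)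

theorem RedAux.par_ren {M N : Term S} (h : PRed M N) (ξ : ℕ → ℕ) : PRed (ren ξ M) (ren ξ N) := by
  induction h generalizing ξ with
  | var i => exact PRed.var _
  | sort s => exact PRed.sort s
  | app _ _ ih ih' => exact PRed.app (ih _) (ih' _)
  | lam _ _ ih ih' => exact PRed.lam (ih _) (ih' _)
  | pi _ _ ih ih' => exact PRed.pi (ih _) (ih' _)
  | beta A _ _ ih ih' => rw [ren_inst]; exact PRed.beta _ (ih _) (ih' _)

theorem RedAux.par_sub {M N : Term S} (h : PRed M N) {σ σ' : ℕ → Term S} (hσ : ∀ i, PRed (σ i) (σ' i)) :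
    PRed (sub σ M) (sub σ' N) := by
  have hup : ∀ {σ σ' : ℕ → Term S}, (∀ i, PRed (σ i) (σ' i)) → ∀ i, PRed (up σ i) (up σ' i) := by
    intro σ σ' h i
    cases i with
    | zero => exact PRed.var 0
    | succ i => exact par_ren (h i) _
  induction h generalizing σ σ' with
  | var i => exact hσ i
  | sort s => exact PRed.sort s
  | app _ _ ih ih' => exact PRed.app (ih hσ) (ih' hσ)
  | lam _ _ ih ih' => exact PRed.lam (ih hσ) (ih' (hup hσ))
  | pi _ _ ih ih' => exact PRed.pi (ih hσ) (ih' (hup hσ))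
  | beta A _ _ ih ih' => rw [sub_inst']; exact PRed.beta _ (ih (hup hσ)) (ih' hσ)

theorem RedAux.par_inst {N N' M M' : Term S} (h : PRed N N') (h' : PRed M M') :
    PRed (inst N M) (inst N' M') := by
  refine par_sub h' fun i => ?_
  cases i with
  | zero => exact h
  | succ i => exact PRed.var i

theorem RedAux.par_diamond {M N N' : Term S} (h : PRed M N) (h' : PRed M N') :
    ∃ Q, PRed N Q ∧ PRed N' Q := by
  induction h generalizing N' with
  | var i => exact ⟨_, h', par_refl _⟩
  | sort s => exact ⟨_, h', par_refl _⟩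
  | app h₁ _ ih ih' =>
    cases h' with
    | app k k' =>
      obtain ⟨Q, a, b⟩ := ih k
      obtain ⟨Q', a', b'⟩ := ih' k'
      exact ⟨_, PRed.app a a', PRed.app b b'⟩
    | beta A k k' =>
      obtain ⟨Q, a, b⟩ := ih (PRed.lam (par_refl A) k)
      obtain ⟨Q', a', b'⟩ := ih' k'
      cases h₁ with
      | lam _ _ =>
        cases a with
        | lam _ a₂ =>
          cases b with
          | lam _ b₂ => exact ⟨_, PRed.beta _ a₂ a', par_inst b' b₂⟩
  | lam _ _ ih ih' =>
    cases h' with
    | lam k k' =>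
      obtain ⟨Q, a, b⟩ := ih k
      obtain ⟨Q', a', b'⟩ := ih' k'
      exact ⟨_, PRed.lam a a', PRed.lam b b'⟩
  | pi _ _ ih ih' =>
    cases h' with
    | pi k k' =>
      obtain ⟨Q, a, b⟩ := ih k
      obtain ⟨Q', a', b'⟩ := ih' k'
      exact ⟨_, PRed.pi a a', PRed.pi b b'⟩
  | beta A _ _ ih ih' =>
    cases h' with
    | app k k' =>
      cases k with
      | lam _ k₂ =>
        obtain ⟨Q, a, b⟩ := ih k₂
        obtain ⟨Q', a', b'⟩ := ih' k'
        exact ⟨_, par_inst a' a, PRed.beta _ b b'⟩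
    | beta _ k k' =>
      obtain ⟨Q, a, b⟩ := ih k
      obtain ⟨Q', a', b'⟩ := ih' k'
      exact ⟨_, par_inst a' a, par_inst b' b⟩

theorem RedAux.par_strip {M N N' : Term S} (h : PRed M N) (h' : Star M N') :
    ∃ Q, Star N Q ∧ PRed N' Q := by
  induction h' with
  | refl => exact ⟨N, .refl, h⟩
  | tail _ hb ih =>
    obtain ⟨Q, a, b⟩ := ih
    obtain ⟨Q', a', b'⟩ := par_diamond b (par_of_beta hb)
    exact ⟨Q', a.trans (star_of_par a'), b'⟩

theorem confluence {M N N' : Term S} (h : Star M N) (h' : Star M N') :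
    ∃ Q, Star N Q ∧ Star N' Q := by
  induction h with
  | refl => exact ⟨N', h', .refl⟩
  | tail _ hb ih =>
    obtain ⟨Q, a, b⟩ := ih
    obtain ⟨Q', a', b'⟩ := par_strip (par_of_beta hb) a
    exact ⟨Q', a', b.trans (star_of_par b')⟩


theorem RedAux.beq_of_star_aux {M N : Term S} (h : Star M N) : BetaEq M N := by
  induction h with
  | refl => exact Relation.EqvGen.refl _
  | tail _ hb ih => exact Relation.EqvGen.trans _ _ _ ih (Relation.EqvGen.rel _ _ hb)

theorem beq_iff {M N : Term S} : BetaEq M N ↔ ∃ Q, Star M Q ∧ Star N Q := by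
  constructor
  · intro h
    induction h with
    | rel x y h => exact ⟨y, .single h, .refl⟩
    | refl x => exact ⟨x, .refl, .refl⟩
    | symm x y _ ih => exact ih.imp fun _ h => h.symm
    | trans x y z _ _ ih ih' =>
      obtain ⟨Q, a, b⟩ := ih
      obtain ⟨Q', a', b'⟩ := ih'
      obtain ⟨T, c, d⟩ := confluence b a'
      exact ⟨T, a.trans c, b'.trans d⟩
  · rintro ⟨Q, a, b⟩
    exact Relation.EqvGen.trans _ _ _ (beq_of_star_aux a)
      (Relation.EqvGen.symm _ _ (beq_of_star_aux b))


theorem beq_refl (M : Term S) : BetaEq M M := Relation.EqvGen.refl M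
theorem beq_of_eq {M N : Term S} (h : M = N) : BetaEq M N := h ▸ beq_refl M
theorem beq_symm {M N : Term S} (h : BetaEq M N) : BetaEq N M := Relation.EqvGen.symm _ _ h
theorem beq_trans {M N Q : Term S} (h : BetaEq M N) (h' : BetaEq N Q) : BetaEq M Q :=
  Relation.EqvGen.trans _ _ _ h h'
theorem beq_of_beta {M N : Term S} (h : Beta M N) : BetaEq M N := Relation.EqvGen.rel _ _ h
theorem beq_of_star {M N : Term S} (h : Star M N) : BetaEq M N := by
  exact beq_of_star_aux h

theorem beq_redex (A M N : Term S) : BetaEq (app (lam A M) N) (inst N M) :=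
  beq_of_beta (beta_redex A M N)

theorem beq_app {M M' N N' : Term S} (h : BetaEq M M') (h' : BetaEq N N') :
    BetaEq (app M N) (app M' N') := by
  obtain ⟨Q, a, b⟩ := beq_iff.1 h
  obtain ⟨Q', a', b'⟩ := beq_iff.1 h'
  exact beq_iff.2 ⟨_, Star.app a a', Star.app b b'⟩

theorem beq_lam {A A' M M' : Term S} (h : BetaEq A A') (h' : BetaEq M M') :
    BetaEq (lam A M) (lam A' M') := by
  obtain ⟨Q, a, b⟩ := beq_iff.1 h
  obtain ⟨Q', a', b'⟩ := beq_iff.1 h'
  exact beq_iff.2 ⟨_, Star.lam a a', Star.lam b b'⟩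

theorem beq_pi {A A' M M' : Term S} (h : BetaEq A A') (h' : BetaEq M M') :
    BetaEq (pi A M) (pi A' M') := by
  obtain ⟨Q, a, b⟩ := beq_iff.1 h
  obtain ⟨Q', a', b'⟩ := beq_iff.1 h'
  exact beq_iff.2 ⟨_, Star.pi a a', Star.pi b b'⟩

theorem beq_apps {M M' : Term S} (l : List (Term S)) (h : BetaEq M M') :
    BetaEq (apps M l) (apps M' l) := by
  obtain ⟨Q, a, b⟩ := beq_iff.1 h
  exact beq_iff.2 ⟨_, Star.apps l a, Star.apps l b⟩

theorem beq_ren {M N : Term S} (ξ : ℕ → ℕ) (h : BetaEq M N) : BetaEq (ren ξ M) (ren ξ N) := by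
  obtain ⟨Q, a, b⟩ := beq_iff.1 h
  exact beq_iff.2 ⟨_, Star.ren ξ a, Star.ren ξ b⟩

theorem beq_wk {M N : Term S} (h : BetaEq M N) : BetaEq (wk M) (wk N) := beq_ren _ h
theorem beq_sub {M N : Term S} (σ : ℕ → Term S) (h : BetaEq M N) :
    BetaEq (sub σ M) (sub σ N) := by
  obtain ⟨Q, a, b⟩ := beq_iff.1 h
  exact beq_iff.2 ⟨_, Star.sub σ a, Star.sub σ b⟩

theorem beq_sub_right {σ σ' : ℕ → Term S} (h : ∀ i, BetaEq (σ i) (σ' i)) (M : Term S) :
    BetaEq (sub σ M) (sub σ' M) := by
  choose Q a b using fun i => beq_iff.1 (h i)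
  exact beq_iff.2 ⟨_, star_sub_right a M, star_sub_right b M⟩

theorem beq_inst {N N' M M' : Term S} (h : BetaEq N N') (h' : BetaEq M M') :
    BetaEq (inst N M) (inst N' M') := by
  obtain ⟨Q, a, b⟩ := beq_iff.1 h
  obtain ⟨Q', a', b'⟩ := beq_iff.1 h'
  exact beq_iff.2 ⟨_, star_inst a a', star_inst b b'⟩

theorem beq_of_wk {M N : Term S} (h : BetaEq (wk M) (wk N)) : BetaEq M N := by
  have := beq_inst (beq_refl (var 0)) h
  rwa [inst_wk, inst_wk] at this


theorem beq_pi_inj {A B A' B' : Term S} (h : BetaEq (pi A B) (pi A' B')) :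
    BetaEq A A' ∧ BetaEq B B' := by
  obtain ⟨Q, a, b⟩ := beq_iff.1 h
  obtain ⟨A₁, B₁, rfl, a₁, a₂⟩ := star_pi_inv a
  obtain ⟨A₂, B₂, e, b₁, b₂⟩ := star_pi_inv b
  cases e
  exact ⟨beq_iff.2 ⟨_, a₁, b₁⟩, beq_iff.2 ⟨_, a₂, b₂⟩⟩

theorem beq_sort_inj {s t : S} (h : BetaEq (sort s : Term S) (sort t)) : s = t := by
  obtain ⟨Q, a, b⟩ := beq_iff.1 h
  exact Term.sort.inj ((star_sort_inv a).symm.trans (star_sort_inv b))

theorem beq_var_inj {i j : ℕ} (h : BetaEq (var i : Term S) (var j)) : i = j := by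
  obtain ⟨Q, a, b⟩ := beq_iff.1 h
  exact Term.var.inj ((star_var_inv a).symm.trans (star_var_inv b))

theorem not_beq_pi_sort {A B : Term S} {s : S} : ¬ BetaEq (pi A B) (sort s) := by
  intro h
  obtain ⟨Q, a, b⟩ := beq_iff.1 h
  obtain ⟨A₁, B₁, rfl, -, -⟩ := star_pi_inv a
  cases star_sort_inv b

theorem not_beq_pi_neu {A B M : Term S} (h : Neu M) : ¬ BetaEq (pi A B) M := by
  intro h'
  obtain ⟨Q, a, b⟩ := beq_iff.1 h'
  obtain ⟨A₁, B₁, rfl, -, -⟩ := star_pi_inv a
  cases (h.star b).1

theorem not_beq_sort_neu {s : S} {M : Term S} (h : Neu M) : ¬ BetaEq (sort s) M := by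
  intro h'
  obtain ⟨Q, a, b⟩ := beq_iff.1 h'
  obtain rfl := star_sort_inv a
  cases (h.star b).1

theorem star_of_beq_normal {M N : Term S} (h : BetaEq M N) (hN : Normal N) : Star M N := by
  obtain ⟨Q, a, b⟩ := beq_iff.1 h
  rcases b.cases_head with rfl | ⟨c, hc, -⟩
  · exact a
  · exact (hN c hc).elim

theorem star_sort_of_beq {M : Term S} {s : S} (h : BetaEq M (sort s)) : Star M (sort s) := by
  exact star_of_beq_normal h fun _ hb => by cases hb


end Crest.Agent.R298
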