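import Crest.Agent.R298.Val

/-! Row 298: values of odd type have small support. -/

set_option autoImplicit false

namespace Crest.Agent.R298
open Crest.LogicCS.PTS Crest.LogicCS.PTS.Term

universe u
variable {S : Type u} {P : Spec S} {U : Univ P} {s0 : S}

namespace Sem
variable (Z : Sem U s0) {Ω : Type (u + 1)}

/-- Families of environments. -/
def EnvOK (O : Obs Ω (Set (Term S))) (τ : ℕ → Term S) (ρ : ℕ → Ω → Z.D.V) : Prop :=
  ∀ x, (∀ ω, Z.Dummy (ρ x ω)) ∨
    (Nd U s0 (τ x) ∧ PW Z.D O (ρ x) ∧ (ParT U s0 true (τ x) → UN Z.D O (ρ x)))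

/-- Families of argument lists. -/
def ArgsOK (O : Obs Ω (Set (Term S))) : Term S → List (Term S × (Ω → Z.D.V)) → Prop
  | pi A B, p :: l => PW Z.D O (fun ω => Z.N A (p.2 ω)) ∧
      (ParT U s0 true A → UN Z.D O (fun ω => Z.N A (p.2 ω))) ∧ ArgsOK O (nf (inst p.1 B)) l
  | _, _ => True

theorem argsOK_anchor : type_of% @ArgsOK.eq_def := @ArgsOK.eq_def

section aux
variable {O : Obs Ω (Set (Term S))}

theorem argsOK_pi_cons (A B : Term S) (p : Term S × (Ω → Z.D.V))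
    (l : List (Term S × (Ω → Z.D.V))) :
    Z.ArgsOK O (pi A B) (p :: l) ↔ PW Z.D O (fun ω => Z.N A (p.2 ω)) ∧
      (ParT U s0 true A → UN Z.D O (fun ω => Z.N A (p.2 ω))) ∧
        Z.ArgsOK O (nf (inst p.1 B)) l := by
  simp [ArgsOK]

theorem argsOK_nil (A : Term S) : Z.ArgsOK O A [] := by
  cases A <;> simp [ArgsOK]

theorem atw_nargs (A : Term S) (l : List (Term S × (Ω → Z.D.V))) (ω : Ω) :
    atw (nargs (fun A (v : Ω → Z.D.V) ω => Z.N A (v ω)) A l) ω = nargs Z.N A (atw l ω) := by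
  induction l generalizing A with
  | nil => simp
  | cons p l ih =>
    cases A with
    | pi A B => simp [ih]
    | _ => simp [nargs]

theorem pw_nargs {A : Term S} {l : List (Term S × (Ω → Z.D.V))}
    (hp : Path U s0 A (l.map Prod.fst)) (h : Z.ArgsOK O A l) :
    ∀ p ∈ nargs (fun A (v : Ω → Z.D.V) ω => Z.N A (v ω)) A l, PW Z.D O p.2 := by
  induction l generalizing A with
  | nil => simp
  | cons q l ih =>
    obtain ⟨A1, B1, rfl, -, hp'⟩ := Path.cons_inv hp
    rw [argsOK_pi_cons] at h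
    intro p hpm
    rw [nargs_pi_cons, List.mem_cons] at hpm
    rcases hpm with rfl | hpm
    · exact h.1
    · exact ih hp' h.2.2 p hpm

theorem un_nargs {A : Term S} {l : List (Term S × (Ω → Z.D.V))} (he : ParT U s0 false A)
    (hp : Path U s0 A (l.map Prod.fst)) (h : Z.ArgsOK O A l) :
    ∀ p ∈ nargs (fun A (v : Ω → Z.D.V) ω => Z.N A (v ω)) A l, UN Z.D O p.2 := by
  induction l generalizing A with
  | nil => simp
  | cons q l ih =>
    obtain ⟨A1, B1, rfl, -, hp'⟩ := Path.cons_inv hp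
    rw [argsOK_pi_cons] at h
    have hpar := he.pi hp
    intro p hpm
    rw [nargs_pi_cons, List.mem_cons] at hpm
    rcases hpm with rfl | hpm
    · exact h.2.1 hpar.1
    · exact ih hpar.2 hp' h.2.2 p hpm

theorem atw_const (t : List (Term S × Z.D.V)) (ω : Ω) :
    atw (t.map (fun p => (p.1, fun _ : Ω => p.2))) ω = t := by
  induction t with
  | nil => rfl
  | cons p t ih => simp [ih]

theorem map_fst_const (t : List (Term S × Z.D.V)) :
    (t.map (fun p => (p.1, fun _ : Ω => p.2))).map Prod.fst = t.map Prod.fst := by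
  simp [List.map_map, Function.comp_def]

theorem argsOK_const {t : List (Term S × Z.D.V)} (h : Z.D.SmL t) (A : Term S) :
    Z.ArgsOK O A (t.map (fun p => (p.1, fun _ : Ω => p.2))) := by
  induction t generalizing A with
  | nil => exact Z.argsOK_nil A
  | cons p t ih =>
    cases A with
    | pi A B =>
      rw [List.map_cons, argsOK_pi_cons]
      exact ⟨pw_const (Z.N A p.2), fun _ => un_const (Z.N_sm (h p List.mem_cons_self)),
        ih (fun q hq => h q (List.mem_cons_of_mem _ hq)) _⟩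
    | _ => simp [ArgsOK]

theorem argsOK_zipw (hc : ¬ Config P s0) {A : Term S} {L : List (Term S)} (hn : Normal A)
    (ho : ParT U s0 true A) (hp : Path U s0 A L) (k : ℕ) :
    Z.ArgsOK (O.prod Z.D) A (zipw Z.D Ω k L) := by
  induction L generalizing A k with
  | nil => simpa [zipw] using Z.argsOK_nil A
  | cons a L ih =>
    obtain ⟨A1, B1, rfl, -, hp'⟩ := Path.cons_inv hp
    have hpar := ho.pi hp
    rw [zipw, argsOK_pi_cons]
    have hpw : PW Z.D (O.prod Z.D) (fun x : Ω × (ℕ → Z.D.V) => Z.N A1 (x.2 k)) :=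
      Z.pw_N (pw_snd k)
    exact ⟨hpw, fun h1 => Z.un_N_of_ac (ac_of_both hc (normal_pi_iff.1 hn).1 hpar.1 h1) hpw,
      ih (nf_normal' _) hpar.2 hp' (k + 1)⟩

theorem EnvOK.fst {τ : ℕ → Term S} {ρ : ℕ → Ω → Z.D.V} (h : Z.EnvOK O τ ρ) :
    Z.EnvOK (O.prod Z.D) τ (fun y x => ρ y x.1) := by
  intro y
  rcases h y with h | ⟨h1, h2, h3⟩
  · exact Or.inl fun x => h x.1
  · exact Or.inr ⟨h1, h2.fst, fun ho => (h3 ho).fst⟩

theorem EnvOK.cons {τ : ℕ → Term S} {ρ : ℕ → Ω → Z.D.V} (h : Z.EnvOK O τ ρ) {A : Term S}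
    {v : Ω → Z.D.V} (h1 : Nd U s0 A) (h2 : PW Z.D O v) (h3 : ParT U s0 true A → UN Z.D O v) :
    Z.EnvOK O (scons A τ) (scons v ρ) := by
  intro y
  cases y with
  | zero => exact Or.inr ⟨h1, h2, h3⟩
  | succ y => exact h y

theorem scons_at (v : Ω → Z.D.V) (ρ : ℕ → Ω → Z.D.V) (ω : Ω) :
    (fun x => scons v ρ x ω) = scons (v ω) (fun x => ρ x ω) := by
  funext x; cases x <;> rfl

end aux

/-- The statement of the support lemma for one term. -/
def DV (u : Term S) : Prop :=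
    ∀ {Ω : Type (u + 1)} {O : Obs Ω (Set (Term S))} {Γ : Ctx S} {σ : ℕ → Term S}
      {ρ : ℕ → Ω → Z.D.V} {E : Term S} {l : List (Term S × (Ω → Z.D.V))},
      Good U Γ → SubTy P U.Θ σ Γ → Normal u → Ty P Γ u E →
      Path U s0 (nf (sub σ E)) (l.map Prod.fst) →
      (Nd U s0 (nf (sub σ E)) ∨ l = [] ∨ Neu u) →
      Z.EnvOK O (tau Γ σ) ρ → Z.ArgsOK O (nf (sub σ E)) l →
      Det O (fun ω => Z.val u σ (tau Γ σ) (fun x => ρ x ω) (atw l ω))

section cases
variable {O : Obs Ω (Set (Term S))} {Γ : Ctx S} {σ : ℕ → Term S} {ρ : ℕ → Ω → Z.D.V}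

/-- At an odd type the truncated value has small support, uniformly in the family. -/
theorem ss_step (hc : ¬ Config P s0) {n A : Term S} (ih : Z.DV n) (hΓ : Good U Γ)
    (hσ : SubTy P U.Θ σ Γ) (hn : Normal n) (hty : Ty P Γ n A)
    (ho : ParT U s0 true (nf (sub σ A))) (hρ : Z.EnvOK O (tau Γ σ) ρ) :
    (∀ ω, Z.D.SS (trunc U s0 (nf (sub σ A)) (Z.val n σ (tau Γ σ) (fun x => ρ x ω)))) ∧
      Det O (fun ω => trunc U s0 (nf (sub σ A)) (Z.val n σ (tau Γ σ) (fun x => ρ x ω))) := by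
  obtain ⟨v0, -⟩ := Z.exists_dummy
  have : Inhabited Z.D.V := ⟨v0⟩
  refine ss_of_det_zipw (fun L => ?_)
  by_cases hp : Path U s0 (nf (sub σ A)) L
  · have h := ih (O := O.prod Z.D) (ρ := fun y x => ρ y x.1) (l := zipw Z.D Ω 0 L) hΓ hσ hn hty
      (by rw [map_fst_zipw]; exact hp) (Or.inl (Or.inr ho)) (EnvOK.fst Z hρ)
      (Z.argsOK_zipw hc (nf_normal' _) ho hp 0)
    refine h.congr (fun x => ?_)
    rw [trunc, map_fst_atw, map_fst_zipw, if_pos hp]
  · refine (det_const (∅ : Set (Term S))).congr (fun x => ?_)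
    rw [trunc, map_fst_atw, map_fst_zipw, if_neg hp]

theorem dv_var (i : ℕ) : Z.DV (var i) := by
  intro Ω O Γ σ ρ E l _ _ _ hu hp _ hρ hl
  have hτ : tau Γ σ i = nf (sub σ E) := nf_congr (beq_sub σ hu.gen_var)
  have hval : ∀ ω, Z.D.eval (ρ i ω)
        (atw (nargs (fun A (v : Ω → Z.D.V) ω => Z.N A (v ω)) (nf (sub σ E)) l) ω)
      = Z.val (var i) σ (tau Γ σ) (fun x => ρ x ω) (atw l ω) := by
    intro ω
    rw [val_var, hτ, trunc, map_fst_atw, if_pos hp, atw_nargs]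
  refine Det.congr ?_ hval
  rcases hρ i with hd | ⟨h1, h2, h3⟩
  · exact (det_const (∅ : Set (Term S))).congr (fun ω => (hd ω _).symm)
  · rw [hτ] at h1 h3
    by_cases ho : ParT U s0 true (nf (sub σ E))
    · exact det_eval_un Z.dom (h3 ho) (Z.pw_nargs hp hl)
    · exact det_eval_pw h2 (Z.un_nargs (h1.resolve_right ho) hp hl)

theorem dv_sort (s : S) : Z.DV (sort s) := by
  intro Ω O Γ σ ρ E l _ _ _ _ _ _ _ _
  exact (det_const (Top U (sort s))).congr (fun ω => (Z.val_sort _ _ _ _ _).symm)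

theorem dv_app (hc : ¬ Config P s0) {m n : Term S} (ihm : Z.DV m) (ihn : Z.DV n) :
    Z.DV (app m n) := by
  intro Ω O Γ σ ρ E l hΓ hσ hnorm hu hp _ hρ hl
  have hU := good_univ U
  obtain ⟨hst, hm, hn⟩ := normal_app_iff.1 hnorm
  obtain ⟨A, B, hmt, hnt, hE⟩ := hu.gen_app
  have hneu : Neu m := hmt.neu_of_stuck (beq_refl _) hst
  rcases hρ (hd m) with hdum | ⟨hnd, -, -⟩
  · exact (det_const (∅ : Set (Term S))).congr
      (fun ω => (Z.val_dummy (Neu.app n hneu) (ρ := fun x => ρ x ω) (hdum ω) _).symm)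
  obtain ⟨s, hs⟩ := hmt.correct_pi hΓ.1
  obtain ⟨hshape, hinst⟩ := hU.nf_sub_pi hσ hs
  have hp' : Path U s0 (nf (sub σ (pi A B))) (nf (sub σ n) :: l.map Prod.fst) :=
    (path_app_iff hΓ hσ hmt hnt hE _).2 hp
  have hndP : Nd U s0 (nf (sub σ (pi A B))) :=
    hnd.imp (parT_neu hΓ hσ hneu hmt hp') (parT_neu hΓ hσ hneu hmt hp')
  have hndA : Nd U s0 (nf (sub σ A)) := by
    rw [hshape] at hndP hp'
    exact (hndP.pi hp').1
  have hEq : nf (inst (nf (sub σ n)) (nf (sub (up σ) B))) = nf (sub σ E) := by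
    rw [hinst]
    refine nf_congr (beq_trans ?_ (beq_sub σ hE))
    rw [sub_inst]
    refine beq_sub_right (fun i => ?_) B
    cases i with
    | zero => exact nf_beq (hU.wn (hnt.sub hσ))
    | succ i => exact beq_refl _
  have hpw : PW Z.D O (fun ω => Z.N (nf (sub σ A))
      (Z.D.lam (Z.val n σ (tau Γ σ) (fun x => ρ x ω)))) := by
    refine Z.pw_N_lam (fun t ht hpt => ?_)
    have h := ihn (O := O) (ρ := ρ) (l := t.map (fun p => (p.1, fun _ : Ω => p.2))) hΓ hσ hn hnt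
      (by rw [map_fst_const]; exact hpt) (Or.inl hndA) hρ (Z.argsOK_const ht _)
    exact h.congr (fun ω => by rw [atw_const])
  have hun : ParT U s0 true (nf (sub σ A)) → UN Z.D O (fun ω => Z.N (nf (sub σ A))
      (Z.D.lam (Z.val n σ (tau Γ σ) (fun x => ρ x ω)))) := by
    intro ho
    by_cases hac : Ac U s0 (nf (sub σ A))
    · exact Z.un_N_of_ac hac hpw
    · obtain ⟨h1, h2⟩ := Z.ss_step hc ihn hΓ hσ hn hnt ho hρ
      refine ⟨(h2.comp Z.D.lam).congr (fun ω => (Z.N_lam_of_not_ac hac _).symm), fun ω => ?_⟩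
      exact Z.N_lam_sm (h1 ω)
  have h := ihm (O := O) (ρ := ρ) (E := pi A B)
    (l := (nf (sub σ n), fun ω => Z.D.lam (Z.val n σ (tau Γ σ) (fun x => ρ x ω))) :: l)
    hΓ hσ hm hmt hp' (Or.inr (Or.inr hneu)) hρ (by
      rw [hshape, argsOK_pi_cons]
      refine ⟨hpw, hun, ?_⟩
      rw [hEq]
      exact hl)
  exact h.congr (fun ω => by rw [val_app, atw_cons])

theorem dv_lam {A b : Term S} (ihb : Z.DV b) : Z.DV (lam A b) := by
  intro Ω O Γ σ ρ E l hΓ hσ hnorm hu hp hnd hρ hl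
  have hU := good_univ U
  cases l with
  | nil => exact (det_const (∅ : Set (Term S))).congr (fun ω => (Z.val_lam_nil _ _ _ _ _).symm)
  | cons p l =>
    obtain ⟨B, s, hb, hs, hE⟩ := hu.gen_lam
    obtain ⟨s₁, s₂, -, hA, -⟩ := hs.gen_pi_sort
    obtain ⟨hshape, hinst⟩ := hU.nf_sub_pi hσ hs
    have hE' : nf (sub σ E) = pi (nf (sub σ A)) (nf (sub (up σ) B)) := by
      rw [← hshape]; exact (nf_congr (beq_sub σ hE)).symm
    rw [hE'] at hp hnd hl
    have hnd' : Nd U s0 (pi (nf (sub σ A)) (nf (sub (up σ) B))) := by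
      rcases hnd with h | h | h
      · exact h
      · cases h
      · cases h
    rw [List.map_cons] at hp
    obtain ⟨hnA, hnB⟩ := hnd'.pi hp
    obtain ⟨ha, hp2⟩ := path_pi_cons_iff.1 hp
    rw [argsOK_pi_cons] at hl
    obtain ⟨hl1, hl2, hl3⟩ := hl
    rw [hinst] at hnB hp2 hl3
    have hσ' : SubTy P U.Θ (scons p.1 σ) (ext Γ A) :=
      hσ.cons ((hU.ty_nf_iff (hA.sub_sort hσ)).1 ha)
    have h := ihb (O := O) (ρ := scons (fun ω => Z.N (nf (sub σ A)) (p.2 ω)) ρ) (E := B) (l := l)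
      (hΓ.ext hA) hσ' (normal_lam_iff.1 hnorm).2 hb hp2 (Or.inl hnB)
      (by rw [tau_ext]; exact EnvOK.cons Z hρ hnA hl1 hl2) hl3
    refine h.congr (fun ω => ?_)
    rw [atw_cons, val_lam_cons, tau_ext, scons_at]

theorem dv_pi (hD : ∀ t, InD P s0 t → App U t) (hc : ¬ Config P s0) {A B : Term S}
    (ihA : Z.DV A) (ihB : Z.DV B) : Z.DV (pi A B) := by
  intro Ω O Γ σ ρ E l hΓ hσ hnorm hu hp _ hρ _
  have hU := good_univ U
  obtain ⟨hAn, hBn⟩ := normal_pi_iff.1 hnorm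
  obtain ⟨s₁, s₂, s₃, hr, hA, hB, hE⟩ := hu.gen_pi
  have hE' : nf (sub σ E) = sort s₃ := by
    rw [← nf_congr (beq_sub σ hE), sub_sort, nf_sort]
  rw [hE'] at hp
  have h₃ : InC P s0 s₃ := (path_sort_iff.1 hp).2
  obtain ⟨hL₁, hL₂⟩ := h₃.inL.rule hr
  have hdA : Det O (fun ω => Z.red A σ (tau Γ σ) (fun x => ρ x ω)) := by
    rcases hL₁.cases with h₁ | h₁
    · have h := ihA (O := O) (ρ := ρ) (E := sort s₁) (l := []) hΓ hσ hAn hA
        (by rw [sub_sort, nf_sort]; exact Path.nil h₁) (Or.inr (Or.inl rfl)) hρ (Z.argsOK_nil _)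
      exact h.comp (fixc U (nf (sub σ A)))
    · exact (det_const (Top U (nf (sub σ A)))).congr
        (fun ω => (Z.red_of_inD hD hΓ hσ hAn hA h₁).symm)
  have hdB : ∀ a : {a : Term S // Ty P U.Θ a (nf (sub σ A))},
      Det O (fun ω => fun w : Z.D.V => Z.red B (scons a.1 σ) (scons (nf (sub σ A)) (tau Γ σ))
        (scons (Z.N (nf (sub σ A)) w) (fun x => ρ x ω))) := by
    rintro ⟨a, ha⟩
    have hσ' : SubTy P U.Θ (scons a σ) (ext Γ A) :=
      hσ.cons ((hU.ty_nf_iff (hA.sub_sort hσ)).1 ha)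
    rcases hL₂.cases with h₂ | h₂
    · have he : ParT U s0 false (nf (sub σ A)) :=
        ⟨s₁, InI.par ⟨s₂, s₃, hr, h₂, h₃⟩, hU.ty_nf (hA.sub_sort hσ)⟩
      have hpw : PW Z.D (O.prod Z.D) (fun x : Ω × (ℕ → Z.D.V) => Z.N (nf (sub σ A)) (x.2 0)) :=
        Z.pw_N (pw_snd 0)
      have h := ihB (O := O.prod Z.D)
        (ρ := scons (fun x : Ω × (ℕ → Z.D.V) => Z.N (nf (sub σ A)) (x.2 0)) (fun y x => ρ y x.1))
        (E := sort s₂) (l := []) (hΓ.ext hA) hσ' hBn hB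
        (by rw [sub_sort, nf_sort]; exact Path.nil h₂) (Or.inr (Or.inl rfl))
        (by
          rw [tau_ext]
          exact EnvOK.cons Z (EnvOK.fst Z hρ) (Or.inl he) hpw
            (fun ho => Z.un_N_of_ac (ac_of_both hc (nf_normal' _) he ho) hpw))
        (Z.argsOK_nil _)
      refine (h.forall_snd.comp (fun G => fun w : Z.D.V =>
        fixc U (nf (sub (scons a σ) B)) (G (fun _ => w)))).congr (fun ω => ?_)
      funext w
      simp only [red, atw_nil, scons_at, tau_ext]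
    · refine (det_const (fun _ : Z.D.V => Top U (nf (sub (scons a σ) B)))).congr (fun ω => ?_)
      funext w
      rw [← tau_ext Γ σ A a]
      exact (Z.red_of_inD hD (hΓ.ext hA) hσ' hBn hB h₂).symm
  have hdB' : Det O (fun ω => fun (a : {a : Term S // Ty P U.Θ a (nf (sub σ A))}) (w : Z.D.V) =>
      Z.red B (scons a.1 σ) (scons (nf (sub σ A)) (tau Γ σ))
        (scons (Z.N (nf (sub σ A)) w) (fun x => ρ x ω))) :=
    det_of_family hdB (fun _ _ h => funext h)
  refine det_of_two hdA hdB' (fun ω ω' e1 e2 => ?_)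
  rw [val_pi, val_pi]
  ext f
  simp only [Set.mem_ofPred_eq]
  refine and_congr_right (fun _ => ?_)
  rw [e1]
  refine forall_congr' (fun a => forall_congr' (fun ha => forall_congr' (fun w => ?_)))
  have hta : Ty P U.Θ a (nf (sub σ A)) := ((isCand_fixc _ _).sub ha).1
  have e3 := congrFun (congrFun e2 ⟨a, hta⟩) w
  simp only at e3
  rw [e3]

end cases

/-- The support lemma. -/
theorem det_val (hD : ∀ t, InD P s0 t → App U t) (hc : ¬ Config P s0) (u : Term S) :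
    ∀ {Ω : Type (u + 1)} {O : Obs Ω (Set (Term S))} {Γ : Ctx S} {σ : ℕ → Term S}
      {ρ : ℕ → Ω → Z.D.V} {E : Term S} {l : List (Term S × (Ω → Z.D.V))},
      Good U Γ → SubTy P U.Θ σ Γ → Normal u → Ty P Γ u E →
      Path U s0 (nf (sub σ E)) (l.map Prod.fst) →
      (Nd U s0 (nf (sub σ E)) ∨ l = [] ∨ Neu u) →
      Z.EnvOK O (tau Γ σ) ρ → Z.ArgsOK O (nf (sub σ E)) l →
      Det O (fun ω => Z.val u σ (tau Γ σ) (fun x => ρ x ω) (atw l ω)) := by
  have key : Z.DV u := by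
    induction u with
    | var i => exact Z.dv_var i
    | sort s => exact Z.dv_sort s
    | app m n ihm ihn => exact Z.dv_app hc ihm ihn
    | lam A b _ ihb => exact Z.dv_lam ihb
    | pi A B ihA ihB => exact Z.dv_pi hD hc ihA ihB
  exact @key

/-- Values of normal terms of odd type have small support. -/
theorem ss_val (hD : ∀ t, InD P s0 t → App U t) (hc : ¬ Config P s0) {Γ : Ctx S}
    {σ : ℕ → Term S} {ρ : ℕ → Z.D.V} {u E : Term S} (hΓ : Good U Γ) (hσ : SubTy P U.Θ σ Γ)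
    (hn : Normal u) (hu : Ty P Γ u E) (ho : ParT U s0 true (nf (sub σ E)))
    (hρ : Z.InvD (tau Γ σ) ρ) :
    Z.D.SS (trunc U s0 (nf (sub σ E)) (Z.val u σ (tau Γ σ) ρ)) := by
  have henv : Z.EnvOK (Obs.unit (Set (Term S))) (tau Γ σ) (fun x _ => ρ x) := by
    intro x
    rcases hρ x with h | ⟨h1, h2⟩
    · exact Or.inl fun _ => h
    · exact Or.inr ⟨h1, pw_const _, fun h => un_const (h2 h)⟩
  exact (Z.ss_step hc (Z.det_val hD hc u) hΓ hσ hn hu ho henv).1 PUnit.unit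

end Sem

end Crest.Agent.R298
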