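import Crest.Prelude.Def_PTS

/-! Row 298: parallel renaming and substitution on PTS terms. -/

set_option autoImplicit false

namespace Crest.Agent.R298
open Crest.LogicCS.PTS Crest.LogicCS.PTS.Term

universe u
variable {S : Type u}

/-- `scons a f` is the sequence `a, f 0, f 1, …`. -/
def scons {α : Sort*} (a : α) (f : ℕ → α) : ℕ → α
  | 0 => a
  | n + 1 => f n

@[simp] theorem scons_zero {α : Sort*} (a : α) (f : ℕ → α) : scons a f 0 = a := rfl
@[simp] theorem scons_succ {α : Sort*} (a : α) (f : ℕ → α) (n : ℕ) : scons a f (n + 1) = f n := rfl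

theorem scons_comp {α β : Sort*} (g : α → β) (a : α) (f : ℕ → α) :
    (fun i => g (scons a f i)) = scons (g a) (fun i => g (f i)) := by
  funext i; cases i <;> rfl

/-- Lift a renaming under a binder. -/
def upr (ξ : ℕ → ℕ) : ℕ → ℕ := scons 0 (fun n => ξ n + 1)

@[simp] theorem upr_zero (ξ : ℕ → ℕ) : upr ξ 0 = 0 := rfl
@[simp] theorem upr_succ (ξ : ℕ → ℕ) (n : ℕ) : upr ξ (n + 1) = ξ n + 1 := rfl

/-- Renaming of free variables. -/
def ren (ξ : ℕ → ℕ) : Term S → Term S
  | var i => var (ξ i)
  | sort s => sort s
  | app M N => app (ren ξ M) (ren ξ N)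
  | lam A M => lam (ren ξ A) (ren (upr ξ) M)
  | pi A B => pi (ren ξ A) (ren (upr ξ) B)

theorem ren_anchor : type_of% @ren.eq_def := @ren.eq_def

@[simp] theorem ren_var (ξ : ℕ → ℕ) (i : ℕ) : ren ξ (var i : Term S) = var (ξ i) := rfl
@[simp] theorem ren_sort (ξ : ℕ → ℕ) (s : S) : ren ξ (sort s) = sort s := rfl
@[simp] theorem ren_app (ξ : ℕ → ℕ) (M N : Term S) :
    ren ξ (app M N) = app (ren ξ M) (ren ξ N) := rfl
@[simp] theorem ren_lam (ξ : ℕ → ℕ) (A M : Term S) :
    ren ξ (lam A M) = lam (ren ξ A) (ren (upr ξ) M) := rfl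
@[simp] theorem ren_pi (ξ : ℕ → ℕ) (A B : Term S) :
    ren ξ (pi A B) = pi (ren ξ A) (ren (upr ξ) B) := rfl

/-- Weakening: shift all free variables by one. -/
def wk (M : Term S) : Term S := ren Nat.succ M

@[simp] theorem wk_var (i : ℕ) : wk (var i : Term S) = var (i + 1) := rfl
@[simp] theorem wk_sort (s : S) : wk (sort s) = sort s := rfl
theorem wk_app (M N : Term S) : wk (app M N) = app (wk M) (wk N) := rfl
theorem wk_pi (A B : Term S) : wk (pi A B) = pi (wk A) (ren (upr Nat.succ) B) := rfl
theorem wk_lam (A B : Term S) : wk (lam A B) = lam (wk A) (ren (upr Nat.succ) B) := rfl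

/-- Lift a substitution under a binder. -/
def up (σ : ℕ → Term S) : ℕ → Term S := scons (var 0) (fun n => wk (σ n))

@[simp] theorem up_zero (σ : ℕ → Term S) : up σ 0 = var 0 := rfl
@[simp] theorem up_succ (σ : ℕ → Term S) (n : ℕ) : up σ (n + 1) = wk (σ n) := rfl

/-- Parallel substitution. -/
def sub (σ : ℕ → Term S) : Term S → Term S
  | var i => σ i
  | sort s => sort s
  | app M N => app (sub σ M) (sub σ N)
  | lam A M => lam (sub σ A) (sub (up σ) M)
  | pi A B => pi (sub σ A) (sub (up σ) B)

theorem sub_anchor : type_of% @sub.eq_def := @sub.eq_def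

@[simp] theorem sub_var (σ : ℕ → Term S) (i : ℕ) : sub σ (var i) = σ i := rfl
@[simp] theorem sub_sort (σ : ℕ → Term S) (s : S) : sub σ (sort s) = sort s := rfl
@[simp] theorem sub_app (σ : ℕ → Term S) (M N : Term S) :
    sub σ (app M N) = app (sub σ M) (sub σ N) := rfl
@[simp] theorem sub_lam (σ : ℕ → Term S) (A M : Term S) :
    sub σ (lam A M) = lam (sub σ A) (sub (up σ) M) := rfl
@[simp] theorem sub_pi (σ : ℕ → Term S) (A B : Term S) :
    sub σ (pi A B) = pi (sub σ A) (sub (up σ) B) := rfl

/-- `inst N M`: substitute `N` for variable 0 of `M` (equal to `Term.subst N M`). -/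
def inst (N M : Term S) : Term S := sub (scons N var) M

/-- Weakening of a substitution: `θ` followed by the shift. -/
def wkS (θ : ℕ → Term S) : ℕ → Term S := fun i => wk (θ i)

@[simp] theorem wkS_apply (θ : ℕ → Term S) (i : ℕ) : wkS θ i = wk (θ i) := rfl

/-- Iterated application. -/
def apps : Term S → List (Term S) → Term S
  | M, [] => M
  | M, N :: l => apps (app M N) l

theorem apps_anchor : type_of% @apps.eq_def := @apps.eq_def

@[simp] theorem apps_nil (M : Term S) : apps M [] = M := rfl
@[simp] theorem apps_cons (M N : Term S) (l : List (Term S)) :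
    apps M (N :: l) = apps (app M N) l := rfl

theorem apps_append (M : Term S) (l l' : List (Term S)) :
    apps M (l ++ l') = apps (apps M l) l' := by
  induction l generalizing M with
  | nil => rfl
  | cons N l ih => simp [ih]

theorem apps_concat (M N : Term S) (l : List (Term S)) :
    apps M (l ++ [N]) = app (apps M l) N := by
  simp [apps_append]

theorem upr_comp (ξ ζ : ℕ → ℕ) : (fun i => upr ζ (upr ξ i)) = upr (fun i => ζ (ξ i)) := by
  funext i; cases i <;> rfl

theorem ren_ren (ξ ζ : ℕ → ℕ) (M : Term S) : ren ζ (ren ξ M) = ren (fun i => ζ (ξ i)) M := by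
  induction M generalizing ξ ζ with
  | var i => rfl
  | sort s => rfl
  | app M N ihM ihN => simp [ihM, ihN]
  | lam A M ihA ihM => simp [ihA, ihM, upr_comp]
  | pi A M ihA ihM => simp [ihA, ihM, upr_comp]

theorem up_upr (ξ : ℕ → ℕ) (σ : ℕ → Term S) :
    (fun i => up σ (upr ξ i)) = up (fun i => σ (ξ i)) := by
  funext i; cases i <;> rfl

theorem sub_ren (ξ : ℕ → ℕ) (σ : ℕ → Term S) (M : Term S) :
    sub σ (ren ξ M) = sub (fun i => σ (ξ i)) M := by
  induction M generalizing ξ σ with
  | var i => rfl
  | sort s => rfl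
  | app M N ihM ihN => simp [ihM, ihN]
  | lam A M ihA ihM => simp [ihA, ihM, up_upr]
  | pi A M ihA ihM => simp [ihA, ihM, up_upr]

theorem ren_upr_wk (ξ : ℕ → ℕ) (M : Term S) : ren (upr ξ) (wk M) = wk (ren ξ M) := by
  simp [wk, ren_ren]

theorem upr_up (ξ : ℕ → ℕ) (σ : ℕ → Term S) :
    (fun i => ren (upr ξ) (up σ i)) = up (fun i => ren ξ (σ i)) := by
  funext i
  cases i with
  | zero => rfl
  | succ i => simp [ren_upr_wk]

theorem ren_sub (ξ : ℕ → ℕ) (σ : ℕ → Term S) (M : Term S) :
    ren ξ (sub σ M) = sub (fun i => ren ξ (σ i)) M := by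
  induction M generalizing ξ σ with
  | var i => rfl
  | sort s => rfl
  | app M N ihM ihN => simp [ihM, ihN]
  | lam A M ihA ihM => simp [ihA, ihM, upr_up]
  | pi A M ihA ihM => simp [ihA, ihM, upr_up]

@[simp] theorem sub_scons_wk (N : Term S) (σ : ℕ → Term S) (M : Term S) :
    sub (scons N σ) (wk M) = sub σ M := by
  simp [wk, sub_ren]

theorem wk_sub (σ : ℕ → Term S) (M : Term S) : wk (sub σ M) = sub (wkS σ) M := by
  simp only [wk, ren_sub]; rfl

@[simp] theorem sub_up_wk (σ : ℕ → Term S) (M : Term S) :
    sub (up σ) (wk M) = wk (sub σ M) := by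
  rw [up, sub_scons_wk, wk_sub]; rfl

theorem up_up (σ τ : ℕ → Term S) :
    (fun i => sub (up τ) (up σ i)) = up (fun i => sub τ (σ i)) := by
  funext i
  cases i with
  | zero => rfl
  | succ i => simp

theorem sub_sub (σ τ : ℕ → Term S) (M : Term S) :
    sub τ (sub σ M) = sub (fun i => sub τ (σ i)) M := by
  induction M generalizing σ τ with
  | var i => rfl
  | sort s => rfl
  | app M N ihM ihN => simp [ihM, ihN]
  | lam A M ihA ihM => simp [ihA, ihM, up_up]
  | pi A M ihA ihM => simp [ihA, ihM, up_up]

@[simp] theorem up_var : up (var : ℕ → Term S) = var := by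
  funext i; cases i <;> rfl

@[simp] theorem sub_id (M : Term S) : sub var M = M := by
  induction M with
  | var i => rfl
  | sort s => rfl
  | app M N ihM ihN => simp [ihM, ihN]
  | lam A M ihA ihM => simp [ihA, ihM]
  | pi A M ihA ihM => simp [ihA, ihM]

theorem up_var_comp (ξ : ℕ → ℕ) :
    up (fun i => (var (ξ i) : Term S)) = fun i => var (upr ξ i) := by
  funext i; cases i <;> rfl

theorem ren_eq_sub (ξ : ℕ → ℕ) (M : Term S) : ren ξ M = sub (fun i => var (ξ i)) M := by
  have := ren_sub ξ var M
  simpa using this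

theorem wk_eq_sub (M : Term S) : wk M = sub (fun i => var (i + 1)) M := ren_eq_sub _ _

@[simp] theorem ren_id (M : Term S) : ren (fun i => i) M = M := by
  rw [ren_eq_sub]; exact sub_id M

@[simp] theorem inst_wk (N M : Term S) : inst N (wk M) = M := by
  simp [inst]

@[simp] theorem inst_var_zero (N : Term S) : inst N (var 0) = N := rfl
@[simp] theorem inst_var_succ (N : Term S) (i : ℕ) : inst N (var (i + 1)) = var i := rfl
@[simp] theorem inst_sort (N : Term S) (s : S) : inst N (sort s) = sort s := rfl
theorem inst_app (N M M' : Term S) : inst N (app M M') = app (inst N M) (inst N M') := rfl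

theorem wk_injective {M N : Term S} (h : wk M = wk N) : M = N := by
  have := congrArg (inst (var 0)) h
  simpa using this

/-- Substituting into a lifted substitution. -/
theorem sub_scons_up (N : Term S) (σ τ : ℕ → Term S) (M : Term S) :
    sub (scons N τ) (sub (up σ) M) = sub (scons N (fun i => sub τ (σ i))) M := by
  rw [sub_sub]; congr 1; funext i
  cases i with
  | zero => rfl
  | succ i => simp

@[simp] theorem inst_sub_up (N : Term S) (σ : ℕ → Term S) (M : Term S) :
    inst N (sub (up σ) M) = sub (scons N σ) M := by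
  simp [inst, sub_scons_up]

theorem sub_inst (σ : ℕ → Term S) (N M : Term S) :
    sub σ (inst N M) = sub (scons (sub σ N) σ) M := by
  rw [inst, sub_sub]; congr 1; funext i; cases i <;> rfl

theorem sub_inst' (σ : ℕ → Term S) (N M : Term S) :
    sub σ (inst N M) = inst (sub σ N) (sub (up σ) M) := by
  rw [sub_inst, inst_sub_up]

theorem ren_inst (ξ : ℕ → ℕ) (N M : Term S) :
    ren ξ (inst N M) = inst (ren ξ N) (ren (upr ξ) M) := by
  rw [ren_eq_sub, sub_inst', ← ren_eq_sub, up_var_comp, ← ren_eq_sub]

theorem sub_sub_scons (σ τ : ℕ → Term S) (N M : Term S) :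
    sub τ (sub (scons N σ) M) = sub (scons (sub τ N) (fun i => sub τ (σ i))) M := by
  rw [sub_sub, scons_comp]

theorem sub_wkS (σ τ : ℕ → Term S) (N : Term S) :
    (fun i => sub (scons N τ) (wkS σ i)) = fun i => sub τ (σ i) := by
  funext i; simp

theorem sub_up_wkS (σ τ : ℕ → Term S) :
    (fun i => sub (up τ) (wkS σ i)) = wkS (fun i => sub τ (σ i)) := by
  funext i; simp

theorem sub_apps (σ : ℕ → Term S) (M : Term S) (l : List (Term S)) :
    sub σ (apps M l) = apps (sub σ M) (l.map (sub σ)) := by
  induction l generalizing M with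
  | nil => rfl
  | cons N l ih => simp [ih]

theorem ren_apps (ξ : ℕ → ℕ) (M : Term S) (l : List (Term S)) :
    ren ξ (apps M l) = apps (ren ξ M) (l.map (ren ξ)) := by
  induction l generalizing M with
  | nil => rfl
  | cons N l ih => simp [ih]

/-! ### Link with the operations of the statement -/

theorem shift_eq_ren (c : ℕ) (M : Term S) :
    shift c M = ren (fun i => if i < c then i else i + 1) M := by
  have key : ∀ c : ℕ, upr (fun i => if i < c then i else i + 1)
      = fun i => if i < c + 1 then i else i + 1 := by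
    intro c; funext i
    cases i with
    | zero => simp
    | succ i => simp only [upr_succ, Nat.add_lt_add_iff_right]; split <;> rfl
  induction M generalizing c with
  | var i => simp only [shift, ren_var]; split <;> rfl
  | sort s => rfl
  | app M N ihM ihN => simp [shift, ihM, ihN]
  | lam A M ihA ihM => simp [shift, ihA, ihM, key]
  | pi A M ihA ihM => simp [shift, ihA, ihM, key]

theorem shift_zero (M : Term S) : shift 0 M = wk M := by
  rw [shift_eq_ren]; rfl

theorem substAt_eq_sub (k : ℕ) (N M : Term S) :
    substAt k N M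
      = sub (fun i => if i < k then var i else if i = k then shiftBy k N else var (i - 1)) M := by
  have key : ∀ k : ℕ,
      up (fun i => if i < k then var i else if i = k then shiftBy k N else var (i - 1))
      = fun i => if i < k + 1 then var i else if i = k + 1 then shiftBy (k + 1) N
          else var (i - 1) := by
    intro k; funext i
    cases i with
    | zero => simp
    | succ i =>
      simp only [up_succ, Nat.add_lt_add_iff_right, Nat.add_right_cancel_iff, Nat.add_sub_cancel]
      split
      · rfl
      · split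
        · simp [shiftBy, shift_zero]
        · have : i - 1 + 1 = i := by omega
          simp [this]
  induction M generalizing k with
  | var i => simp only [substAt, sub_var]
  | sort s => rfl
  | app M M' ihM ihN => simp [substAt, ihM, ihN]
  | lam A M ihA ihM => simp [substAt, ihA, ihM, key]
  | pi A M ihA ihM => simp [substAt, ihA, ihM, key]

theorem subst_eq_inst (N M : Term S) : subst N M = inst N M := by
  rw [subst, substAt_eq_sub, inst]; congr 1; funext i
  cases i with
  | zero => simp [shiftBy]
  | succ i => simp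

theorem beta_redex (A M N : Term S) : Beta (app (lam A M) N) (inst N M) := by
  rw [← subst_eq_inst]; exact Beta.redex A M N

end Crest.Agent.R298
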