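import Crest.Agent.R298.Nf

/-! Row 298: PTS typing with function contexts, and its metatheory. -/

set_option autoImplicit false

namespace Crest.Agent.R298
open Crest.LogicCS.PTS Crest.LogicCS.PTS.Term

universe u
variable {S : Type u}

/-- Contexts: the type of every variable, in the scope of the whole context. -/
abbrev Ctx (S : Type u) : Type u := ℕ → Term S

/-- Context extension. -/
def ext (Γ : Ctx S) (A : Term S) : Ctx S := fun i => wk (scons A Γ i)

@[simp] theorem ext_zero (Γ : Ctx S) (A : Term S) : ext Γ A 0 = wk A := rfl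
@[simp] theorem ext_succ (Γ : Ctx S) (A : Term S) (i : ℕ) : ext Γ A (i + 1) = wk (Γ i) := rfl

/-- Typing in a function context (no validity of the context is required). -/
inductive Ty (P : Spec S) : Ctx S → Term S → Term S → Prop
  | ax {Γ : Ctx S} {s₁ s₂ : S} : P.ax s₁ s₂ → Ty P Γ (sort s₁) (sort s₂)
  | var {Γ : Ctx S} (i : ℕ) : Ty P Γ (var i) (Γ i)
  | pi {Γ : Ctx S} {A B : Term S} {s₁ s₂ s₃ : S} : Ty P Γ A (sort s₁) →
      Ty P (ext Γ A) B (sort s₂) → P.rule s₁ s₂ s₃ → Ty P Γ (pi A B) (sort s₃)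
  | lam {Γ : Ctx S} {A M B : Term S} {s : S} : Ty P (ext Γ A) M B →
      Ty P Γ (pi A B) (sort s) → Ty P Γ (lam A M) (pi A B)
  | app {Γ : Ctx S} {M N A B : Term S} : Ty P Γ M (pi A B) → Ty P Γ N A →
      Ty P Γ (app M N) (inst N B)
  | conv {Γ : Ctx S} {M A B : Term S} {s : S} : Ty P Γ M A → Ty P Γ B (sort s) →
      BetaEq A B → Ty P Γ M B

/-- `σ` is a well-typed substitution from `Γ` to `Δ`. -/
def SubTy (P : Spec S) (Δ : Ctx S) (σ : ℕ → Term S) (Γ : Ctx S) : Prop :=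
  ∀ i, Ty P Δ (σ i) (sub σ (Γ i))

/-- Every declared type has a sort. -/
def Sorted (P : Spec S) (Γ : Ctx S) : Prop := ∀ i, ∃ s, Ty P Γ (Γ i) (sort s)

variable {P : Spec S} {Γ Δ : Ctx S}

/-! ### Renaming and substitution -/

theorem ext_upr {ξ : ℕ → ℕ} (hξ : ∀ i, Δ (ξ i) = ren ξ (Γ i)) (A : Term S) (i : ℕ) :
    ext Δ (ren ξ A) (upr ξ i) = ren (upr ξ) (ext Γ A i) := by
  cases i with
  | zero => simp [ren_upr_wk]
  | succ i => simp [ren_upr_wk, hξ]

theorem Ty.ren {M A : Term S} (h : Ty P Γ M A) {ξ : ℕ → ℕ}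
    (hξ : ∀ i, Δ (ξ i) = ren ξ (Γ i)) : Ty P Δ (ren ξ M) (ren ξ A) := by
  induction h generalizing Δ ξ with
  | ax h => exact Ty.ax h
  | var i => rw [← hξ]; exact Ty.var _
  | pi _ _ hr ihA ihB => exact Ty.pi (ihA hξ) (ihB (ext_upr hξ _)) hr
  | lam _ _ ihM ihP => exact Ty.lam (ihM (ext_upr hξ _)) (ihP hξ)
  | app _ _ ihM ihN => rw [ren_inst]; exact Ty.app (ihM hξ) (ihN hξ)
  | conv _ _ hb ihM ihB => exact Ty.conv (ihM hξ) (ihB hξ) (beq_ren _ hb)

theorem Ty.wk {M A : Term S} (h : Ty P Γ M A) (B : Term S) :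
    Ty P (ext Γ B) (wk M) (wk A) := h.ren (ξ := Nat.succ) fun _ => rfl

theorem Ty.wk_sort {M : Term S} {s : S} (h : Ty P Γ M (sort s)) (B : Term S) :
    Ty P (ext Γ B) (R298.wk M) (sort s) := h.wk B

theorem SubTy.up {σ : ℕ → Term S} (h : SubTy P Δ σ Γ) (A : Term S) :
    SubTy P (ext Δ (sub σ A)) (up σ) (ext Γ A) := by
  intro i
  cases i with
  | zero => rw [ext_zero, sub_up_wk]; exact Ty.var 0
  | succ i => rw [ext_succ, sub_up_wk]; exact (h i).wk _

theorem Ty.sub {M A : Term S} (h : Ty P Γ M A) {σ : ℕ → Term S} (hσ : SubTy P Δ σ Γ) :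
    Ty P Δ (sub σ M) (sub σ A) := by
  induction h generalizing Δ σ with
  | ax h => exact Ty.ax h
  | var i => exact hσ i
  | pi _ _ hr ihA ihB => exact Ty.pi (ihA hσ) (ihB (hσ.up _)) hr
  | lam _ _ ihM ihP => exact Ty.lam (ihM (hσ.up _)) (ihP hσ)
  | app _ _ ihM ihN => rw [sub_inst']; exact Ty.app (ihM hσ) (ihN hσ)
  | conv _ _ hb ihM ihB => exact Ty.conv (ihM hσ) (ihB hσ) (beq_sub _ hb)

theorem Ty.sub_sort {M : Term S} {s : S} (h : Ty P Γ M (sort s)) {σ : ℕ → Term S}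
    (hσ : SubTy P Δ σ Γ) : Ty P Δ (R298.sub σ M) (sort s) := h.sub hσ

theorem subTy_id : SubTy P Γ var Γ := fun i => by rw [sub_id]; exact Ty.var i

theorem SubTy.cons {σ : ℕ → Term S} (h : SubTy P Δ σ Γ) {a A : Term S}
    (ha : Ty P Δ a (sub σ A)) : SubTy P Δ (scons a σ) (ext Γ A) := by
  intro i
  cases i with
  | zero => rw [ext_zero, sub_scons_wk]; exact ha
  | succ i => rw [ext_succ, sub_scons_wk]; exact h i

theorem SubTy.wkS {σ : ℕ → Term S} (h : SubTy P Δ σ Γ) (B : Term S) :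
    SubTy P (ext Δ B) (wkS σ) Γ := fun i => by
  rw [← wk_sub]; exact (h i).wk B

theorem SubTy.comp {Ξ : Ctx S} {σ τ : ℕ → Term S} (h : SubTy P Δ σ Γ) (h' : SubTy P Ξ τ Δ) :
    SubTy P Ξ (fun i => sub τ (σ i)) Γ := fun i => by
  rw [← sub_sub]; exact (h i).sub h'

theorem Ty.inst {M A B N : Term S} (h : Ty P (ext Γ A) M B) (hN : Ty P Γ N A) :
    Ty P Γ (inst N M) (inst N B) :=
  h.sub (subTy_id.cons (by rw [sub_id]; exact hN))

/-- Non-dependent application. -/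
theorem Ty.app_wk {M N A B : Term S} (h : Ty P Γ M (Term.pi A (R298.wk B))) (hN : Ty P Γ N A) :
    Ty P Γ (Term.app M N) B := by
  have := Ty.app h hN
  rwa [inst_wk] at this

theorem Sorted.ext {A : Term S} {s : S} (h : Sorted P Γ) (hA : Ty P Γ A (sort s)) :
    Sorted P (ext Γ A) := by
  intro i
  cases i with
  | zero => exact ⟨s, hA.wk_sort A⟩
  | succ i => obtain ⟨t, ht⟩ := h i; exact ⟨t, ht.wk_sort A⟩

/-! ### Generation -/

theorem Ty.gen_var {i : ℕ} {T : Term S} (h : Ty P Γ (Term.var i) T) : BetaEq (Γ i) T := by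
  generalize hM : Term.var i = M at h
  induction h with
  | var j => cases hM; exact beq_refl _
  | conv _ _ hb ih _ => exact beq_trans (ih hM) hb
  | _ => cases hM

theorem Ty.gen_sort {s : S} {T : Term S} (h : Ty P Γ (sort s) T) :
    ∃ s', P.ax s s' ∧ BetaEq (sort s') T := by
  generalize hM : (sort s : Term S) = M at h
  induction h with
  | ax h => cases hM; exact ⟨_, h, beq_refl _⟩
  | conv _ _ hb ih _ =>
    obtain ⟨s', h1, h2⟩ := ih hM
    exact ⟨s', h1, beq_trans h2 hb⟩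
  | _ => cases hM

theorem Ty.gen_sort_sort {s s' : S} (h : Ty P Γ (sort s) (sort s')) : P.ax s s' := by
  obtain ⟨t, h1, h2⟩ := h.gen_sort
  rwa [beq_sort_inj h2] at h1

theorem Ty.gen_pi {A B T : Term S} (h : Ty P Γ (Term.pi A B) T) :
    ∃ s₁ s₂ s₃, P.rule s₁ s₂ s₃ ∧ Ty P Γ A (sort s₁) ∧ Ty P (ext Γ A) B (sort s₂) ∧
      BetaEq (sort s₃) T := by
  generalize hM : Term.pi A B = M at h
  induction h with
  | pi hA hB hr => cases hM; exact ⟨_, _, _, hr, hA, hB, beq_refl _⟩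
  | conv _ _ hb ih _ =>
    obtain ⟨s₁, s₂, s₃, h1, h2, h3, h4⟩ := ih hM
    exact ⟨s₁, s₂, s₃, h1, h2, h3, beq_trans h4 hb⟩
  | _ => cases hM

theorem Ty.gen_pi_sort {A B : Term S} {s : S} (h : Ty P Γ (Term.pi A B) (sort s)) :
    ∃ s₁ s₂, P.rule s₁ s₂ s ∧ Ty P Γ A (sort s₁) ∧ Ty P (ext Γ A) B (sort s₂) := by
  obtain ⟨s₁, s₂, s₃, h1, h2, h3, h4⟩ := h.gen_pi
  rw [beq_sort_inj h4] at h1
  exact ⟨s₁, s₂, h1, h2, h3⟩

theorem Ty.gen_lam {A M T : Term S} (h : Ty P Γ (Term.lam A M) T) :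
    ∃ B s, Ty P (ext Γ A) M B ∧ Ty P Γ (Term.pi A B) (sort s) ∧ BetaEq (Term.pi A B) T := by
  generalize hM : Term.lam A M = N at h
  induction h with
  | lam h1 h2 => cases hM; exact ⟨_, _, h1, h2, beq_refl _⟩
  | conv _ _ hb ih _ =>
    obtain ⟨B, s, h1, h2, h3⟩ := ih hM
    exact ⟨B, s, h1, h2, beq_trans h3 hb⟩
  | _ => cases hM

theorem Ty.gen_app {M N T : Term S} (h : Ty P Γ (Term.app M N) T) :
    ∃ A B, Ty P Γ M (Term.pi A B) ∧ Ty P Γ N A ∧ BetaEq (R298.inst N B) T := by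
  generalize hM : Term.app M N = Q at h
  induction h with
  | app h1 h2 => cases hM; exact ⟨_, _, h1, h2, beq_refl _⟩
  | conv _ _ hb ih _ =>
    obtain ⟨A, B, h1, h2, h3⟩ := ih hM
    exact ⟨A, B, h1, h2, beq_trans h3 hb⟩
  | _ => cases hM

theorem Ty.not_lam_sort {A M : Term S} {s : S} : ¬ Ty P Γ (Term.lam A M) (sort s) := by
  intro h
  obtain ⟨B, t, -, -, h3⟩ := h.gen_lam
  exact not_beq_pi_sort h3

/-- A stuck term whose type is convertible to a product is neutral. -/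
theorem Ty.neu_of_stuck {M T A B : Term S} (h : Ty P Γ M T) (hT : BetaEq T (Term.pi A B))
    (hs : Stuck M) : Neu M := by
  induction hs generalizing T A B with
  | var i => exact Neu.var i
  | sort s =>
    obtain ⟨t, -, h2⟩ := h.gen_sort
    exact (not_beq_pi_sort (beq_symm (beq_trans h2 hT))).elim
  | pi A' B' =>
    obtain ⟨_, _, _, -, -, -, h2⟩ := h.gen_pi
    exact (not_beq_pi_sort (beq_symm (beq_trans h2 hT))).elim
  | app N _ ih =>
    obtain ⟨A', B', h1, -, -⟩ := h.gen_app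
    exact Neu.app N (ih h1 (beq_refl _))

/-- Uniqueness of types for neutral terms. -/
theorem Ty.neu_unique {M T T' : Term S} (hn : Neu M) (h : Ty P Γ M T) (h' : Ty P Γ M T') :
    BetaEq T T' := by
  induction hn generalizing T T' with
  | var i => exact beq_trans (beq_symm h.gen_var) h'.gen_var
  | app N _ ih =>
    obtain ⟨A, B, h1, -, h3⟩ := h.gen_app
    obtain ⟨A', B', h1', -, h3'⟩ := h'.gen_app
    exact beq_trans (beq_symm h3)
      (beq_trans (beq_inst (beq_refl _) (beq_pi_inj (ih h1 h1')).2) h3')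

/-- A normal type is neutral, a sort or a product. -/
theorem Ty.normal_type_cases {T : Term S} {s : S} (h : Ty P Γ T (sort s)) (hn : Normal T) :
    Neu T ∨ (∃ t, T = sort t) ∨ ∃ A B, T = Term.pi A B := by
  rcases stuck_or_lam_or_wh T with hs | ⟨A, b, rfl⟩ | ⟨T', hw⟩
  · cases hs with
    | var i => exact Or.inl (Neu.var i)
    | sort t => exact Or.inr (Or.inl ⟨t, rfl⟩)
    | pi A B => exact Or.inr (Or.inr ⟨A, B, rfl⟩)
    | app N hM =>
      obtain ⟨A', B', h1, -, -⟩ := h.gen_app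
      exact Or.inl (Neu.app N (h1.neu_of_stuck (beq_refl _) hM))
  · exact (Ty.not_lam_sort h).elim
  · exact (hn _ hw.toBeta).elim

/-! ### Type correctness, context conversion, subject reduction -/

theorem Ty.correct {M T : Term S} (hΓ : Sorted P Γ) (h : Ty P Γ M T) :
    (∃ s, T = sort s) ∨ ∃ s, Ty P Γ T (sort s) := by
  induction h with
  | ax _ => exact Or.inl ⟨_, rfl⟩
  | var i => exact Or.inr (hΓ i)
  | pi _ _ _ => exact Or.inl ⟨_, rfl⟩
  | lam _ h2 => exact Or.inr ⟨_, h2⟩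
  | app _ hN ihM _ =>
    rcases ihM hΓ with ⟨s, hs⟩ | ⟨s, hs⟩
    · cases hs
    · obtain ⟨s₁, s₂, -, -, h3⟩ := hs.gen_pi_sort
      exact Or.inr ⟨s₂, h3.inst hN⟩
  | conv _ hB _ => exact Or.inr ⟨_, hB⟩

theorem Ty.correct_pi {M A B : Term S} (hΓ : Sorted P Γ) (h : Ty P Γ M (Term.pi A B)) :
    ∃ s, Ty P Γ (Term.pi A B) (sort s) := by
  rcases h.correct hΓ with ⟨s, hs⟩ | hs
  · cases hs
  · exact hs

/-- Context conversion: the old annotation `A` must have a sort. -/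
theorem Ty.ctx_conv {A A' M T : Term S} {s : S} (h : Ty P (ext Γ A) M T)
    (hA : Ty P Γ A (sort s)) (hAA : BetaEq A A') : Ty P (ext Γ A') M T := by
  have hσ : SubTy P (ext Γ A') Term.var (ext Γ A) := by
    intro i
    rw [sub_id]
    cases i with
    | zero => exact Ty.conv (Ty.var 0) (hA.wk_sort A') (beq_wk (beq_symm hAA))
    | succ i => exact Ty.var (Γ := ext Γ A') (i + 1)
  have := h.sub hσ
  rwa [sub_id, sub_id] at this

theorem Ty.sr {M M' T : Term S} (hΓ : Sorted P Γ) (h : Ty P Γ M T) (hb : Beta M M') :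
    Ty P Γ M' T := by
  induction h generalizing M' with
  | ax _ => cases hb
  | var i => cases hb
  | pi hA hB hr ihA ihB =>
    cases hb with
    | piA _ hb => exact Ty.pi (ihA hΓ hb) (hB.ctx_conv hA (beq_of_beta hb)) hr
    | piB _ hb => exact Ty.pi hA (ihB (hΓ.ext hA) hb) hr
  | lam hM hP ihM ihP =>
    obtain ⟨s₁, s₂, -, hA, -⟩ := hP.gen_pi_sort
    cases hb with
    | lamA _ hb =>
      exact Ty.conv (Ty.lam (hM.ctx_conv hA (beq_of_beta hb)) (ihP hΓ (Beta.piA _ hb))) hP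
        (beq_symm (beq_of_beta (Beta.piA _ hb)))
    | lamM _ hb => exact Ty.lam (ihM (hΓ.ext hA) hb) hP
  | app hM hN ihM ihN =>
    obtain ⟨s, hP⟩ := hM.correct_pi hΓ
    obtain ⟨s₁, s₂, -, -, hB⟩ := hP.gen_pi_sort
    cases hb with
    | redex A₀ M₀ _ =>
      obtain ⟨B₀, t, h1, h2, h3⟩ := hM.gen_lam
      obtain ⟨t₁, t₂, -, hA₀, -⟩ := h2.gen_pi_sort
      obtain ⟨e1, e2⟩ := beq_pi_inj h3
      rw [subst_eq_inst]
      exact Ty.conv (h1.inst (Ty.conv hN hA₀ (beq_symm e1))) (hB.inst hN)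
        (beq_inst (beq_refl _) e2)
    | appL _ hb => exact Ty.app (ihM hΓ hb) hN
    | appR _ hb =>
      exact Ty.conv (Ty.app hM (ihN hΓ hb)) (hB.inst hN)
        (beq_inst (beq_symm (beq_of_beta hb)) (beq_refl _))
  | conv _ hB he ihM _ => exact Ty.conv (ihM hΓ hb) hB he

theorem Ty.sr_star {M M' T : Term S} (hΓ : Sorted P Γ) (h : Ty P Γ M T) (hb : Star M M') :
    Ty P Γ M' T := by
  induction hb with
  | refl => exact h
  | tail _ hb ih => exact ih.sr hΓ hb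

theorem Ty.conv_star {M T T' : Term S} (hΓ : Sorted P Γ) (h : Ty P Γ M T) (hb : Star T T') :
    Ty P Γ M T' := by
  rcases h.correct hΓ with ⟨s, rfl⟩ | ⟨s, hs⟩
  · rw [star_sort_inv hb]; exact h
  · exact Ty.conv h (hs.sr_star hΓ hb) (beq_of_star hb)

theorem Ty.conv_sort {M T : Term S} {s : S} (hΓ : Sorted P Γ) (h : Ty P Γ M T)
    (hb : BetaEq T (sort s)) : Ty P Γ M (sort s) :=
  h.conv_star hΓ (star_sort_of_beq hb)

theorem Ty.conv_normal {M T T' : Term S} (hΓ : Sorted P Γ) (h : Ty P Γ M T)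
    (hb : BetaEq T T') (hn : Normal T') : Ty P Γ M T' :=
  h.conv_star hΓ (star_of_beq_normal hb hn)

end Crest.Agent.R298
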