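import Crest.Agent.R298.Norm
import Crest.Agent.R298.Main

/-! Row 298: the semantic value of a normal term and the interpretation of types. -/

set_option autoImplicit false

namespace Crest.Agent.R298
open Crest.LogicCS.PTS Crest.LogicCS.PTS.Term

universe u
variable {S : Type u} {P : Spec S}

open Classical in
/-- Turn a set into a candidate; candidates are unchanged. -/
noncomputable def fixc (U : Univ P) (T : Term S) (X : Set (Term S)) : Set (Term S) :=
  if IsCand U T X then X else Top U T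

/-- Instantiated normal types of the variables. -/
noncomputable def tau (Γ : Ctx S) (σ : ℕ → Term S) : ℕ → Term S := fun i => nf (sub σ (Γ i))

theorem tau_ext (Γ : Ctx S) (σ : ℕ → Term S) (A a : Term S) :
    tau (ext Γ A) (scons a σ) = scons (nf (sub σ A)) (tau Γ σ) := by
  funext i; cases i <;> simp [tau]

variable {U : Univ P} {s0 : S}

theorem isCand_fixc (T : Term S) (X : Set (Term S)) : IsCand U T (fixc U T X) := by
  unfold fixc
  split_ifs with h
  exacts [h, isCand_top T]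
theorem fixc_of_cand {T : Term S} {X : Set (Term S)} (h : IsCand U T X) : fixc U T X = X :=
  if_pos h
theorem fixc_empty {T : Term S} {s : S} (h : Ty P U.Θ T (sort s)) :
    fixc U T ∅ = Top U T :=
  if_neg fun hc => by
    obtain ⟨i, hi⟩ := hc.exists_var h
    exact hi

theorem scons_upr {α : Sort*} (a : α) (f : ℕ → α) (ξ : ℕ → ℕ) :
    (fun i => scons a f (upr ξ i)) = scons a (fun i => f (ξ i)) := by
  funext i; cases i <;> rfl

theorem beq_scons (a : Term S) {σ σ' : ℕ → Term S} (h : ∀ i, BetaEq (σ i) (σ' i)) (i : ℕ) :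
    BetaEq (scons a σ i) (scons a σ' i) := by
  cases i with
  | zero => exact beq_refl a
  | succ i => exact h i

namespace Sem
variable (Z : Sem U s0)

/-- The value of a term as a functional of a list of arguments; `σ` gives the terms, `τ` the
instantiated types and `ρ` the semantic values of the variables. -/
noncomputable def val : Term S → (ℕ → Term S) → (ℕ → Term S) → (ℕ → Z.D.V) →
    List (Term S × Z.D.V) → Set (Term S)
  | var i, _, τ, ρ, l => trunc U s0 (τ i) (fun l => Z.D.eval (ρ i) (nargs Z.N (τ i) l)) l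
  | sort s, _, _, _, _ => Top U (sort s)
  | app m n, σ, τ, ρ, l => val m σ τ ρ ((nf (sub σ n), Z.D.lam (val n σ τ ρ)) :: l)
  | lam _ _, _, _, _, [] => ∅
  | lam A b, σ, τ, ρ, p :: l =>
      val b (scons p.1 σ) (scons (nf (sub σ A)) τ) (scons (Z.N (nf (sub σ A)) p.2) ρ) l
  | pi A B, σ, τ, ρ, _ =>
      {f | Ty P U.Θ f (nf (sub σ (pi A B))) ∧
        ∀ a ∈ fixc U (nf (sub σ A)) (val A σ τ ρ []), ∀ w : Z.D.V,
          app f a ∈ fixc U (nf (sub (scons a σ) B))
            (val B (scons a σ) (scons (nf (sub σ A)) τ) (scons (Z.N (nf (sub σ A)) w) ρ) [])}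

theorem val_anchor : type_of% @val.eq_def := @val.eq_def

/-- The interpretation of a type. -/
noncomputable def red (T : Term S) (σ τ : ℕ → Term S) (ρ : ℕ → Z.D.V) : Set (Term S) :=
  fixc U (nf (sub σ T)) (Z.val T σ τ ρ [])

section eqns
variable (σ τ : ℕ → Term S) (ρ : ℕ → Z.D.V)

theorem val_var (i : ℕ) (l : List (Term S × Z.D.V)) :
    Z.val (var i) σ τ ρ l
      = trunc U s0 (τ i) (fun l => Z.D.eval (ρ i) (nargs Z.N (τ i) l)) l := by
  simp [val]
theorem val_sort (s : S) (l : List (Term S × Z.D.V)) :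
    Z.val (sort s) σ τ ρ l = Top U (sort s) := by
  simp [val]
theorem val_app (m n : Term S) (l : List (Term S × Z.D.V)) :
    Z.val (app m n) σ τ ρ l
      = Z.val m σ τ ρ ((nf (sub σ n), Z.D.lam (Z.val n σ τ ρ)) :: l) := by
  simp [val]
theorem val_lam_nil (A b : Term S) : Z.val (lam A b) σ τ ρ [] = ∅ := by
  simp [val]
theorem val_lam_cons (A b : Term S) (p : Term S × Z.D.V) (l : List (Term S × Z.D.V)) :
    Z.val (lam A b) σ τ ρ (p :: l)
      = Z.val b (scons p.1 σ) (scons (nf (sub σ A)) τ)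
          (scons (Z.N (nf (sub σ A)) p.2) ρ) l := by
  simp [val]
theorem val_pi (A B : Term S) (l : List (Term S × Z.D.V)) :
    Z.val (pi A B) σ τ ρ l
      = {f | Ty P U.Θ f (nf (sub σ (pi A B))) ∧ ∀ a ∈ Z.red A σ τ ρ, ∀ w : Z.D.V,
          app f a ∈ Z.red B (scons a σ) (scons (nf (sub σ A)) τ)
            (scons (Z.N (nf (sub σ A)) w) ρ)} := by
  cases l <;> simp only [val, red]

end eqns

/-- Invariant of semantic environments. -/
def InvD (τ : ℕ → Term S) (ρ : ℕ → Z.D.V) : Prop :=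
  ∀ x, Z.Dummy (ρ x) ∨ (Nd U s0 (τ x) ∧ (ParT U s0 true (τ x) → Z.D.Sm (ρ x)))

/-- Admissible argument lists: normalised values at odd domains are small. -/
def Adm : Term S → List (Term S × Z.D.V) → Prop
  | pi A B, p :: l => (ParT U s0 true A → Z.D.Sm (Z.N A p.2)) ∧ Adm (nf (inst p.1 B)) l
  | _, _ => True

theorem adm_anchor : type_of% @Adm.eq_def := @Adm.eq_def

theorem adm_pi_cons (A B : Term S) (p : Term S × Z.D.V) (l : List (Term S × Z.D.V)) :
    Z.Adm (pi A B) (p :: l)
      ↔ (ParT U s0 true A → Z.D.Sm (Z.N A p.2)) ∧ Z.Adm (nf (inst p.1 B)) l := by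
  simp [Adm]

theorem adm_nil (A : Term S) : Z.Adm A [] := by
  cases A <;> simp [Adm]

theorem adm_of_smL {A : Term S} {l : List (Term S × Z.D.V)} (h : Z.D.SmL l) : Z.Adm A l := by
  induction l generalizing A with
  | nil => exact Z.adm_nil A
  | cons p l ih =>
    cases A with
    | pi A B =>
      exact (Z.adm_pi_cons A B p l).2 ⟨fun _ => Z.N_sm (h p List.mem_cons_self),
        ih fun q hq => h q (List.mem_cons_of_mem _ hq)⟩
    | _ => simp [Adm]

/-- At an even type, admissible lists are small after normalisation. -/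
theorem smL_nargs_of_even {A : Term S} {l : List (Term S × Z.D.V)} (he : ParT U s0 false A)
    (hp : Path U s0 A (l.map Prod.fst)) (h : Z.Adm A l) : Z.D.SmL (nargs Z.N A l) := by
  induction l generalizing A with
  | nil => rw [nargs_nil]; exact fun _ hq => absurd hq List.not_mem_nil
  | cons p l ih =>
    rw [List.map_cons] at hp
    obtain ⟨A, B, rfl, -, hp'⟩ := hp.cons_inv
    obtain ⟨h1, h2⟩ := he.pi hp
    obtain ⟨h3, h4⟩ := (Z.adm_pi_cons A B p l).1 h
    rw [nargs_pi_cons]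
    intro q hq
    rcases List.mem_cons.1 hq with rfl | hq
    · exact h3 h1
    · exact ih h2 hp' h4 q hq

theorem val_ren (u : Term S) (ξ : ℕ → ℕ) (σ τ : ℕ → Term S) (ρ : ℕ → Z.D.V) :
    Z.val (ren ξ u) σ τ ρ
      = Z.val u (fun i => σ (ξ i)) (fun i => τ (ξ i)) (fun i => ρ (ξ i)) := by
  induction u generalizing ξ σ τ ρ with
  | var i => funext l; rw [ren_var, val_var, val_var]
  | sort s => funext l; rw [ren_sort, val_sort, val_sort]
  | app m n ihm ihn => funext l; rw [ren_app, val_app, val_app, ihm, ihn, sub_ren]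
  | lam A b _ ihb =>
    funext l
    cases l with
    | nil => rw [ren_lam, val_lam_nil, val_lam_nil]
    | cons p l =>
      rw [ren_lam, val_lam_cons, val_lam_cons, ihb, sub_ren, scons_upr, scons_upr, scons_upr]
  | pi A B ihA ihB =>
    funext l
    rw [ren_pi, val_pi, val_pi, ← ren_pi, sub_ren]
    simp only [red, ihA, ihB, sub_ren, scons_upr]

theorem val_wk (u a A : Term S) (w : Z.D.V) (σ τ : ℕ → Term S) (ρ : ℕ → Z.D.V) :
    Z.val (wk u) (scons a σ) (scons A τ) (scons w ρ) = Z.val u σ τ ρ :=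
  Z.val_ren u Nat.succ _ _ _

theorem val_beq (u : Term S) {σ σ' : ℕ → Term S} (h : ∀ i, BetaEq (σ i) (σ' i))
    (τ : ℕ → Term S) (ρ : ℕ → Z.D.V) : Z.val u σ τ ρ = Z.val u σ' τ ρ := by
  induction u generalizing σ σ' τ ρ with
  | var i => funext l; rw [val_var, val_var]
  | sort s => funext l; rw [val_sort, val_sort]
  | app m n ihm ihn =>
    funext l; rw [val_app, val_app, ihm h, ihn h, nf_congr (beq_sub_right h n)]
  | lam A b _ ihb =>
    funext l
    cases l with
    | nil => rw [val_lam_nil, val_lam_nil]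
    | cons p l =>
      rw [val_lam_cons, val_lam_cons, ihb (beq_scons p.1 h), nf_congr (beq_sub_right h A)]
  | pi A B ihA ihB =>
    funext l
    rw [val_pi, val_pi, nf_congr (beq_sub_right h (pi A B))]
    simp only [red, ihA h, fun a => ihB (beq_scons a h), nf_congr (beq_sub_right h A),
      fun a => nf_congr (beq_sub_right (beq_scons a h) B)]

theorem val_dummy {m : Term S} (hn : Neu m) {σ τ : ℕ → Term S} {ρ : ℕ → Z.D.V}
    (h : Z.Dummy (ρ (hd m))) (l : List (Term S × Z.D.V)) : Z.val m σ τ ρ l = ∅ := by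
  induction hn generalizing l with
  | var i =>
    rw [val_var]
    unfold trunc
    split_ifs
    exacts [h _, rfl]
  | app n _ ih => rw [val_app]; exact ih h _

section typed
variable {Γ : Ctx S} {σ : ℕ → Term S} {ρ : ℕ → Z.D.V}

theorem nf_sub_app (hσ : SubTy P U.Θ σ Γ) {n A B E : Term S} {s : S}
    (hs : Ty P Γ (pi A B) (sort s)) (hn : Ty P Γ n A) (hE : BetaEq (inst n B) E) :
    nf (inst (nf (sub σ n)) (nf (sub (up σ) B))) = nf (sub σ E) := by
  have hU := good_univ U
  rw [← nf_congr (beq_sub σ hE), sub_inst']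
  exact nf_congr (beq_inst (nf_beq (hU.wn (hn.sub hσ)))
    (nf_beq (wn_pi_iff.1 (hU.wn (hs.sub_sort hσ))).2))

/-- One step of an address through an application node. -/
theorem path_app_iff (hΓ : Good U Γ) (hσ : SubTy P U.Θ σ Γ) {m n A B E : Term S}
    (hm : Ty P Γ m (pi A B)) (hn : Ty P Γ n A) (hE : BetaEq (inst n B) E) (l : List (Term S)) :
    Path U s0 (nf (sub σ (pi A B))) (nf (sub σ n) :: l) ↔ Path U s0 (nf (sub σ E)) l := by
  have hU := good_univ U
  obtain ⟨s, hs⟩ := hm.correct_pi hΓ.1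
  rw [(hU.nf_sub_pi hσ hs).1, path_pi_cons_iff, nf_sub_app hσ hs hn hE]
  exact and_iff_right (hU.ty_nf_type (hU.ty_nf (hn.sub hσ)))

theorem val_neu_nopath (hΓ : Good U Γ) (hσ : SubTy P U.Θ σ Γ) {m E : Term S} (hn : Neu m)
    (hm : Ty P Γ m E) {l : List (Term S × Z.D.V)}
    (hp : ¬ Path U s0 (nf (sub σ E)) (l.map Prod.fst)) : Z.val m σ (tau Γ σ) ρ l = ∅ := by
  induction hn generalizing E l with
  | var i =>
    rw [val_var]
    refine if_neg ?_
    rwa [tau, nf_congr (beq_sub σ hm.gen_var)]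
  | app n _ ih =>
    obtain ⟨A, B, hM, hN, hE⟩ := hm.gen_app
    rw [val_app]
    exact ih hM fun h => hp ((path_app_iff hΓ hσ hM hN hE _).1 h)

/-- The parity of the head propagates along a neutral spine. -/
theorem parT_neu (hΓ : Good U Γ) (hσ : SubTy P U.Θ σ Γ) {m E : Term S} (hn : Neu m)
    (hm : Ty P Γ m E) {l : List (Term S)} (hp : Path U s0 (nf (sub σ E)) l) {b : Bool}
    (h : ParT U s0 b (tau Γ σ (hd m))) : ParT U s0 b (nf (sub σ E)) := by
  induction hn generalizing E l with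
  | var i => rwa [← nf_congr (beq_sub σ hm.gen_var)]
  | app n _ ih =>
    obtain ⟨A, B, hM, hN, hE⟩ := hm.gen_app
    obtain ⟨s, hs⟩ := hM.correct_pi hΓ.1
    have h1 := (path_app_iff hΓ hσ hM hN hE _).2 hp
    have h2 := ih hM h1 h
    rw [((good_univ U).nf_sub_pi hσ hs).1] at h1 h2
    rw [← nf_sub_app hσ hs hN hE]
    exact (h2.pi h1).2

/-- Values only depend on normalised arguments. -/
theorem val_congr_nargs (hΓ : Good U Γ) (hσ : SubTy P U.Θ σ Γ) {u E : Term S}
    (hu : Ty P Γ u E) {l l' : List (Term S × Z.D.V)}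
    (hp : Path U s0 (nf (sub σ E)) (l.map Prod.fst))
    (h : nargs Z.N (nf (sub σ E)) l = nargs Z.N (nf (sub σ E)) l') :
    Z.val u σ (tau Γ σ) ρ l = Z.val u σ (tau Γ σ) ρ l' := by
  have hU := good_univ U
  induction u generalizing Γ σ ρ E l l' with
  | var i =>
    have hl : l.map Prod.fst = l'.map Prod.fst := by
      rw [← map_fst_nargs Z.N _ l, h, map_fst_nargs]
    rw [val_var, val_var, tau, nf_congr (beq_sub σ hu.gen_var)]
    unfold trunc
    rw [hl]
    simp only [h]
  | sort s => rw [val_sort, val_sort]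
  | pi A B => rw [val_pi, val_pi]
  | app m n ihm _ =>
    obtain ⟨A, B, hM, hN, hE⟩ := hu.gen_app
    obtain ⟨s, hs⟩ := hM.correct_pi hΓ.1
    rw [val_app, val_app]
    refine ihm hΓ hσ hM ((path_app_iff hΓ hσ hM hN hE _).2 hp) ?_
    rw [(hU.nf_sub_pi hσ hs).1, nargs_pi_cons, nargs_pi_cons, nf_sub_app hσ hs hN hE, h]
  | lam A b _ ihb =>
    obtain ⟨B, s, hb, hs, hE⟩ := hu.gen_lam
    obtain ⟨s₁, _, _, hA, _⟩ := hs.gen_pi_sort
    rw [← nf_congr (beq_sub σ hE), (hU.nf_sub_pi hσ hs).1] at hp h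
    cases l with
    | nil =>
      obtain ⟨t, ht, -⟩ := path_nil_iff.1 hp
      cases ht
    | cons p l =>
      cases l' with
      | nil => simp at h
      | cons p' l' =>
        rw [nargs_pi_cons, nargs_pi_cons] at h
        obtain ⟨h1, h2⟩ := List.cons.inj h
        obtain ⟨h3, h4⟩ := Prod.mk.inj h1
        obtain ⟨ha, hp'⟩ := path_pi_cons_iff.1 hp
        rw [← h3, (hU.nf_sub_pi hσ hs).2] at h2
        rw [(hU.nf_sub_pi hσ hs).2] at hp'
        rw [val_lam_cons, val_lam_cons, ← h3, ← h4, ← tau_ext Γ σ A p.1]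
        exact ihb (hΓ.ext hA) (hσ.cons ((hU.ty_nf_iff (hA.sub_sort hσ)).1 ha)) hb hp' h2

theorem val_resp (hΓ : Good U Γ) (hσ : SubTy P U.Θ σ Γ) {u E : Term S} (hu : Ty P Γ u E) :
    Z.Resp (nf (sub σ E)) (Z.val u σ (tau Γ σ) ρ) := fun _ hp =>
  (Z.val_congr_nargs hΓ hσ hu hp (Z.nargs_idem _ _).symm).symm

theorem red_sort (s : S) (σ τ : ℕ → Term S) (ρ : ℕ → Z.D.V) :
    Z.red (sort s) σ τ ρ = Top U (sort s) := by
  rw [red, val_sort, sub_sort, nf_sort]
  exact fixc_of_cand (isCand_top _)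

theorem red_pi (hΓ : Good U Γ) (hσ : SubTy P U.Θ σ Γ) {A B : Term S} {s : S}
    (h : Ty P Γ (pi A B) (sort s)) (τ : ℕ → Term S) :
    Z.red (pi A B) σ τ ρ = Z.val (pi A B) σ τ ρ [] := by
  have _ := hΓ
  obtain ⟨v, -⟩ := Z.exists_dummy
  have : Nonempty Z.D.V := ⟨v⟩
  refine fixc_of_cand ?_
  rw [val_pi]
  exact isCand_pi (h.sub_sort hσ) (isCand_fixc _ _) fun a _ w => by
    rw [inst_sub_up]; exact isCand_fixc _ _

/-- Types with a sort strictly below the component get the largest candidate. -/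
theorem red_of_inD (hD : ∀ t, InD P s0 t → App U t) (hΓ : Good U Γ) (hσ : SubTy P U.Θ σ Γ)
    {T : Term S} {t : S} (hn : Normal T) (h : Ty P Γ T (sort t)) (ht : InD P s0 t) :
    Z.red T σ (tau Γ σ) ρ = Top U (nf (sub σ T)) := by
  have hU := good_univ U
  have neu : ∀ {Γ : Ctx S} {σ : ℕ → Term S} {ρ : ℕ → Z.D.V} {T : Term S} {t : S}, Good U Γ →
      SubTy P U.Θ σ Γ → Neu T → Ty P Γ T (sort t) → InD P s0 t →
      Z.red T σ (tau Γ σ) ρ = Top U (nf (sub σ T)) := fun hΓ hσ hn h ht => by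
    rw [red, Z.val_neu_nopath hΓ hσ hn h fun hp => ?_]
    · exact fixc_empty (hU.ty_nf (h.sub_sort hσ))
    · rw [sub_sort, nf_sort] at hp
      exact (path_sort_iff.1 hp).2.not_inD ht
  induction T generalizing Γ σ ρ t with
  | var i => exact neu hΓ hσ (Neu.var i) h ht
  | sort s => rw [red_sort, sub_sort, nf_sort]
  | lam A b => exact absurd h Ty.not_lam_sort
  | app m n =>
    rcases h.normal_type_cases hn with h1 | ⟨_, h1⟩ | ⟨_, _, h1⟩
    · exact neu hΓ hσ h1 h ht
    · cases h1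
    · cases h1
  | pi A B ihA ihB =>
    obtain ⟨s₁, s₂, hr, hA, hB⟩ := h.gen_pi_sort
    obtain ⟨hnA, hnB⟩ := normal_pi_iff.1 hn
    obtain ⟨v, -⟩ := Z.exists_dummy
    rw [Z.red_pi hΓ hσ h, val_pi, ihA hΓ hσ hnA hA (ht.rule hr).1, sub_pi,
      ← top_pi (hD t ht) (h.sub_sort hσ)]
    ext f
    refine and_congr_right fun _ => forall₂_congr fun a ha => ?_
    have hσ' := hσ.cons ((hU.ty_nf_iff (hA.sub_sort hσ)).1 ha.1)
    simp only [← tau_ext Γ σ A a, ihB (hΓ.ext hA) hσ' hnB hB (ht.rule hr).2, inst_sub_up]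
    exact ⟨fun h => h v, fun h _ => h⟩

end typed

end Sem

end Crest.Agent.R298
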