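import Crest.Agent.R298.Graph
import Crest.Agent.R298.Std

/-! Row 298: wrappers along walks of the sort graphs, with their values and covalues.

A covalue of a type `X` is a term with a hole (variable 0, of type `X`) whose type is a fixed
answer type `R`. All global data live in the universal context and are instantiated by `θ`. -/

set_option autoImplicit false

namespace Crest.Agent.R298
open Crest.LogicCS.PTS Crest.LogicCS.PTS.Term

universe u
variable {S : Type u}

/-- One wrapper: `res o d` sends `X` to `Π _ : o, X` (with `d : o`); `arg c inn out` sends `X` to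
`Π _ : X, c`, where `inn` (hole of type `R`) has type `c` and `out` (hole of type `c`) has
type `R`. -/
inductive Wr (S : Type u) : Type u
  | res (o d : Term S) : Wr S
  | arg (c inn out : Term S) : Wr S

/-- Number of contravariant wrappers. -/
def cnt : List (Wr S) → ℕ
  | [] => 0
  | .res _ _ :: ω => cnt ω
  | .arg _ _ _ :: ω => cnt ω + 1

/-- Parity of the number of contravariant wrappers. -/
def par : List (Wr S) → Bool
  | [] => false
  | .res _ _ :: ω => par ω
  | .arg _ _ _ :: ω => !par ω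

/-- The wrapped type. -/
def wrap (θ : ℕ → Term S) : List (Wr S) → Term S → Term S
  | [], X => X
  | .res o _ :: ω, X => pi (sub θ o) (wk (wrap θ ω X))
  | .arg c _ _ :: ω, X => pi (wrap θ ω X) (wk (sub θ c))

/-- Replace the hole (variable 0) by the hole applied to `a` (a term outside the hole's scope). -/
def holeApp (a q : Term S) : Term S :=
  sub (scons (app (var 0) (wk a)) (fun i => var (i + 1))) q

/-- Value (first component) and covalue (second component) of the wrapped type built from a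
payload. For an even walk the value is built from a value and the covalue from a covalue; for an
odd walk the value is built from a covalue and the covalue from a value. -/
def vc (θ : ℕ → Term S) : List (Wr S) → Term S → Term S → Term S × Term S
  | [], _, p => (p, p)
  | .res o d :: ω, X, p =>
      (lam (sub θ o) (wk (vc θ ω X p).1), holeApp (sub θ d) (vc θ ω X p).2)
  | .arg _ inn out :: ω, X, p =>
      (lam (wrap θ ω X) (sub (scons (vc θ ω X p).2 (wkS θ)) inn),
        sub (scons (app (var 0) (wk (vc θ ω X p).1)) (wkS θ)) out)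

theorem cnt_anchor : type_of% @cnt.eq_def := @cnt.eq_def
theorem par_anchor : type_of% @par.eq_def := @par.eq_def
theorem wrap_anchor : type_of% @wrap.eq_def := @wrap.eq_def
theorem vc_anchor : type_of% @vc.eq_def := @vc.eq_def

/-- The value of the wrapped type. -/
def vl (θ : ℕ → Term S) (ω : List (Wr S)) (X p : Term S) : Term S := (vc θ ω X p).1
/-- The covalue of the wrapped type. -/
def cv (θ : ℕ → Term S) (ω : List (Wr S)) (X p : Term S) : Term S := (vc θ ω X p).2

@[simp] theorem cnt_nil : cnt ([] : List (Wr S)) = 0 := rfl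
@[simp] theorem cnt_res (o d : Term S) (ω : List (Wr S)) : cnt (.res o d :: ω) = cnt ω := rfl
@[simp] theorem cnt_arg (c i o : Term S) (ω : List (Wr S)) :
    cnt (.arg c i o :: ω) = cnt ω + 1 := rfl
@[simp] theorem par_nil : par ([] : List (Wr S)) = false := rfl
@[simp] theorem par_res (o d : Term S) (ω : List (Wr S)) : par (.res o d :: ω) = par ω := rfl
@[simp] theorem par_arg (c i o : Term S) (ω : List (Wr S)) :
    par (.arg c i o :: ω) = !par ω := rfl
@[simp] theorem wrap_nil (θ : ℕ → Term S) (X : Term S) : wrap θ [] X = X := rfl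
theorem wrap_res (θ : ℕ → Term S) (o d : Term S) (ω : List (Wr S)) (X : Term S) :
    wrap θ (.res o d :: ω) X = pi (sub θ o) (wk (wrap θ ω X)) := rfl
theorem wrap_arg (θ : ℕ → Term S) (c i o : Term S) (ω : List (Wr S)) (X : Term S) :
    wrap θ (.arg c i o :: ω) X = pi (wrap θ ω X) (wk (sub θ c)) := rfl
@[simp] theorem vl_nil (θ : ℕ → Term S) (X p : Term S) : vl θ [] X p = p := rfl
@[simp] theorem cv_nil (θ : ℕ → Term S) (X p : Term S) : cv θ [] X p = p := rfl
theorem vl_res (θ : ℕ → Term S) (o d : Term S) (ω : List (Wr S)) (X p : Term S) :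
    vl θ (.res o d :: ω) X p = lam (sub θ o) (wk (vl θ ω X p)) := rfl
theorem cv_res (θ : ℕ → Term S) (o d : Term S) (ω : List (Wr S)) (X p : Term S) :
    cv θ (.res o d :: ω) X p = holeApp (sub θ d) (cv θ ω X p) := rfl
theorem vl_arg (θ : ℕ → Term S) (c inn out : Term S) (ω : List (Wr S)) (X p : Term S) :
    vl θ (.arg c inn out :: ω) X p
      = lam (wrap θ ω X) (sub (scons (cv θ ω X p) (wkS θ)) inn) := rfl
theorem cv_arg (θ : ℕ → Term S) (c inn out : Term S) (ω : List (Wr S)) (X p : Term S) :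
    cv θ (.arg c inn out :: ω) X p
      = sub (scons (app (var 0) (wk (vl θ ω X p))) (wkS θ)) out := rfl

theorem inst_holeApp (M a q : Term S) : inst M (holeApp a q) = inst (app M a) q := by
  rw [holeApp, inst, sub_sub_scons, sub_app, sub_scons_wk, sub_id]
  rfl
theorem sub_up_holeApp (σ : ℕ → Term S) (a q : Term S) :
    sub (up σ) (holeApp a q) = holeApp (sub σ a) (sub (up σ) q) := by
  rw [holeApp, holeApp, sub_sub_scons, sub_scons_up, sub_app, sub_up_wk]
  simp only [← wk_eq_sub]
  rfl

theorem wrap_inst_sub (M N : Term S) (θ : ℕ → Term S) (t : Term S) :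
    inst M (sub (scons N (wkS θ)) t) = sub (scons (inst M N) θ) t := by
  rw [inst, sub_sub_scons, sub_wkS]
  simp only [sub_id]
  rfl

theorem wrap_inst_cv_arg (M : Term S) (θ : ℕ → Term S) (c inn out : Term S) (ω : List (Wr S))
    (X p : Term S) :
    inst M (cv θ (.arg c inn out :: ω) X p) = sub (scons (app M (vl θ ω X p)) θ) out := by
  rw [cv_arg, wrap_inst_sub, inst_app, inst_wk, inst_var_zero]

theorem wrap_wh_arg (θ : ℕ → Term S) (c inn out : Term S) (ω : List (Wr S)) (X p N : Term S) :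
    Wh (app (vl θ (.arg c inn out :: ω) X p) N) (sub (scons (inst N (cv θ ω X p)) θ) inn) := by
  rw [vl_arg, ← wrap_inst_sub]
  exact Wh.beta _ _ _

theorem wrap_wh_res (θ : ℕ → Term S) (o d : Term S) (ω : List (Wr S)) (X p N : Term S) :
    Wh (app (vl θ (.res o d :: ω) X p) N) (vl θ ω X p) := by
  have := Wh.beta (sub θ o) (wk (vl θ ω X p)) N
  rwa [inst_wk] at this

/-! ### Concatenation -/

theorem cnt_append (ω ω' : List (Wr S)) : cnt (ω ++ ω') = cnt ω + cnt ω' := by
  induction ω with
  | nil => simp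
  | cons w ω ih => cases w <;> simp [ih, Nat.add_right_comm]
theorem par_append (ω ω' : List (Wr S)) : par (ω ++ ω') = xor (par ω) (par ω') := by
  induction ω with
  | nil => simp
  | cons w ω ih => cases w <;> simp [ih]
theorem par_of_cnt_zero {ω : List (Wr S)} (h : cnt ω = 0) : par ω = false := by
  induction ω with
  | nil => rfl
  | cons w ω ih =>
    cases w with
    | res o d => exact ih h
    | arg c i o => simp at h
theorem wrap_append (θ : ℕ → Term S) (ω ω' : List (Wr S)) (X : Term S) :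
    wrap θ (ω ++ ω') X = wrap θ ω (wrap θ ω' X) := by
  induction ω with
  | nil => rfl
  | cons w ω ih => cases w <;> simp only [List.cons_append, wrap_res, wrap_arg, ih]
theorem wrap_vc_append (θ : ℕ → Term S) (ω ω' : List (Wr S)) (X p : Term S) :
    vl θ (ω ++ ω') X p
      = vl θ ω (wrap θ ω' X) (if par ω then cv θ ω' X p else vl θ ω' X p) ∧
    cv θ (ω ++ ω') X p
      = cv θ ω (wrap θ ω' X) (if par ω then vl θ ω' X p else cv θ ω' X p) := by
  induction ω with
  | nil => exact ⟨rfl, rfl⟩
  | cons w ω ih =>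
    cases w with
    | res o d =>
      rw [List.cons_append, vl_res, vl_res, cv_res, cv_res, ih.1, ih.2, par_res]
      exact ⟨rfl, rfl⟩
    | arg c i o =>
      rw [List.cons_append, vl_arg, vl_arg, cv_arg, cv_arg, ih.1, ih.2, par_arg, wrap_append]
      cases par ω <;> exact ⟨rfl, rfl⟩
theorem vl_append (θ : ℕ → Term S) (ω ω' : List (Wr S)) (X p : Term S) :
    vl θ (ω ++ ω') X p
      = vl θ ω (wrap θ ω' X) (if par ω then cv θ ω' X p else vl θ ω' X p) :=
  (wrap_vc_append θ ω ω' X p).1
theorem cv_append (θ : ℕ → Term S) (ω ω' : List (Wr S)) (X p : Term S) :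
    cv θ (ω ++ ω') X p
      = cv θ ω (wrap θ ω' X) (if par ω then vl θ ω' X p else cv θ ω' X p) :=
  (wrap_vc_append θ ω ω' X p).2

/-! ### Naturality -/

theorem sub_wrap (σ θ : ℕ → Term S) (ω : List (Wr S)) (X : Term S) :
    sub σ (wrap θ ω X) = wrap (fun i => sub σ (θ i)) ω (sub σ X) := by
  induction ω with
  | nil => rfl
  | cons w ω ih =>
    cases w <;> simp only [wrap_res, wrap_arg, sub_pi, sub_up_wk, ih, sub_sub]
theorem wk_wrap (θ : ℕ → Term S) (ω : List (Wr S)) (X : Term S) :
    wk (wrap θ ω X) = wrap (wkS θ) ω (wk X) := by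
  rw [wk_eq_sub, sub_wrap]
  simp only [← wk_eq_sub]
  rfl
theorem wrap_sub_vc (σ θ : ℕ → Term S) (ω : List (Wr S)) (X p : Term S) :
    sub σ (vl θ ω X p) = vl (fun i => sub σ (θ i)) ω (sub σ X)
      (sub (if par ω then up σ else σ) p) ∧
    sub (up σ) (cv θ ω X p) = cv (fun i => sub σ (θ i)) ω (sub σ X)
      (sub (if par ω then σ else up σ) p) := by
  induction ω with
  | nil => exact ⟨rfl, rfl⟩
  | cons w ω ih =>
    cases w with
    | res o d =>
      rw [vl_res, vl_res, cv_res, cv_res, sub_lam, sub_up_wk, sub_up_holeApp, ih.1, ih.2, par_res,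
        sub_sub θ σ o, sub_sub θ σ d]
      exact ⟨rfl, rfl⟩
    | arg c i o =>
      rw [vl_arg, vl_arg, cv_arg, cv_arg, sub_lam, sub_sub_scons, sub_sub_scons, sub_up_wkS,
        sub_app, sub_up_wk, sub_wrap, ih.1, ih.2, par_arg]
      cases par ω <;> exact ⟨rfl, rfl⟩
theorem sub_vl (σ θ : ℕ → Term S) (ω : List (Wr S)) (X p : Term S) :
    sub σ (vl θ ω X p) = vl (fun i => sub σ (θ i)) ω (sub σ X)
      (sub (if par ω then up σ else σ) p) := (wrap_sub_vc σ θ ω X p).1
theorem sub_cv (σ θ : ℕ → Term S) (ω : List (Wr S)) (X p : Term S) :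
    sub (up σ) (cv θ ω X p) = cv (fun i => sub σ (θ i)) ω (sub σ X)
      (sub (if par ω then σ else up σ) p) := (wrap_sub_vc σ θ ω X p).2

/-! ### Conversion -/

theorem beq_wrap (θ : ℕ → Term S) (ω : List (Wr S)) {X X' : Term S} (h : BetaEq X X') :
    BetaEq (wrap θ ω X) (wrap θ ω X') := by
  induction ω with
  | nil => exact h
  | cons w ω ih =>
    cases w with
    | res o d => exact beq_pi (beq_refl _) (beq_wk ih)
    | arg c i o => exact beq_pi ih (beq_refl _)
theorem beq_of_wrap {θ : ℕ → Term S} {ω : List (Wr S)} {X X' : Term S}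
    (h : BetaEq (wrap θ ω X) (wrap θ ω X')) : BetaEq X X' := by
  induction ω with
  | nil => exact h
  | cons w ω ih =>
    cases w with
    | res o d => exact ih (beq_of_wk (beq_pi_inj h).2)
    | arg c i o => exact ih (beq_pi_inj h).1

/-- Every contravariant wrapper of `ω` satisfies `out[inn[φ]] =β md φ` at `θ`. -/
def KB (md : Term S → Term S) (θ : ℕ → Term S) (ω : List (Wr S)) : Prop :=
  ∀ c inn out, Wr.arg c inn out ∈ ω → ∀ φ,
    BetaEq (sub (scons (sub (scons φ θ) inn) θ) out) (md φ)

/-- Beta law up to the modality. -/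
theorem beq_cv_vl {md : Term S → Term S} (hmd : ∀ φ ψ, BetaEq φ ψ → BetaEq (md φ) (md ψ))
    {θ : ℕ → Term S} {ω : List (Wr S)} (h : KB md θ ω) (X X' p q : Term S) :
    BetaEq (inst (vl θ ω X p) (cv θ ω X' q))
      (md^[cnt ω] (if par ω then inst q p else inst p q)) := by
  induction ω generalizing X X' p q with
  | nil => exact beq_refl _
  | cons w ω ih =>
    have h' : KB md θ ω := fun c i o hm => h c i o (List.mem_cons_of_mem _ hm)
    cases w with
    | res o d =>
      rw [cv_res, inst_holeApp]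
      exact beq_trans (beq_inst (beq_of_beta (wrap_wh_res θ o d ω X p _).toBeta) (beq_refl _))
        (ih h' X X' p q)
    | arg c i o =>
      rw [wrap_inst_cv_arg, cnt_arg, Function.iterate_succ_apply', par_arg]
      refine beq_trans (beq_sub_right (σ' := scons
        (sub (scons (inst (vl θ ω X' q) (cv θ ω X p)) θ) i) θ) (fun j => ?_) o)
        (beq_trans (h c i o List.mem_cons_self _) (hmd _ _ ?_))
      · cases j with
        | zero => exact beq_of_beta (wrap_wh_arg θ c i o ω X p _).toBeta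
        | succ j => exact beq_refl _
      · have := ih h' X' X q p
        revert this
        cases par ω <;> exact id

/-! ### Leftmost normalization -/

/-- The hole is in a strict position. -/
def Strict (c : Term S) : Prop := ∀ M, Ge (inst M c) M
/-- All glue contexts of the walk are strict. -/
def StrictW (ω : List (Wr S)) : Prop :=
  ∀ c inn out, Wr.arg c inn out ∈ ω → Strict inn ∧ Strict out
/-- The hole is in head position with arguments `l`, inside a strict context. -/
def HS (q : Term S) (l : List (Term S)) : Prop := ∀ M, Ge (inst M q) (apps M l)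
/-- The innermost wrapper is contravariant. -/
def EndsArg (ω : List (Wr S)) : Prop := ∃ ω₀ c inn out, ω = ω₀ ++ [Wr.arg c inn out]

theorem HS.holeApp {q : Term S} {l : List (Term S)} (h : HS q l) (a : Term S) :
    HS (holeApp a q) (a :: l) := fun M => by
  rw [inst_holeApp]
  exact h (app M a)

theorem wrap_hs_arg {c inn out : Term S} (h : Strict out) (ω : List (Wr S)) (X p : Term S) :
    HS (cv var (.arg c inn out :: ω) X p) [vl var ω X p] := fun M => by
  rw [wrap_inst_cv_arg]
  exact h _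

theorem wrap_gt_arg {c inn out : Term S} (h : Strict inn) (ω : List (Wr S)) (X p N : Term S) :
    Gt (apps (vl var (.arg c inn out :: ω) X p) [N]) (inst N (cv var ω X p)) :=
  (gt_of_wh (wrap_wh_arg var c inn out ω X p N)).trans_ge (h _)

theorem wrap_ge_core {ω : List (Wr S)} (hs : StrictW ω) :
    (par ω = false → ∀ X' q lq, HS q lq → ∃ l, HS (cv var ω X' q) l ∧
      ∀ X p, Ge (apps (vl var ω X p) l) (apps p lq)) ∧
    (par ω = true → ∀ X' q, ∃ l, HS (cv var ω X' q) l ∧
      ∀ X p lp, HS p lp → Ge (apps (vl var ω X p) l) (apps q lp)) := by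
  induction ω with
  | nil => exact ⟨fun _ _ _ lq hq => ⟨lq, hq, fun _ _ => Ge.refl _⟩, fun h => by cases h⟩
  | cons w ω ih =>
    have ih := ih fun c i o hm => hs c i o (List.mem_cons_of_mem _ hm)
    cases w with
    | res o d =>
      have key : ∀ X p N l, Ge (apps (vl var (.res o d :: ω) X p) (N :: l))
          (apps (vl var ω X p) l) := fun X p N l =>
        (gt_of_wh ((wrap_wh_res var o d ω X p N).apps l)).ge
      refine ⟨fun hp X' q lq hq => ?_, fun hp X' q => ?_⟩
      · obtain ⟨l, h1, h2⟩ := ih.1 hp X' q lq hq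
        exact ⟨_, h1.holeApp _, fun X p => (key X p _ l).trans (h2 X p)⟩
      · obtain ⟨l, h1, h2⟩ := ih.2 hp X' q
        exact ⟨_, h1.holeApp _, fun X p lp hlp => (key X p _ l).trans (h2 X p lp hlp)⟩
    | arg c i o =>
      obtain ⟨hi, ho⟩ := hs c i o List.mem_cons_self
      refine ⟨fun hp X' q lq hq => ⟨_, wrap_hs_arg ho ω X' q, fun X p => ?_⟩,
        fun hp X' q => ⟨_, wrap_hs_arg ho ω X' q, fun X p lp hlp => ?_⟩⟩
      · obtain ⟨l, h1, h2⟩ := ih.2 (by simpa using hp) X p
        exact (wrap_gt_arg hi ω X p _).ge.trans ((h1 _).trans (h2 X' q lq hq))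
      · obtain ⟨l, h1, h2⟩ := ih.1 (by simpa using hp) X p lp hlp
        exact (wrap_gt_arg hi ω X p _).ge.trans ((h1 _).trans (h2 X' q))

theorem ge_even {ω : List (Wr S)} (hp : par ω = false) (hs : StrictW ω) {q : Term S}
    {l : List (Term S)} (hq : HS q l) (X X' p : Term S) :
    Ge (inst (vl var ω X p) (cv var ω X' q)) (apps p l) := by
  obtain ⟨l', h1, h2⟩ := (wrap_ge_core hs).1 hp X' q l hq
  exact (h1 _).trans (h2 X p)

theorem gt_odd_core {ω : List (Wr S)} (hp : par ω = true) (hs : StrictW ω) (he : EndsArg ω)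
    (X' q : Term S) :
    ∃ l, HS (cv var ω X' q) l ∧ ∀ X p, Gt (apps (vl var ω X p) l) (inst q p) := by
  obtain ⟨ω₀, c, i, o, rfl⟩ := he
  have hp₀ : par ω₀ = false := by simpa [par_append] using hp
  obtain ⟨hi, ho⟩ := hs c i o (by simp)
  obtain ⟨l, h1, h2⟩ := (wrap_ge_core (ω := ω₀) fun c i o hm =>
    hs c i o (List.mem_append_left _ hm)).1 hp₀ (wrap var [.arg c i o] X') _ _
    (wrap_hs_arg (c := c) (inn := i) ho [] X' q)
  refine ⟨l, ?_, fun X p => ?_⟩
  · rw [cv_append, hp₀]
    exact h1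
  · rw [vl_append, hp₀]
    exact (h2 _ _).trans_gt (wrap_gt_arg hi [] X p q)

theorem gt_odd {ω : List (Wr S)} (hp : par ω = true) (hs : StrictW ω) (he : EndsArg ω)
    (X X' p q : Term S) : Gt (inst (vl var ω X p) (cv var ω X' q)) (inst q p) := by
  obtain ⟨l, h1, h2⟩ := gt_odd_core hp hs he X' q
  exact (h1 _).trans_gt (h2 X p)

/-! ### Typing -/

variable {P : Spec S}

/-- Well-typed walks from the sort of the wrapped type to the sort of the payload type, for the
answer type `R`. -/
inductive WT (U : Univ P) (R : Term S) : S → List (Wr S) → S → Prop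
  | nil (s : S) : WT U R s [] s
  | res {s₁ s₂ s₃ t : S} {o d : Term S} {ω : List (Wr S)} : P.rule s₁ s₂ s₃ →
      Ty P U.Θ o (sort s₁) → Ty P U.Θ d o → WT U R s₂ ω t → WT U R s₃ (.res o d :: ω) t
  | arg {s₁ s₂ s₃ t : S} {c inn out : Term S} {ω : List (Wr S)} : P.rule s₁ s₂ s₃ →
      Ty P U.Θ c (sort s₂) → Ty P (ext U.Θ R) inn (wk c) → Ty P (ext U.Θ c) out (wk R) →
      WT U R s₁ ω t → WT U R s₃ (.arg c inn out :: ω) t

variable {U : Univ P} {R : Term S} {Γ : Ctx S} {θ : ℕ → Term S}

theorem WT.append {s t r : S} {ω ω' : List (Wr S)} (h : WT U R s ω t) (h' : WT U R t ω' r) :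
    WT U R s (ω ++ ω') r := by
  induction h with
  | nil s => exact h'
  | res hr ho hd _ ih => exact WT.res hr ho hd (ih h')
  | arg hr hc hi ho _ ih => exact WT.arg hr hc hi ho (ih h')

theorem WT.split {s r : S} {ω ω' : List (Wr S)} (h : WT U R s (ω ++ ω') r) :
    ∃ t, WT U R s ω t ∧ WT U R t ω' r := by
  induction ω generalizing s with
  | nil => exact ⟨s, WT.nil s, h⟩
  | cons w ω ih =>
    rw [List.cons_append] at h
    cases h with
    | res hr ho hd h =>
      obtain ⟨t, h1, h2⟩ := ih h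
      exact ⟨t, WT.res hr ho hd h1, h2⟩
    | arg hr hc hi ho h =>
      obtain ⟨t, h1, h2⟩ := ih h
      exact ⟨t, WT.arg hr hc hi ho h1, h2⟩

/-- Covariant walks do not depend on the answer type. -/
theorem WT.of_cnt_zero {s t : S} {ω : List (Wr S)} (h : WT U R s ω t) (h0 : cnt ω = 0)
    (R' : Term S) : WT U R' s ω t := by
  induction h with
  | nil s => exact WT.nil s
  | res hr ho hd _ ih => exact WT.res hr ho hd (ih h0)
  | arg hr hc hi ho _ ih => simp at h0

theorem exists_wt_res (U : Univ P) (R : Term S) {s t : S} (h : ResReach P s t) :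
    ∃ ω, cnt ω = 0 ∧ WT U R s ω t := by
  induction h with
  | refl s => exact ⟨[], rfl, WT.nil s⟩
  | step hr _ ih =>
    obtain ⟨ω, h0, hω⟩ := ih
    obtain ⟨o, ho⟩ := (U.inh hr).1
    obtain ⟨i, hi⟩ := U.exists_var ho
    exact ⟨.res o (var i) :: ω, h0, WT.res hr ho hi hω⟩

theorem WT.ty_wrap {s t : S} {ω : List (Wr S)} (h : WT U R s ω t) (hθ : SubTy P Γ θ U.Θ)
    {X : Term S} (hX : Ty P Γ X (sort t)) : Ty P Γ (wrap θ ω X) (sort s) := by
  induction h with
  | nil s => exact hX
  | res hr ho _ _ ih => exact Ty.pi (ho.sub_sort hθ) ((ih hX).wk_sort _) hr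
  | arg hr hc _ _ _ ih => exact Ty.pi (ih hX) ((hc.sub_sort hθ).wk_sort _) hr

theorem ty_holeApp {A B a q T : Term S} (ha : Ty P Γ a A)
    (hq : Ty P (ext Γ (inst a B)) q (wk T)) :
    Ty P (ext Γ (pi A B)) (holeApp a q) (wk T) := by
  have h0 : Ty P (ext Γ (pi A B)) (app (var 0) (wk a)) (sub (wkS var) (inst a B)) := by
    rw [← wk_sub, sub_id, wk, wk, ren_inst]
    exact Ty.app (Ty.var (Γ := ext Γ (pi A B)) 0) (ha.wk _)
  have := hq.sub ((subTy_id.wkS (pi A B)).cons h0)
  rwa [sub_scons_wk, ← wk_sub, sub_id] at this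

theorem WT.ty_vc {s t : S} {ω : List (Wr S)} (h : WT U R s ω t) (hθ : SubTy P Γ θ U.Θ)
    {X p : Term S} (hX : Ty P Γ X (sort t)) :
    ((if par ω then Ty P (ext Γ X) p (wk (sub θ R)) else Ty P Γ p X) →
      Ty P Γ (vl θ ω X p) (wrap θ ω X)) ∧
    ((if par ω then Ty P Γ p X else Ty P (ext Γ X) p (wk (sub θ R))) →
      Ty P (ext Γ (wrap θ ω X)) (cv θ ω X p) (wk (sub θ R))) := by
  induction h with
  | nil s => exact ⟨id, id⟩
  | res hr ho hd h ih =>
    exact ⟨fun hp => Ty.lam (((ih hX).1 hp).wk _) ((WT.res hr ho hd h).ty_wrap hθ hX),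
      fun hp => ty_holeApp (hd.sub hθ) (by rw [inst_wk]; exact (ih hX).2 hp)⟩
  | @arg s₁ s₂ s₃ t c inn out ω hr hc hi ho h ih =>
    refine ⟨fun hp => Ty.lam ?_ ((WT.arg hr hc hi ho h).ty_wrap hθ hX), fun hp => ?_⟩
    · have h1 := (ih hX).2 (by rw [par_arg] at hp; revert hp; cases par ω <;> exact id)
      rw [wk_sub] at h1
      have := hi.sub ((hθ.wkS _).cons h1)
      rwa [sub_scons_wk, ← wk_sub] at this
    · have h1 := (ih hX).1 (by rw [par_arg] at hp; revert hp; cases par ω <;> exact id)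
      have h2 : Ty P (ext Γ (wrap θ (.arg c inn out :: ω) X)) (app (var 0) (wk (vl θ ω X p)))
          (sub (wkS θ) c) := by
        rw [← wk_sub]
        refine Ty.app_wk ?_ (h1.wk _)
        have := Ty.var (P := P) (Γ := ext Γ (wrap θ (.arg c inn out :: ω) X)) 0
        rwa [ext_zero, wrap_arg, wk_pi, ren_upr_wk] at this
      have := ho.sub ((hθ.wkS _).cons h2)
      rwa [sub_scons_wk, ← wk_sub] at this

theorem WT.ty_vl_even {s t : S} {ω : List (Wr S)} (h : WT U R s ω t) (hθ : SubTy P Γ θ U.Θ)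
    {X p : Term S} (hX : Ty P Γ X (sort t)) (hp : par ω = false) (h' : Ty P Γ p X) :
    Ty P Γ (vl θ ω X p) (wrap θ ω X) := (h.ty_vc hθ hX).1 (by rw [hp]; exact h')
theorem WT.ty_vl_odd {s t : S} {ω : List (Wr S)} (h : WT U R s ω t) (hθ : SubTy P Γ θ U.Θ)
    {X p : Term S} (hX : Ty P Γ X (sort t)) (hp : par ω = true)
    (h' : Ty P (ext Γ X) p (wk (sub θ R))) : Ty P Γ (vl θ ω X p) (wrap θ ω X) :=
  (h.ty_vc hθ hX).1 (by rw [hp]; exact h')
theorem WT.ty_cv_even {s t : S} {ω : List (Wr S)} (h : WT U R s ω t) (hθ : SubTy P Γ θ U.Θ)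
    {X p : Term S} (hX : Ty P Γ X (sort t)) (hp : par ω = false)
    (h' : Ty P (ext Γ X) p (wk (sub θ R))) :
    Ty P (ext Γ (wrap θ ω X)) (cv θ ω X p) (wk (sub θ R)) :=
  (h.ty_vc hθ hX).2 (by rw [hp]; exact h')
theorem WT.ty_cv_odd {s t : S} {ω : List (Wr S)} (h : WT U R s ω t) (hθ : SubTy P Γ θ U.Θ)
    {X p : Term S} (hX : Ty P Γ X (sort t)) (hp : par ω = true) (h' : Ty P Γ p X) :
    Ty P (ext Γ (wrap θ ω X)) (cv θ ω X p) (wk (sub θ R)) :=
  (h.ty_vc hθ hX).2 (by rw [hp]; exact h')

end Crest.Agent.R298
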